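import Mathlib

/-!
Mertens' theorems with bounded error, in the form used for P031.
-/

namespace Vale.Agent.P031

open Finset Real

/-- `∑_{p ≤ N} log p / p`. -/
noncomputable def sumLogDiv (N : ℕ) : ℝ := ∑ p ∈ Nat.primesLE N, Real.log p / p

lemma log_factorial_eq (N : ℕ) :
    Real.log (N.factorial : ℝ)
      = ∑ p ∈ Nat.primesLE N, ((N.factorial).factorization p : ℝ) * Real.log p := by
  rw [Real.log_nat_eq_sum_factorization]
  unfold Finsupp.sum
  refine Finset.sum_subset ?_ ?_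
  · intro p hp
    rw [Nat.mem_primesLE]
    have hp' : p.Prime := Nat.prime_of_mem_primeFactors (by simpa using hp)
    refine ⟨?_, hp'⟩
    by_contra h
    have := Nat.factorization_factorial_eq_zero_of_lt (n := N) (p := p) (by omega)
    exact (Finsupp.mem_support_iff.mp hp) this
  · intro p _ hp
    rw [Finsupp.notMem_support_iff] at hp
    simp [hp]

lemma div_le_factorization_factorial {p : ℕ} (hp : p.Prime) (N : ℕ) :
    N / p ≤ (N.factorial).factorization p := by
  rw [Nat.factorization_factorial hp (b := Nat.log p N + 2) (by omega)]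
  have : 1 ∈ Finset.Ico 1 (Nat.log p N + 2) := by simp
  calc N / p = N / p ^ 1 := by rw [pow_one]
    _ ≤ _ := Finset.single_le_sum (f := fun i ↦ N / p ^ i) (fun i _ ↦ Nat.zero_le _) this

lemma sumLogDiv_le (N : ℕ) (hN : 1 ≤ N) : sumLogDiv N ≤ Real.log N + Real.log 4 := by
  have hN' : (0:ℝ) < N := by exact_mod_cast hN
  have h1 : (N:ℝ) * sumLogDiv N - Chebyshev.theta N ≤ Real.log (N.factorial : ℝ) := by
    rw [log_factorial_eq, Chebyshev.theta_eq_sum_primesLE_log, sumLogDiv, Finset.mul_sum,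
      ← Finset.sum_sub_distrib]
    refine Finset.sum_le_sum fun p hp ↦ ?_
    have hpp := Nat.prime_of_mem_primesLE hp
    have h2 : ((N / p : ℕ) : ℝ) ≤ ((N.factorial).factorization p : ℝ) := by
      exact_mod_cast div_le_factorization_factorial hpp N
    have h3 : (N:ℝ) / p - 1 ≤ ((N / p : ℕ) : ℝ) := by
      rw [← Nat.floor_div_eq_div (K := ℝ)]
      have := Nat.lt_floor_add_one ((N:ℝ) / p)
      linarith
    have h4 : 0 ≤ Real.log p := Real.log_natCast_nonneg p
    calc (N:ℝ) * (Real.log p / p) - Real.log p = ((N:ℝ) / p - 1) * Real.log p := by ring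
      _ ≤ _ := mul_le_mul_of_nonneg_right (h3.trans h2) h4
  have h2 : Real.log (N.factorial : ℝ) ≤ N * Real.log N := by
    rw [← Real.log_pow]
    exact Real.log_le_log (by exact_mod_cast N.factorial_pos)
      (by exact_mod_cast Nat.factorial_le_pow N)
  have h3 : Chebyshev.theta N ≤ Real.log 4 * N := Chebyshev.theta_le_log4_mul_x hN'.le
  have h4 : (N:ℝ) * sumLogDiv N ≤ N * (Real.log N + Real.log 4) := by linarith
  exact le_of_mul_le_mul_left h4 hN'

/-- The convergent majorant used for the lower bound. -/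
noncomputable def tailConst : ℝ := ∑' n : ℕ, 4 * (1 / (n:ℝ) ^ (3/2 : ℝ))

lemma summable_tail : Summable fun n : ℕ ↦ 4 * (1 / (n:ℝ) ^ (3/2 : ℝ)) :=
  (Real.summable_one_div_nat_rpow.mpr (by norm_num)).mul_left 4

lemma log_div_mul_pred_le {p : ℕ} (hp : 2 ≤ p) :
    Real.log p / ((p:ℝ) * ((p:ℝ) - 1)) ≤ 4 * (1 / (p:ℝ) ^ (3/2 : ℝ)) := by
  have hp' : (2:ℝ) ≤ p := by exact_mod_cast hp
  have hlog : Real.log p ≤ (p:ℝ) ^ (1/2 : ℝ) / (1/2 : ℝ) :=
    Real.log_le_rpow_div (by linarith) (by norm_num)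
  have hsplit : (p:ℝ) * p = (p:ℝ) ^ (1/2 : ℝ) * (p:ℝ) ^ (3/2 : ℝ) := by
    rw [← Real.rpow_add (by linarith)]
    norm_num
    ring
  have hden : (p:ℝ) * p / 2 ≤ (p:ℝ) * ((p:ℝ) - 1) := by nlinarith
  have hlog0 : 0 ≤ Real.log p := Real.log_natCast_nonneg p
  calc Real.log p / ((p:ℝ) * ((p:ℝ) - 1)) ≤ Real.log p / ((p:ℝ) * p / 2) := by
        gcongr
    _ ≤ ((p:ℝ) ^ (1/2 : ℝ) / (1/2 : ℝ)) / ((p:ℝ) * p / 2) := by gcongr
    _ = _ := by
        rw [hsplit]
        have h1 : (0:ℝ) < (p:ℝ) ^ (1/2 : ℝ) := by positivity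
        have h2 : (0:ℝ) < (p:ℝ) ^ (3/2 : ℝ) := by positivity
        field_simp
        ring

lemma le_sumLogDiv (N : ℕ) (hN : 1 ≤ N) :
    Real.log N - 1 - tailConst ≤ sumLogDiv N := by
  have hN' : (0:ℝ) < N := by exact_mod_cast hN
  have h1 : Real.log (N.factorial : ℝ)
      ≤ (N:ℝ) * (sumLogDiv N + tailConst) := by
    have hts : ∑ p ∈ Nat.primesLE N, Real.log p / ((p:ℝ) * ((p:ℝ) - 1)) ≤ tailConst := by
      refine le_trans (Finset.sum_le_sum fun p hp ↦
        log_div_mul_pred_le (Nat.prime_of_mem_primesLE hp).two_le) ?_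
      exact Summable.sum_le_tsum _ (fun i _ ↦ by positivity) summable_tail
    refine le_trans ?_ (mul_le_mul_of_nonneg_left
      (add_le_add le_rfl hts) hN'.le)
    rw [log_factorial_eq, sumLogDiv, ← Finset.sum_add_distrib, Finset.mul_sum]
    refine Finset.sum_le_sum fun p hp ↦ ?_
    have hpp := Nat.prime_of_mem_primesLE hp
    have hp2 : (2:ℝ) ≤ p := by exact_mod_cast hpp.two_le
    have h2 : ((N.factorial).factorization p : ℝ) ≤ (N:ℝ) / ((p:ℝ) - 1) := by
      calc ((N.factorial).factorization p : ℝ) ≤ ((N / (p - 1) : ℕ) : ℝ) := by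
            exact_mod_cast Nat.factorization_factorial_le_div_pred hpp N
        _ ≤ (N:ℝ) / ((p - 1 : ℕ) : ℝ) := Nat.cast_div_le
        _ = _ := by rw [Nat.cast_sub hpp.one_le, Nat.cast_one]
    have h4 : 0 ≤ Real.log p := Real.log_natCast_nonneg p
    have hp1 : (p:ℝ) - 1 ≠ 0 := by linarith
    calc ((N.factorial).factorization p : ℝ) * Real.log p
          ≤ (N:ℝ) / ((p:ℝ) - 1) * Real.log p := mul_le_mul_of_nonneg_right h2 h4
      _ = _ := by
        field_simp
        ring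
  have h2 : (N:ℝ) * Real.log N - N ≤ Real.log (N.factorial : ℝ) := by
    have := Real.pow_div_factorial_le_exp (N:ℝ) hN'.le N
    have hf : (0:ℝ) < N.factorial := by exact_mod_cast N.factorial_pos
    rw [div_le_iff₀ hf] at this
    have h3 := Real.log_le_log (by positivity) this
    rw [Real.log_pow, Real.log_mul (Real.exp_ne_zero _) hf.ne', Real.log_exp] at h3
    linarith
  have h4 : (N:ℝ) * (Real.log N - 1 - tailConst) ≤ N * sumLogDiv N := by linarith
  exact le_of_mul_le_mul_left h4 hN'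

/-- Primes `p` with `log p ≤ t`. -/
noncomputable def primesExp (t : ℝ) : Finset ℕ := Nat.primesLE ⌊Real.exp t⌋₊

lemma mem_primesExp {t : ℝ} {p : ℕ} :
    p ∈ primesExp t ↔ p.Prime ∧ Real.log p ≤ t := by
  rw [primesExp, Nat.mem_primesLE]
  constructor
  · rintro ⟨h, hp⟩
    refine ⟨hp, ?_⟩
    rw [Nat.le_floor_iff (Real.exp_pos t).le] at h
    exact (Real.log_le_iff_le_exp (by exact_mod_cast hp.pos)).mpr h
  · rintro ⟨hp, h⟩
    refine ⟨?_, hp⟩
    rw [Nat.le_floor_iff (Real.exp_pos t).le]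
    exact (Real.log_le_iff_le_exp (by exact_mod_cast hp.pos)).mp h

lemma exists_abs_sumLogDiv_exp :
    ∃ C, 0 ≤ C ∧ ∀ t : ℝ, 0 ≤ t →
      |∑ p ∈ primesExp t, Real.log p / p - t| ≤ C := by
  have htail : 0 ≤ tailConst := tsum_nonneg fun n ↦ by positivity
  refine ⟨Real.log 4 + tailConst + 2, by positivity, fun t ht ↦ ?_⟩
  set N := ⌊Real.exp t⌋₊ with hN
  have h1 : 1 ≤ N := Nat.le_floor (by simpa using Real.one_le_exp ht)
  have hN0 : (0:ℝ) < N := by exact_mod_cast h1
  have h2 : Real.log N ≤ t :=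
    (Real.log_le_iff_le_exp hN0).mpr (Nat.floor_le (Real.exp_pos t).le)
  have h3 : t ≤ Real.log N + 1 := by
    have h : Real.exp t < 2 * N := by
      have := Nat.lt_floor_add_one (Real.exp t)
      have h1' : (1:ℝ) ≤ N := by exact_mod_cast h1
      rw [← hN] at this
      linarith
    have := Real.log_le_log (Real.exp_pos t) h.le
    rw [Real.log_exp, Real.log_mul (by norm_num) hN0.ne'] at this
    have := Real.log_two_lt_d9
    linarith
  have hu := sumLogDiv_le N h1
  have hl := le_sumLogDiv N h1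
  have hlog4 : 0 ≤ Real.log 4 := Real.log_nonneg (by norm_num)
  rw [abs_le]
  unfold primesExp
  unfold sumLogDiv at hu hl
  rw [← hN]
  constructor <;> linarith

lemma primesExp_mono {s t : ℝ} (h : s ≤ t) : primesExp s ⊆ primesExp t := by
  intro p hp
  rw [mem_primesExp] at hp ⊢
  exact ⟨hp.1, hp.2.trans h⟩

lemma exists_abs_sum_inv_prime_nat :
    ∃ C, 0 ≤ C ∧ ∀ J : ℕ, 1 ≤ J →
      |∑ p ∈ primesExp J, (1:ℝ) / p - Real.log J| ≤ C := by
  obtain ⟨C, hC0, hC⟩ := exists_abs_sumLogDiv_exp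
  set A : ℕ → ℝ := fun J ↦ ∑ p ∈ primesExp (J:ℝ), Real.log p / p
  set Q : ℕ → ℝ := fun J ↦ ∑ p ∈ primesExp (J:ℝ), (1:ℝ) / p
  set D : ℕ → ℝ := fun J ↦ A J - J
  have hD : ∀ J, |D J| ≤ C := fun J ↦ hC J (Nat.cast_nonneg J)
  have hstep : ∀ J : ℕ, 1 ≤ J →
      Q (J+1) - Q J ≤ (A (J+1) - A J) / J ∧ (A (J+1) - A J) / (J+1) ≤ Q (J+1) - Q J := by
    intro J hJ
    have hJ' : (0:ℝ) < J := by exact_mod_cast hJ
    have hsub : primesExp (J:ℝ) ⊆ primesExp ((J+1:ℕ):ℝ) :=
      primesExp_mono (by push_cast; linarith)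
    simp only [A, Q]
    rw [← Finset.sum_sdiff_eq_sub hsub, ← Finset.sum_sdiff_eq_sub hsub, Finset.sum_div,
      Finset.sum_div]
    constructor <;> refine Finset.sum_le_sum fun p hp ↦ ?_
    all_goals
      rw [Finset.mem_sdiff, mem_primesExp, mem_primesExp] at hp
      obtain ⟨⟨hpp, hle⟩, hnot⟩ := hp
      have hp0 : (0:ℝ) < p := by exact_mod_cast hpp.pos
      have hgt : (J:ℝ) < Real.log p := lt_of_not_ge fun h ↦ hnot ⟨hpp, h⟩
      push_cast at hle
    · rw [div_le_div_iff₀ hp0 hJ', div_mul_cancel₀ _ hp0.ne']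
      linarith
    · rw [div_div, div_le_div_iff₀ (by positivity) hp0]
      nlinarith
  have hup : ∀ J : ℕ, 1 ≤ J →
      Q J ≤ (harmonic (J-1) : ℝ) + D J / J + C * (1 - 1/(J:ℝ)) + (Q 1 + C) := by
    intro J hJ
    induction J, hJ using Nat.le_induction with
    | base =>
      have := abs_le.mp (hD 1)
      simp [harmonic]
      linarith
    | succ J hJ ih =>
      have hJ' : (0:ℝ) < J := by exact_mod_cast hJ
      obtain ⟨j, rfl⟩ : ∃ j, J = j + 1 := ⟨J - 1, by omega⟩
      have hs := (hstep (j+1) hJ).1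
      have hd := abs_le.mp (hD (j+1+1))
      simp only [Nat.add_sub_cancel] at ih ⊢
      rw [harmonic_succ]
      have hA : A (j+1+1) - A (j+1) = 1 + D (j+1+1) - D (j+1) := by
        simp only [D]; push_cast; ring
      rw [hA] at hs
      push_cast at hs ih hJ' ⊢
      have key : (1 + D (j+1+1) - D (j+1)) / ((j:ℝ)+1)
          = ((j:ℝ)+1)⁻¹ + D (j+1+1) / ((j:ℝ)+1+1) - D (j+1) / ((j:ℝ)+1)
            + D (j+1+1) * (1/((j:ℝ)+1) - 1/((j:ℝ)+1+1)) := by
        field_simp
        ring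
      have hnn : (0:ℝ) ≤ 1/((j:ℝ)+1) - 1/((j:ℝ)+1+1) := by
        rw [sub_nonneg]
        gcongr
        linarith
      have := mul_le_mul_of_nonneg_right hd.2 hnn
      rw [key] at hs
      linarith
  have hlow : ∀ J : ℕ, 1 ≤ J →
      (harmonic J : ℝ) + D J / J - C * (1 - 1/(J:ℝ)) - (1 + C - Q 1) ≤ Q J := by
    intro J hJ
    induction J, hJ using Nat.le_induction with
    | base =>
      have := abs_le.mp (hD 1)
      simp [harmonic]
      linarith
    | succ J hJ ih =>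
      have hJ' : (0:ℝ) < J := by exact_mod_cast hJ
      have hs := (hstep J hJ).2
      have hd := abs_le.mp (hD J)
      rw [harmonic_succ]
      have hA : A (J+1) - A J = 1 + D (J+1) - D J := by
        simp only [D]; push_cast; ring
      rw [hA] at hs
      push_cast at hs ⊢
      have key : (1 + D (J+1) - D J) / ((J:ℝ)+1)
          = ((J:ℝ)+1)⁻¹ + D (J+1) / ((J:ℝ)+1) - D J / (J:ℝ)
            + D J * (1/(J:ℝ) - 1/((J:ℝ)+1)) := by
        field_simp
        ring
      have hnn : (0:ℝ) ≤ 1/(J:ℝ) - 1/((J:ℝ)+1) := by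
        rw [sub_nonneg]
        gcongr
        linarith
      have := mul_le_mul_of_nonneg_right hd.1 hnn
      rw [key] at hs
      linarith
  refine ⟨|Q 1| + 4 * C + 3, by positivity, fun J hJ ↦ ?_⟩
  have hJ' : (1:ℝ) ≤ J := by exact_mod_cast hJ
  have h1 := hup J hJ
  have h2 := hlow J hJ
  have h3 : |D J / J| ≤ C := by
    rw [abs_div, abs_of_pos (by linarith : (0:ℝ) < J)]
    exact (div_le_self (abs_nonneg _) hJ').trans (hD J)
  have h4 := abs_le.mp h3
  have h5 : 0 ≤ 1/(J:ℝ) := by positivity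
  have h6 : C * (1 - 1/(J:ℝ)) ≤ C := by nlinarith
  have h7 : (harmonic (J-1) : ℝ) ≤ 1 + Real.log J := by
    refine (harmonic_le_one_add_log (J-1)).trans ?_
    rcases Nat.eq_zero_or_pos (J-1) with h | h
    · rw [h]; simp; exact Real.log_nonneg hJ'
    · gcongr
      exact Nat.sub_le J 1
  have h8 : Real.log J ≤ (harmonic J : ℝ) := by
    refine le_trans ?_ (log_add_one_le_harmonic J)
    exact Real.log_le_log (by linarith) (by exact_mod_cast Nat.le_succ J)
  have h9 := le_abs_self (Q 1)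
  have h10 := neg_abs_le (Q 1)
  rw [abs_le]
  constructor <;> linarith

/-- Mertens' second theorem, with the primes cut at `log p ≤ exp s`. -/
lemma exists_abs_sum_inv_prime :
    ∃ C, 0 ≤ C ∧ ∀ s : ℝ, 0 ≤ s →
      |∑ p ∈ primesExp (Real.exp s), (1:ℝ) / p - s| ≤ C := by
  obtain ⟨C, hC0, hC⟩ := exists_abs_sum_inv_prime_nat
  refine ⟨C + 1, by positivity, fun s hs ↦ ?_⟩
  set J := ⌊Real.exp s⌋₊ with hJdef
  have hJ : 1 ≤ J := Nat.le_floor (by simpa using Real.one_le_exp hs)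
  have hJ0 : (1:ℝ) ≤ J := by exact_mod_cast hJ
  have hJle : (J:ℝ) ≤ Real.exp s := Nat.floor_le (Real.exp_pos s).le
  have hJgt : Real.exp s < ((J+1:ℕ):ℝ) := by
    push_cast
    exact Nat.lt_floor_add_one _
  have hlo : Real.log J ≤ s :=
    (Real.log_le_iff_le_exp (by linarith)).mpr hJle
  have hhi : s ≤ Real.log ((J+1:ℕ):ℝ) := by
    have := Real.log_le_log (Real.exp_pos s) hJgt.le
    rwa [Real.log_exp] at this
  have hgap : Real.log ((J+1:ℕ):ℝ) ≤ Real.log J + 1 := by
    have h : ((J+1:ℕ):ℝ) ≤ 2 * J := by push_cast; linarith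
    have := Real.log_le_log (by positivity) h
    rw [Real.log_mul (by norm_num) (by linarith)] at this
    have := Real.log_two_lt_d9
    linarith
  have a1 : ∑ p ∈ primesExp (J:ℝ), (1:ℝ) / p ≤ ∑ p ∈ primesExp (Real.exp s), (1:ℝ) / p :=
    Finset.sum_le_sum_of_subset_of_nonneg (primesExp_mono hJle) (fun i _ _ ↦ by positivity)
  have a2 : ∑ p ∈ primesExp (Real.exp s), (1:ℝ) / p
      ≤ ∑ p ∈ primesExp ((J+1:ℕ):ℝ), (1:ℝ) / p :=
    Finset.sum_le_sum_of_subset_of_nonneg (primesExp_mono hJgt.le) (fun i _ _ ↦ by positivity)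
  have b1 := abs_le.mp (hC J hJ)
  have b2 := abs_le.mp (hC (J+1) (by omega))
  rw [abs_le]
  constructor <;> linarith

/-- Lower bound for `∑_{p ≤ n} 1/p`. -/
lemma exists_le_sum_inv_primesLE :
    ∃ C, 0 ≤ C ∧ ∀ n : ℕ, 3 ≤ n →
      Real.log (Real.log n) - C ≤ ∑ p ∈ Nat.primesLE n, (1:ℝ) / p := by
  obtain ⟨C, hC0, hC⟩ := exists_abs_sum_inv_prime
  refine ⟨C, hC0, fun n hn ↦ ?_⟩
  have hn' : (3:ℝ) ≤ n := by exact_mod_cast hn
  have h1 : 1 ≤ Real.log n := by
    rw [Real.le_log_iff_exp_le (by linarith)]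
    linarith [Real.exp_one_lt_d9]
  have h := hC _ (Real.log_nonneg h1)
  rw [Real.exp_log (by linarith)] at h
  have heq : primesExp (Real.log n) = Nat.primesLE n := by
    rw [primesExp, Real.exp_log (by linarith), Nat.floor_natCast]
  rw [heq] at h
  linarith [(abs_le.mp h).1]

end Vale.Agent.P031
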