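import Mathlib

/-!
Brun's pure sieve as an upper bound, for arbitrary forbidden residue classes.
-/

namespace Vale.Agent.P031.Brun

open Finset

/-- The elementary symmetric sum of degree r of the x i, i in s. -/
def esym (x : ℕ → ℝ) (s : Finset ℕ) (r : ℕ) : ℝ := ∑ S ∈ s.powersetCard r, ∏ p ∈ S, x p

lemma esym_empty_succ (x : ℕ → ℝ) (r : ℕ) : esym x ∅ (r + 1) = 0 := by
  have h : (∅ : Finset ℕ).powersetCard (r + 1) = ∅ := Finset.powersetCard_eq_empty.2 (by simp)
  simp [esym, h]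

/-- The inclusion-exclusion sum truncated after degree L. -/
def trunc (x : ℕ → ℝ) (s : Finset ℕ) (L : ℕ) : ℝ := ∑ r ∈ range (L + 1), (-1) ^ r * esym x s r

lemma esym_zero (x : ℕ → ℝ) (s : Finset ℕ) : esym x s 0 = 1 := by simp [esym]

lemma esym_nonneg {x : ℕ → ℝ} {s : Finset ℕ} (hx : ∀ p ∈ s, 0 ≤ x p) (r : ℕ) : 0 ≤ esym x s r :=
  Finset.sum_nonneg fun _ hS => Finset.prod_nonneg fun p hp =>
    hx p ((Finset.mem_powersetCard.1 hS).1 hp)

lemma esym_insert (x : ℕ → ℝ) {s : Finset ℕ} {a : ℕ} (ha : a ∉ s) (r : ℕ) :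
    esym x (insert a s) (r + 1) = esym x s (r + 1) + x a * esym x s r := by
  classical
  have hnot : ∀ S ∈ s.powersetCard r, a ∉ S := fun S hS h => ha ((Finset.mem_powersetCard.1 hS).1 h)
  rw [esym, esym, esym, Finset.powersetCard_succ_insert ha, Finset.sum_union, Finset.mul_sum]
  · congr 1
    rw [Finset.sum_image]
    · exact Finset.sum_congr rfl fun S hS => by rw [Finset.prod_insert (hnot S hS)]
    · intro S hS T hT h
      have := congrArg (Finset.erase · a) h
      simpa [Finset.erase_insert (hnot S hS), Finset.erase_insert (hnot T hT)] using this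
  · rw [Finset.disjoint_left]
    intro S hS hS'
    obtain ⟨T, _, rfl⟩ := Finset.mem_image.1 hS'
    exact ha ((Finset.mem_powersetCard.1 hS).1 (Finset.mem_insert_self a T))

lemma trunc_insert (x : ℕ → ℝ) {s : Finset ℕ} {a : ℕ} (ha : a ∉ s) (L : ℕ) :
    trunc x (insert a s) (L + 1) = trunc x s (L + 1) - x a * trunc x s L := by
  simp only [trunc, Finset.sum_range_succ' _ (L + 1), esym_zero, esym_insert x ha, Finset.mul_sum]
  have h : ∀ k : ℕ, (-1 : ℝ) ^ (k + 1) * (esym x s (k + 1) + x a * esym x s k) =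
      (-1) ^ (k + 1) * esym x s (k + 1) - x a * ((-1) ^ k * esym x s k) := fun k => by ring
  simp only [h, Finset.sum_sub_distrib]
  ring

lemma trunc_sub_prod {x : ℕ → ℝ} {s : Finset ℕ} (hx : ∀ p ∈ s, 0 ≤ x p ∧ x p ≤ 1) (L : ℕ) :
    0 ≤ (-1) ^ L * (trunc x s L - ∏ p ∈ s, (1 - x p)) ∧
      (-1) ^ L * (trunc x s L - ∏ p ∈ s, (1 - x p)) ≤ esym x s (L + 1) := by
  classical
  induction s using Finset.induction generalizing L with
  | empty =>
    have h : trunc x ∅ L = 1 := by
      rw [trunc, Finset.sum_range_succ', esym_zero]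
      simp [esym_empty_succ]
    simp [h, esym_empty_succ]
  | insert a s ha ih =>
    obtain ⟨hxa, hxa1⟩ := hx a (Finset.mem_insert_self a s)
    have hs : ∀ p ∈ s, 0 ≤ x p ∧ x p ≤ 1 := fun p hp => hx p (Finset.mem_insert_of_mem hp)
    have hP0 : 0 ≤ ∏ p ∈ s, (1 - x p) := Finset.prod_nonneg fun p hp => by linarith [(hs p hp).2]
    have hP1 : ∏ p ∈ s, (1 - x p) ≤ 1 :=
      Finset.prod_le_one (fun p hp => by linarith [(hs p hp).2]) fun p hp => by linarith [(hs p hp).1]
    rw [Finset.prod_insert ha, esym_insert x ha]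
    cases L with
    | zero =>
      obtain ⟨h1, h2⟩ := ih hs 0
      have e : trunc x (insert a s) 0 = trunc x s 0 := by simp [trunc, esym_zero]
      rw [e]
      simp only [pow_zero, one_mul, esym_zero] at h1 h2 ⊢
      constructor <;> nlinarith
    | succ L =>
      obtain ⟨h1, h2⟩ := ih hs (L + 1)
      obtain ⟨h3, h4⟩ := ih hs L
      rw [trunc_insert x ha]
      have e : (-1 : ℝ) ^ (L + 1) * (trunc x s (L + 1) - x a * trunc x s L -
          (1 - x a) * ∏ p ∈ s, (1 - x p)) =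
          (-1) ^ (L + 1) * (trunc x s (L + 1) - ∏ p ∈ s, (1 - x p)) +
          x a * ((-1) ^ L * (trunc x s L - ∏ p ∈ s, (1 - x p))) := by
        rw [pow_succ]; ring
      rw [e]
      exact ⟨add_nonneg h1 (mul_nonneg hxa h3),
        add_le_add h2 (mul_le_mul_of_nonneg_left h4 hxa)⟩

lemma esym_succ_le {x : ℕ → ℝ} {s : Finset ℕ} (hx : ∀ p ∈ s, 0 ≤ x p) (r : ℕ) :
    esym x s r ≤ (∑ p ∈ s, x p) ^ r / (Nat.factorial r : ℝ) := by
  classical
  induction s using Finset.induction generalizing r with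
  | empty =>
    cases r with
    | zero => simp [esym]
    | succ r => simp [esym_empty_succ]
  | insert a s ha ih =>
    have hs : ∀ p ∈ s, 0 ≤ x p := fun p hp => hx p (Finset.mem_insert_of_mem hp)
    have hxa : 0 ≤ x a := hx a (Finset.mem_insert_self a s)
    have hS : 0 ≤ ∑ p ∈ s, x p := Finset.sum_nonneg hs
    cases r with
    | zero => simp [esym]
    | succ r =>
      rw [esym_insert x ha, Finset.sum_insert ha]
      calc esym x s (r + 1) + x a * esym x s r
          ≤ (∑ p ∈ s, x p) ^ (r + 1) / (Nat.factorial (r + 1) : ℝ) +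
            x a * ((∑ p ∈ s, x p) ^ r / (Nat.factorial r : ℝ)) :=
            add_le_add (ih hs _) (mul_le_mul_of_nonneg_left (ih hs r) hxa)
        _ = ((∑ p ∈ s, x p) ^ (r + 1) + (r + 1) * x a * (∑ p ∈ s, x p) ^ r) /
            (Nat.factorial (r + 1) : ℝ) := by
            rw [Nat.factorial_succ]; push_cast; field_simp
        _ ≤ _ := by
            refine div_le_div_of_nonneg_right ?_ (by positivity)
            generalize (∑ p ∈ s, x p) = S at hS
            have hbin : S ^ (r + 1) + ((r : ℝ) + 1) * x a * S ^ r ≤ (x a + S) ^ (r + 1) := by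
              induction r with
              | zero => simp; linarith
              | succ r ihr =>
                have h1 := mul_le_mul_of_nonneg_right ihr (add_nonneg hxa hS)
                rw [← pow_succ] at h1
                have h2 : 0 ≤ ((r : ℝ) + 1) * x a * x a * S ^ r := by positivity
                push_cast
                ring_nf at h1 h2 ⊢
                linarith
            exact hbin

lemma sum_powersetCard_le (x : ℕ → ℝ) (s : Finset ℕ) (hx : ∀ p ∈ s, 0 ≤ x p) (L : ℕ) :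
    ∑ r ∈ range (L + 1), esym x s r ≤ (1 + ∑ p ∈ s, x p) ^ L := by
  induction L with
  | zero => simp [esym_zero]
  | succ L ih =>
    rw [Finset.sum_range_succ]
    have hS : 0 ≤ ∑ p ∈ s, x p := Finset.sum_nonneg hx
    have h : esym x s (L + 1) ≤ (1 + ∑ p ∈ s, x p) ^ L * (∑ p ∈ s, x p) := by
      refine (esym_succ_le hx (L + 1)).trans ?_
      rw [pow_succ]
      refine le_trans (div_le_self (by positivity) ?_) ?_
      · exact_mod_cast Nat.one_le_iff_ne_zero.2 (Nat.factorial_ne_zero _)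
      · exact mul_le_mul_of_nonneg_right (pow_le_pow_left₀ hS (by linarith) L) hS
    calc _ ≤ (1 + ∑ p ∈ s, x p) ^ L + (1 + ∑ p ∈ s, x p) ^ L * (∑ p ∈ s, x p) := add_le_add ih h
      _ = _ := by rw [pow_succ]; ring

/-- The integers in (0, N] avoiding the classes Ω p mod p for every p in P. -/
def sifted (P : Finset ℕ) (Ω : ℕ → Finset ℕ) (N : ℕ) : Finset ℕ :=
  (Ioc 0 N).filter fun n => ∀ p ∈ P, n % p ∉ Ω p

lemma count_classes {S : Finset ℕ} (hS : ∀ p ∈ S, p.Prime) (Ω : ℕ → Finset ℕ)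
    (hΩ : ∀ p ∈ S, ∀ a ∈ Ω p, a < p) (N : ℕ) :
    |((((Ioc 0 N).filter fun n => ∀ p ∈ S, n % p ∈ Ω p).card : ℕ) : ℝ) -
      N * ∏ p ∈ S, ((Ω p).card : ℝ) / p| ≤ ∏ p ∈ S, ((Ω p).card : ℝ) := by
  classical
  set d := ∏ p ∈ S, p with hd
  have hd0 : 0 < d := Finset.prod_pos fun p hp => (hS p hp).pos
  set R := (range d).filter fun a => ∀ p ∈ S, a % p ∈ Ω p with hR
  have hco : Set.Pairwise (S : Set ℕ) (Function.onFun Nat.Coprime id) := fun p hp q hq hne =>
    (Nat.coprime_primes (hS p hp) (hS q hq)).2 hne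
  have hRc : R.card = ∏ p ∈ S, (Ω p).card := by
    rw [← Finset.card_pi]
    refine Finset.card_bij (fun a _ p _ => a % p) ?_ ?_ ?_
    · intro a ha
      exact Finset.mem_pi.2 fun p hp => (Finset.mem_filter.1 ha).2 p hp
    · intro a ha b hb h
      have hab : ∀ p ∈ S, a ≡ b [MOD p] := fun p hp => congrFun (congrFun h p) hp
      have hdvd : (d : ℤ) ∣ (b : ℤ) - a := by
        rw [hd]; push_cast
        refine Finset.prod_dvd_of_coprime ?_ fun p hp => Nat.modEq_iff_dvd.1 (hab p hp)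
        intro p hp q hq hne
        exact (Nat.isCoprime_iff_coprime).2 (hco hp hq hne)
      have := Nat.modEq_iff_dvd.2 hdvd
      rwa [Nat.ModEq, Nat.mod_eq_of_lt (Finset.mem_range.1 (Finset.mem_filter.1 ha).1),
        Nat.mod_eq_of_lt (Finset.mem_range.1 (Finset.mem_filter.1 hb).1)] at this
    · intro f hf
      set g : ℕ → ℕ := fun p => if hp : p ∈ S then f p hp else 0 with hg
      obtain ⟨k, hk⟩ := Nat.chineseRemainderOfFinset g id S (fun p hp => (hS p hp).ne_zero) hco
      have hkp : ∀ p (hp : p ∈ S), k % d % p = f p hp := by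
        intro p hp
        rw [Nat.mod_mod_of_dvd _ (Finset.dvd_prod_of_mem _ hp)]
        have := hk p hp
        rw [Nat.ModEq] at this
        simp only [id_eq, hg, dif_pos hp] at this
        rw [this, Nat.mod_eq_of_lt (hΩ p hp _ (Finset.mem_pi.1 hf p hp))]
      refine ⟨k % d, ?_, ?_⟩
      · rw [hR, Finset.mem_filter, Finset.mem_range]
        exact ⟨Nat.mod_lt _ hd0, fun p hp => by rw [hkp p hp]; exact Finset.mem_pi.1 hf p hp⟩
      · funext p hp; exact hkp p hp
  have hset : (Ioc 0 N).filter (fun n => ∀ p ∈ S, n % p ∈ Ω p) =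
      R.biUnion fun a => (Ioc 0 N).filter fun n => n % d = a := by
    ext n
    simp only [Finset.mem_filter, Finset.mem_biUnion, hR, Finset.mem_range]
    constructor
    · rintro ⟨hn, hp⟩
      exact ⟨n % d, ⟨Nat.mod_lt _ hd0, fun p hpS => by
        rw [Nat.mod_mod_of_dvd _ (Finset.dvd_prod_of_mem _ hpS)]; exact hp p hpS⟩, hn, rfl⟩
    · rintro ⟨a, ⟨_, ha⟩, hn, rfl⟩
      exact ⟨hn, fun p hpS => by
        have := ha p hpS; rwa [Nat.mod_mod_of_dvd _ (Finset.dvd_prod_of_mem _ hpS)] at this⟩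
  have hclass : ∀ a ∈ R, |((((Ioc 0 N).filter fun n => n % d = a).card : ℕ) : ℝ) - (N : ℝ) / d| ≤ 1 := by
    intro a ha
    have hlt : a < d := Finset.mem_range.1 (Finset.mem_filter.1 ha).1
    have he : ((Ioc 0 N).filter fun n => n % d = a) = (Ioc 0 N).filter fun n => n ≡ a [MOD d] := by
      refine Finset.filter_congr fun n _ => ?_
      rw [Nat.ModEq, Nat.mod_eq_of_lt hlt]
    rw [he]
    have h := Nat.Ioc_filter_modEq_card (a := 0) (b := N) (r := d) hd0 a
    have hz : (((Ioc 0 N).filter fun n => n ≡ a [MOD d]).card : ℤ) =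
        max (⌊((N : ℚ) - a) / d⌋ - ⌊((0 : ℚ) - a) / d⌋) 0 := by exact_mod_cast h
    set F1 := ⌊((N : ℚ) - a) / d⌋
    set F2 := ⌊((0 : ℚ) - a) / d⌋
    have h1 := Int.floor_le (((N : ℚ) - a) / d)
    have h2 := Int.lt_floor_add_one (((N : ℚ) - a) / d)
    have h3 := Int.floor_le (((0 : ℚ) - a) / d)
    have h4 := Int.lt_floor_add_one (((0 : ℚ) - a) / d)
    have e : ((N : ℚ) - a) / d - ((0 : ℚ) - a) / d = (N : ℚ) / d := by ring
    have hN : (0 : ℚ) ≤ (N : ℚ) / d := by positivity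
    have hq : |(((((Ioc 0 N).filter fun n => n ≡ a [MOD d]).card : ℤ)) : ℚ) - (N : ℚ) / d| ≤ 1 := by
      rw [hz, Int.cast_max, Int.cast_sub, Int.cast_zero, abs_le]
      constructor
      · have := le_max_left ((F1 : ℚ) - F2) 0; linarith
      · rcases max_cases ((F1 : ℚ) - F2) 0 with ⟨h5, _⟩ | ⟨h5, _⟩ <;> rw [h5] <;> linarith
    have hr : ((|(((((Ioc 0 N).filter fun n => n ≡ a [MOD d]).card : ℤ)) : ℚ) - (N : ℚ) / d| : ℚ) : ℝ) ≤ ((1 : ℚ) : ℝ) := by
      exact_mod_cast hq
    push_cast at hr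
    exact hr
  rw [hset, Finset.card_biUnion]
  · have hmain : (N : ℝ) * ∏ p ∈ S, ((Ω p).card : ℝ) / p = ∑ _a ∈ R, (N : ℝ) / d := by
      rw [Finset.sum_const, nsmul_eq_mul, hRc, Finset.prod_div_distrib, hd]
      push_cast; ring
    rw [hmain, Nat.cast_sum, ← Finset.sum_sub_distrib]
    refine (Finset.abs_sum_le_sum_abs _ _).trans ((Finset.sum_le_sum hclass).trans ?_)
    rw [Finset.sum_const, nsmul_eq_mul, mul_one, hRc]
    push_cast; rfl
  · intro a _ b _ hab
    rw [Function.onFun, Finset.disjoint_filter]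
    intro n _ h1 h2; exact hab (h1.symm.trans h2)

/-- Brun's pure sieve: an upper bound with truncation at the even degree L. -/
theorem card_sifted_le {P : Finset ℕ} (hP : ∀ p ∈ P, p.Prime) (Ω : ℕ → Finset ℕ)
    (hΩ : ∀ p ∈ P, ∀ a ∈ Ω p, a < p) (N L : ℕ) (hL : Even L) :
    ((sifted P Ω N).card : ℝ) ≤
      N * (∏ p ∈ P, (1 - ((Ω p).card : ℝ) / p) +
        (∑ p ∈ P, ((Ω p).card : ℝ) / p) ^ (L + 1) / (Nat.factorial (L + 1) : ℝ)) +
      (1 + ∑ p ∈ P, ((Ω p).card : ℝ)) ^ L := by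
  classical
  set ind : ℕ → ℕ → ℝ := fun n p => if n % p ∈ Ω p then 1 else 0 with hind
  have h01 : ∀ n, ∀ p ∈ P, 0 ≤ ind n p ∧ ind n p ≤ 1 := by
    intro n p _; simp only [hind]; split_ifs <;> norm_num
  have hpt : ((sifted P Ω N).card : ℝ) ≤ ∑ n ∈ Ioc 0 N, trunc (ind n) P L := by
    rw [sifted, Finset.card_filter, Nat.cast_sum]
    refine Finset.sum_le_sum fun n _ => ?_
    obtain ⟨h1, -⟩ := trunc_sub_prod (h01 n) L
    rw [hL.neg_one_pow, one_mul, sub_nonneg] at h1
    refine le_trans ?_ h1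
    split_ifs with h
    · have : ∏ p ∈ P, (1 - ind n p) = 1 :=
        Finset.prod_eq_one fun p hp => by simp [hind, h p hp]
      rw [this]; simp
    · push_cast
      exact Finset.prod_nonneg fun p hp => by linarith [(h01 n p hp).2]
  set x : ℕ → ℝ := fun p => ((Ω p).card : ℝ) / p with hx
  have hx01 : ∀ p ∈ P, 0 ≤ x p ∧ x p ≤ 1 := by
    intro p hp
    refine ⟨by positivity, ?_⟩
    rw [hx, div_le_one (by exact_mod_cast (hP p hp).pos)]
    have : (Ω p).card ≤ (range p).card := Finset.card_le_card fun a ha => Finset.mem_range.2 (hΩ p hp a ha)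
    rw [Finset.card_range] at this
    exact_mod_cast this
  have hS : ∀ S ⊆ P, ∀ n, ∏ p ∈ S, ind n p = if ∀ p ∈ S, n % p ∈ Ω p then 1 else 0 := by
    intro S _ n
    simp only [hind, Finset.prod_boole]
  have hcount : ∀ r, |∑ n ∈ Ioc 0 N, esym (ind n) P r - N * esym x P r| ≤
      esym (fun p => ((Ω p).card : ℝ)) P r := by
    intro r
    simp only [esym]
    rw [Finset.sum_comm, Finset.mul_sum, ← Finset.sum_sub_distrib]
    refine (Finset.abs_sum_le_sum_abs _ _).trans (Finset.sum_le_sum fun S hS' => ?_)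
    have hsub := (Finset.mem_powersetCard.1 hS').1
    simp only [hS S hsub]
    rw [Finset.sum_boole]
    exact count_classes (fun p hp => hP p (hsub hp)) Ω (fun p hp => hΩ p (hsub hp)) N
  have hsum : ∑ n ∈ Ioc 0 N, trunc (ind n) P L ≤
      N * trunc x P L + ∑ r ∈ range (L + 1), esym (fun p => ((Ω p).card : ℝ)) P r := by
    simp only [trunc]
    rw [Finset.sum_comm, Finset.mul_sum, ← Finset.sum_add_distrib]
    refine Finset.sum_le_sum fun r _ => ?_
    rw [← Finset.mul_sum]
    obtain ⟨h1, h2⟩ := abs_le.1 (hcount r)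
    rcases neg_one_pow_eq_or ℝ r with h | h <;> rw [h] <;> linarith
  obtain ⟨-, hup⟩ := trunc_sub_prod hx01 L
  rw [hL.neg_one_pow, one_mul] at hup
  have he := esym_succ_le (fun p hp => (hx01 p hp).1) (L + 1)
  have herr := sum_powersetCard_le (fun p => ((Ω p).card : ℝ)) P (fun p _ => by positivity) L
  calc ((sifted P Ω N).card : ℝ) ≤ _ := hpt
    _ ≤ _ := hsum
    _ ≤ _ := by
      refine add_le_add (mul_le_mul_of_nonneg_left ?_ (by positivity)) herr
      linarith

end Vale.Agent.P031.Brun
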