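import Mathlib
import Vale.Agent.P031.Mertens

/-!
Scales of integers, the coefficients `a_n` of Ford's function `F`, profile weights, and the
Euler product bound for completely multiplicative weights.
-/

namespace Vale.Agent.P031

open Finset Real

/-- The scale of `n`: the least natural number `s` with `log n ≤ exp s`. -/
noncomputable def sc (n : ℕ) : ℕ := ⌈Real.log (Real.log n)⌉₊

lemma sc_le_iff {n s : ℕ} : sc n ≤ s ↔ Real.log n ≤ Real.exp s := by
  unfold sc
  rw [Nat.ceil_le]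
  by_cases h : (0:ℝ) < Real.log n
  · exact Real.log_le_iff_le_exp h
  · have h0 : Real.log n = 0 := le_antisymm (not_lt.mp h) (Real.log_natCast_nonneg n)
    rw [h0, Real.log_zero]
    exact ⟨fun _ ↦ (Real.exp_pos _).le, fun _ ↦ Nat.cast_nonneg _⟩

lemma lt_sc_iff {n s : ℕ} : s < sc n ↔ Real.exp s < Real.log n := by
  rw [← not_le, sc_le_iff, not_le]

lemma log_le_exp_sc (n : ℕ) : Real.log n ≤ Real.exp (sc n) := sc_le_iff.mp le_rfl

lemma exp_sc_pred_lt {n : ℕ} (h : 0 < sc n) : Real.exp ((sc n : ℝ) - 1) < Real.log n := by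
  have : sc n - 1 < sc n := by omega
  have h2 := lt_sc_iff.mp this
  rwa [Nat.cast_sub h, Nat.cast_one] at h2

lemma sc_mono {m n : ℕ} (h : m ≤ n) : sc m ≤ sc n := by
  rw [sc_le_iff]
  rcases Nat.eq_zero_or_pos m with rfl | hm
  · simp [(Real.exp_pos _).le]
  · exact (Real.log_le_log (by exact_mod_cast hm) (by exact_mod_cast h)).trans (log_le_exp_sc n)

/-- Primes of scale at most `s`. -/
noncomputable def primesSc (s : ℕ) : Finset ℕ := primesExp (Real.exp s)

lemma mem_primesSc {s p : ℕ} : p ∈ primesSc s ↔ p.Prime ∧ sc p ≤ s := by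
  rw [primesSc, mem_primesExp, sc_le_iff]

lemma primesSc_mono {s t : ℕ} (h : s ≤ t) : primesSc s ⊆ primesSc t := by
  intro p hp
  rw [mem_primesSc] at hp ⊢
  exact ⟨hp.1, hp.2.trans h⟩

lemma exists_abs_sum_primesSc :
    ∃ C, 0 ≤ C ∧ ∀ s : ℕ, |∑ p ∈ primesSc s, (1:ℝ) / p - s| ≤ C := by
  obtain ⟨C, hC0, hC⟩ := exists_abs_sum_inv_prime
  exact ⟨C, hC0, fun s ↦ hC s (Nat.cast_nonneg s)⟩

/-- Ford's coefficient `a_{r+1} = (r+2) log (r+2) - (r+1) log (r+1) - 1`. -/
noncomputable def acoef (r : ℕ) : ℝ :=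
  ((r:ℝ) + 2) * Real.log ((r:ℝ) + 2) - ((r:ℝ) + 1) * Real.log ((r:ℝ) + 1) - 1

/-- `log ((r+2)/(r+1))`. -/
noncomputable def delta (r : ℕ) : ℝ := Real.log (((r:ℝ) + 2) / ((r:ℝ) + 1))

lemma delta_eq (r : ℕ) : delta r = Real.log ((r:ℝ) + 2) - Real.log ((r:ℝ) + 1) := by
  rw [delta, Real.log_div (by positivity) (by positivity)]

lemma delta_nonneg (r : ℕ) : 0 ≤ delta r := by
  apply Real.log_nonneg
  rw [le_div_iff₀ (by positivity)]
  linarith

lemma delta_le_one (r : ℕ) : delta r ≤ 1 := by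
  have h : ((r:ℝ) + 2) / ((r:ℝ) + 1) ≤ 2 := by
    rw [div_le_iff₀ (by positivity)]
    have : (0:ℝ) ≤ r := Nat.cast_nonneg r
    linarith
  have := Real.log_le_log (by positivity) h
  have := Real.log_two_lt_d9
  unfold delta
  linarith

lemma sum_delta (k : ℕ) : ∑ r ∈ Finset.range k, delta r = Real.log ((k:ℝ) + 1) := by
  induction k with
  | zero => simp
  | succ k ih =>
    rw [Finset.sum_range_succ, ih, delta_eq]
    push_cast
    ring_nf

lemma acoef_le_log (r : ℕ) : acoef r ≤ Real.log ((r:ℝ) + 2) := by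
  have h := Real.log_le_sub_one_of_pos (x := ((r:ℝ) + 2) / ((r:ℝ) + 1)) (by positivity)
  rw [Real.log_div (by positivity) (by positivity)] at h
  have h2 : ((r:ℝ) + 2) / ((r:ℝ) + 1) - 1 = 1 / ((r:ℝ) + 1) := by field_simp; ring
  rw [h2, le_div_iff₀ (by positivity)] at h
  unfold acoef
  linarith

lemma log_sub_one_le_acoef (r : ℕ) : Real.log ((r:ℝ) + 2) - 1 ≤ acoef r := by
  have h : Real.log ((r:ℝ) + 1) ≤ Real.log ((r:ℝ) + 2) :=
    Real.log_le_log (by positivity) (by linarith)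
  have h' := mul_le_mul_of_nonneg_left h (by positivity : (0:ℝ) ≤ (r:ℝ) + 1)
  unfold acoef
  linarith

lemma acoef_le_succ (r : ℕ) : acoef r ≤ acoef (r + 1) := by
  have h1 := acoef_le_log r
  have hkey : Real.log ((r:ℝ) + 3) - 1 / ((r:ℝ) + 3) ≤ acoef (r + 1) := by
    have h := Real.one_sub_inv_le_log_of_pos (x := ((r:ℝ) + 3) / ((r:ℝ) + 2)) (by positivity)
    rw [Real.log_div (by positivity) (by positivity)] at h
    have h2 : 1 - (((r:ℝ) + 3) / ((r:ℝ) + 2))⁻¹ = 1 / ((r:ℝ) + 3) := by field_simp; ring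
    rw [h2] at h
    have h3 := mul_le_mul_of_nonneg_left h (by positivity : (0:ℝ) ≤ (r:ℝ) + 2)
    have h4 : ((r:ℝ) + 2) * (1 / ((r:ℝ) + 3)) = 1 - 1 / ((r:ℝ) + 3) := by field_simp; ring
    unfold acoef
    push_cast
    rw [show (r:ℝ) + 1 + 2 = r + 3 by ring, show (r:ℝ) + 1 + 1 = r + 2 by ring]
    linarith
  have h5 : 1 / ((r:ℝ) + 3) ≤ Real.log ((r:ℝ) + 3) - Real.log ((r:ℝ) + 2) := by
    have h := Real.one_sub_inv_le_log_of_pos (x := ((r:ℝ) + 3) / ((r:ℝ) + 2)) (by positivity)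
    rw [Real.log_div (by positivity) (by positivity)] at h
    have h2 : 1 - (((r:ℝ) + 3) / ((r:ℝ) + 2))⁻¹ = 1 / ((r:ℝ) + 3) := by field_simp; ring
    linarith
  linarith

lemma acoef_mono : Monotone acoef := monotone_nat_of_le_succ acoef_le_succ

lemma acoef_zero : acoef 0 = 2 * Real.log 2 - 1 := by simp [acoef]

lemma acoef_zero_gt : (0.386:ℝ) < acoef 0 := by
  rw [acoef_zero]; linarith [Real.log_two_gt_d9]

lemma acoef_ge (r : ℕ) : (0.386:ℝ) ≤ acoef r :=
  acoef_zero_gt.le.trans (acoef_mono (Nat.zero_le r))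

lemma acoef_pos (r : ℕ) : 0 < acoef r := lt_of_lt_of_le (by norm_num) (acoef_ge r)

lemma acoef_nonneg (r : ℕ) : 0 ≤ acoef r := (acoef_pos r).le

lemma acoef_zero_add_one : (1.28:ℝ) ≤ acoef 0 + acoef 1 := by
  have h : 0 ≤ Real.log (9/8 : ℝ) := Real.log_nonneg (by norm_num)
  have h9 : Real.log (9/8 : ℝ) = 2 * Real.log 3 - 3 * Real.log 2 := by
    rw [Real.log_div (by norm_num) (by norm_num), show (9:ℝ) = 3^2 by norm_num,
      show (8:ℝ) = 2^3 by norm_num, Real.log_pow, Real.log_pow]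
    push_cast; ring
  have h9' : 1 / 9 ≤ Real.log (9/8 : ℝ) := by
    have := Real.one_sub_inv_le_log_of_pos (x := (9/8:ℝ)) (by norm_num)
    norm_num at this ⊢
    linarith
  have h1 : acoef 1 = 3 * Real.log 3 - 2 * Real.log 2 - 1 := by
    simp only [acoef]; norm_num
  rw [h1, acoef_zero]
  linarith [Real.log_two_gt_d9]

lemma acoef_add_le (r d : ℕ) : acoef (r + d) ≤ 7 * ((d:ℝ) + 1) * acoef r := by
  have h1 := acoef_le_log (r + d)
  have h2 := log_sub_one_le_acoef r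
  have h3 := acoef_ge r
  push_cast at h1
  have h4 : Real.log ((r:ℝ) + d + 2) ≤ Real.log ((r:ℝ) + 2) + Real.log ((d:ℝ) + 1) := by
    rw [← Real.log_mul (by positivity) (by positivity)]
    refine Real.log_le_log (by positivity) ?_
    have : (0:ℝ) ≤ (r:ℝ) * d := by positivity
    nlinarith
  have h5 : Real.log ((d:ℝ) + 1) ≤ d := by
    have := Real.log_le_sub_one_of_pos (x := (d:ℝ) + 1) (by positivity)
    linarith
  have hd : (0:ℝ) ≤ d := Nat.cast_nonneg d
  have h6 : (d:ℝ) * 0.386 ≤ d * acoef r := mul_le_mul_of_nonneg_left h3 hd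
  nlinarith

lemma acoef_add_one_eq (r : ℕ) :
    acoef r + 1 = ((r:ℝ) + 2) * delta r + Real.log ((r:ℝ) + 1) := by
  rw [delta_eq, acoef]; ring

/-- The key identity behind the function `F`. -/
lemma sum_delta_min {k : ℕ} (top : ℕ) (τ : ℕ → ℕ) (hτ : Antitone τ) (htop : τ 0 ≤ top) :
    ∑ r ∈ Finset.range k, delta r *
        ((min (τ r) top : ℕ) + ∑ i ∈ Finset.range k, ((min (τ r) (τ i) : ℕ) : ℝ))
      = ∑ r ∈ Finset.range k, (acoef r + 1) * (τ r) := by
  induction k with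
  | zero => simp
  | succ k ih =>
    simp only [Finset.sum_range_succ, mul_add, Finset.sum_add_distrib] at ih ⊢
    have hA : ∑ r ∈ Finset.range k, delta r * ((min (τ r) (τ k) : ℕ) : ℝ)
        = Real.log ((k:ℝ) + 1) * τ k := by
      rw [← sum_delta, Finset.sum_mul]
      refine Finset.sum_congr rfl fun r hr ↦ ?_
      rw [min_eq_right (hτ (Finset.mem_range.mp hr).le)]
    have hB : ∑ i ∈ Finset.range k, ((min (τ k) (τ i) : ℕ) : ℝ) = k * τ k := by
      rw [Finset.sum_congr rfl fun i hi ↦ by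
        rw [min_eq_left (hτ (Finset.mem_range.mp hi).le)]]
      simp
    rw [hA, hB, min_self, min_eq_left (le_trans (hτ (Nat.zero_le k)) htop)]
    rw [acoef_add_one_eq k]
    linarith

/-- Completely multiplicative weight `∏_{l ∣ n, with multiplicity} z l`. -/
noncomputable def wt (z : ℕ → ℝ) (n : ℕ) : ℝ := (n.primeFactorsList.map z).prod

lemma wt_one (z : ℕ → ℝ) : wt z 1 = 1 := by simp [wt]

lemma wt_mul (z : ℕ → ℝ) {a b : ℕ} (ha : a ≠ 0) (hb : b ≠ 0) :
    wt z (a * b) = wt z a * wt z b := by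
  unfold wt
  rw [((Nat.perm_primeFactorsList_mul ha hb).map z).prod_eq, List.map_append, List.prod_append]

lemma wt_prime (z : ℕ → ℝ) {p : ℕ} (hp : p.Prime) : wt z p = z p := by
  simp [wt, Nat.primeFactorsList_prime hp]

lemma wt_nonneg {z : ℕ → ℝ} (hz : ∀ l, 0 ≤ z l) (n : ℕ) : 0 ≤ wt z n := by
  unfold wt
  refine List.prod_nonneg fun a ha ↦ ?_
  obtain ⟨l, -, rfl⟩ := List.mem_map.mp ha
  exact hz l

lemma wt_pos {z : ℕ → ℝ} (hz : ∀ l, 0 < z l) (n : ℕ) : 0 < wt z n := by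
  unfold wt
  refine List.prod_pos fun a ha ↦ ?_
  obtain ⟨l, -, rfl⟩ := List.mem_map.mp ha
  exact hz l

lemma log_wt {z : ℕ → ℝ} (hz : ∀ l, 0 < z l) (n : ℕ) :
    Real.log (wt z n) = (n.primeFactorsList.map fun l ↦ Real.log (z l)).sum := by
  unfold wt
  induction n.primeFactorsList with
  | nil => simp
  | cons a t ih =>
    rw [List.map_cons, List.prod_cons, List.map_cons, List.sum_cons, ← ih,
      Real.log_mul (hz a).ne']
    refine (List.prod_pos fun b hb ↦ ?_).ne'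
    obtain ⟨l, -, rfl⟩ := List.mem_map.mp hb
    exact hz l

lemma wt_congr {z z' : ℕ → ℝ} {n : ℕ} (h : ∀ l ∈ n.primeFactorsList, z l = z' l) :
    wt z n = wt z' n := by
  unfold wt
  rw [List.map_congr_left h]

/-- Number of prime factors of `n`, with multiplicity, of scale at most `s`. -/
noncomputable def omle (s n : ℕ) : ℕ := (n.primeFactorsList.filter fun l ↦ sc l ≤ s).length

lemma omle_mul (s : ℕ) {a b : ℕ} (ha : a ≠ 0) (hb : b ≠ 0) :
    omle s (a * b) = omle s a + omle s b := by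
  unfold omle
  rw [((Nat.perm_primeFactorsList_mul ha hb).filter _).length_eq, List.filter_append,
    List.length_append]

lemma omle_one (s : ℕ) : omle s 1 = 0 := by simp [omle]

lemma omle_mono {s t : ℕ} (h : s ≤ t) (n : ℕ) : omle s n ≤ omle t n := by
  unfold omle
  refine List.Sublist.length_le ?_
  refine List.monotone_filter_right _ fun l hl ↦ ?_
  simp only [decide_eq_true_eq] at hl ⊢
  exact hl.trans h

lemma exp_add_sq_bound {t : ℝ} (h0 : 0 ≤ t) (h1 : t ≤ 3/4) :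
    (1 - t)⁻¹ ≤ Real.exp (t + 4 * t ^ 2) := by
  have h2 : 0 < 1 - t := by linarith
  have h3 : (1 - t)⁻¹ = t / (1 - t) + 1 := by field_simp; ring
  rw [h3]
  refine (Real.add_one_le_exp _).trans (Real.exp_le_exp.mpr ?_)
  rw [div_le_iff₀ h2]
  nlinarith [mul_nonneg (sq_nonneg t) (by linarith : (0:ℝ) ≤ 3/4 - t)]

/-- Euler product bound: `∑ wt z n / n ≤ exp (∑_l (z_l/l + 4 (z_l/l)^2))`. -/
lemma sum_wt_div_le (S T : Finset ℕ) (z : ℕ → ℝ) (hS : ∀ l ∈ S, Nat.Prime l)
    (hz : ∀ l ∈ S, 0 ≤ z l) (hz' : ∀ l ∈ S, z l ≤ 3/4 * l)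
    (hT : ∀ n ∈ T, n ≠ 0 ∧ ∀ l ∈ n.primeFactorsList, l ∈ S) :
    ∑ n ∈ T, wt z n / n ≤ Real.exp (∑ l ∈ S, (z l / l + 4 * (z l / l) ^ 2)) := by
  classical
  set z' : ℕ → ℝ := fun l ↦ if l ∈ S then z l else 0 with hz'def
  have hz'0 : ∀ l, 0 ≤ z' l := fun l ↦ by
    simp only [hz'def]; split_ifs with h
    · exact hz l h
    · exact le_rfl
  let f : ℕ →* ℝ :=
    { toFun := fun n ↦ if n = 0 then 0 else wt z' n / n
      map_one' := by simp [wt_one]
      map_mul' := fun a b ↦ by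
        by_cases ha : a = 0
        · simp [ha]
        by_cases hb : b = 0
        · simp [hb]
        simp only [ha, hb, mul_eq_zero, or_self, if_false, wt_mul z' ha hb, Nat.cast_mul]
        field_simp }
  have hfp : ∀ {p : ℕ}, p.Prime → f p = z' p / p := fun {p} hp ↦ by
    change (if p = 0 then 0 else wt z' p / p) = _
    rw [if_neg hp.ne_zero, wt_prime _ hp]
  have hf1 : ∀ {p : ℕ}, p.Prime → ‖f p‖ < 1 := fun {p} hp ↦ by
    rw [hfp hp]
    have hp0 : (0:ℝ) < p := by exact_mod_cast hp.pos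
    rw [Real.norm_eq_abs, abs_of_nonneg (div_nonneg (hz'0 p) hp0.le), div_lt_one hp0]
    simp only [hz'def]; split_ifs with h
    · linarith [hz' p h]
    · exact hp0
  have H := (EulerProduct.summable_and_hasSum_factoredNumbers_prod_filter_prime_geometric
    hf1 S).2
  have hsub : ∀ n ∈ T, n ∈ Nat.factoredNumbers S := fun n hn ↦ hT n hn
  have h1 : ∑ n ∈ T.subtype (· ∈ Nat.factoredNumbers S), f (n:ℕ)
      ≤ ∏ p ∈ S.filter Nat.Prime, (1 - f p)⁻¹ := by
    refine sum_le_hasSum _ (fun n _ ↦ ?_) H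
    change (0:ℝ) ≤ if (n:ℕ) = 0 then 0 else wt z' n / (n:ℕ)
    split_ifs
    · exact le_rfl
    · exact div_nonneg (wt_nonneg hz'0 _) (Nat.cast_nonneg _)
  rw [Finset.sum_subtype_eq_sum_filter, Finset.filter_true_of_mem hsub] at h1
  calc ∑ n ∈ T, wt z n / n = ∑ n ∈ T, f n := by
        refine Finset.sum_congr rfl fun n hn ↦ ?_
        obtain ⟨hn0, hnS⟩ := hT n hn
        change _ = if n = 0 then 0 else wt z' n / n
        rw [if_neg hn0, wt_congr (z' := z')]
        intro l hl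
        simp [hz'def, hnS l hl]
    _ ≤ ∏ p ∈ S.filter Nat.Prime, (1 - f p)⁻¹ := h1
    _ ≤ ∏ p ∈ S, Real.exp (z p / p + 4 * (z p / p) ^ 2) := by
        rw [Finset.filter_true_of_mem hS]
        have hfS : ∀ p ∈ S, f p = z p / p := fun p hp ↦ by
          rw [hfp (hS p hp)]; simp [hz'def, hp]
        have hb : ∀ p ∈ S, 0 ≤ z p / p ∧ z p / p ≤ 3/4 := fun p hp ↦ by
          have hp0 : (0:ℝ) < p := by exact_mod_cast (hS p hp).pos
          exact ⟨div_nonneg (hz p hp) hp0.le, (div_le_iff₀ hp0).mpr (hz' p hp)⟩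
        refine Finset.prod_le_prod (fun p hp ↦ ?_) (fun p hp ↦ ?_)
        · rw [hfS p hp]; exact inv_nonneg.mpr (by linarith [(hb p hp).2])
        · rw [hfS p hp]; exact exp_add_sq_bound (hb p hp).1 (hb p hp).2
    _ = _ := (Real.exp_sum _ _).symm

end Vale.Agent.P031
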