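import Mathlib
import Vale.Agent.P031.Basic

/-!
Brun's pure sieve, and its consequence for a prime `R` such that finitely many `a * R + 1` are
prime as well.
-/

namespace Vale.Agent.P031

open Finset Real

section Bonferroni

variable {ι : Type*} [DecidableEq ι]

/-- Truncated inclusion–exclusion sum. -/
def truncSum (h : ι → ℝ) (k : ℕ) (T : Finset ι) : ℝ :=
  ∑ S ∈ T.powerset, if S.card ≤ k then (-1 : ℝ) ^ S.card * ∏ i ∈ S, h i else 0

lemma truncSum_insert (h : ι → ℝ) (k : ℕ) {a : ι} {T : Finset ι} (ha : a ∉ T) :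
    truncSum h (k + 1) (insert a T) = truncSum h (k + 1) T - h a * truncSum h k T := by
  unfold truncSum
  rw [Finset.sum_powerset_insert ha, Finset.mul_sum, sub_eq_add_neg, ← Finset.sum_neg_distrib]
  congr 1
  refine Finset.sum_congr rfl fun S hS ↦ ?_
  have haS : a ∉ S := fun h' ↦ ha (Finset.mem_powerset.mp hS h')
  rw [Finset.card_insert_of_notMem haS, Finset.prod_insert haS]
  by_cases hc : S.card ≤ k
  · rw [if_pos (by omega), if_pos hc, pow_succ]
    ring
  · rw [if_neg (by omega), if_neg hc]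
    ring

lemma truncSum_zero (h : ι → ℝ) (T : Finset ι) : truncSum h 0 T = 1 := by
  unfold truncSum
  rw [Finset.sum_eq_single ∅]
  · simp
  · intro S _ hS
    rw [if_neg]
    simpa using hS
  · simp

lemma truncSum_sign (h : ι → ℝ) (T : Finset ι) (h0 : ∀ i, 0 ≤ h i) (h1 : ∀ i, h i ≤ 1) :
    ∀ k : ℕ, 0 ≤ (-1 : ℝ) ^ k * (truncSum h k T - ∏ i ∈ T, (1 - h i)) := by
  induction T using Finset.induction_on with
  | empty =>
    intro k
    simp [truncSum]
  | @insert a T ha ih =>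
    intro k
    cases k with
    | zero =>
      rw [truncSum_zero, pow_zero, one_mul, sub_nonneg]
      exact Finset.prod_le_one (fun i _ ↦ by linarith [h1 i]) (fun i _ ↦ by linarith [h0 i])
    | succ k =>
      rw [truncSum_insert h k ha, Finset.prod_insert ha]
      have hA := ih (k + 1)
      have hB := mul_nonneg (h0 a) (ih k)
      rw [pow_succ] at hA ⊢
      linarith

lemma prod_le_truncSum (h : ι → ℝ) (T : Finset ι) (h0 : ∀ i, 0 ≤ h i) (h1 : ∀ i, h i ≤ 1)
    (r : ℕ) : ∏ i ∈ T, (1 - h i) ≤ truncSum h (2 * r) T := by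
  have := truncSum_sign h T h0 h1 (2 * r)
  rw [pow_mul, neg_one_sq, one_pow, one_mul, sub_nonneg] at this
  exact this

lemma sum_small_subsets_le (x : ι → ℝ) (T : Finset ι) (hx : ∀ i, 0 ≤ x i) :
    ∀ k : ℕ, (∑ S ∈ T.powerset, if S.card ≤ k then ∏ i ∈ S, x i else 0)
      ≤ (1 + ∑ i ∈ T, x i) ^ k := by
  induction T using Finset.induction_on with
  | empty => intro k; simp
  | @insert a T ha ih =>
    intro k
    have hX : 0 ≤ ∑ i ∈ T, x i := Finset.sum_nonneg fun i _ ↦ hx i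
    cases k with
    | zero =>
      rw [Finset.sum_eq_single ∅]
      · simp
      · intro S _ hS
        rw [if_neg]
        simpa using hS
      · simp
    | succ k =>
      rw [Finset.sum_powerset_insert ha, Finset.sum_insert ha]
      have h2 : (∑ S ∈ T.powerset, if (insert a S).card ≤ k + 1
            then ∏ i ∈ insert a S, x i else 0)
          = x a * ∑ S ∈ T.powerset, if S.card ≤ k then ∏ i ∈ S, x i else 0 := by
        rw [Finset.mul_sum]
        refine Finset.sum_congr rfl fun S hS ↦ ?_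
        have haS : a ∉ S := fun h' ↦ ha (Finset.mem_powerset.mp hS h')
        rw [Finset.card_insert_of_notMem haS, Finset.prod_insert haS]
        by_cases hc : S.card ≤ k
        · rw [if_pos (by omega), if_pos hc]
        · rw [if_neg (by omega), if_neg hc, mul_zero]
      rw [h2]
      have hk := mul_le_mul_of_nonneg_left (ih k) (hx a)
      have hk1 := ih (k + 1)
      have hpow : (1 + ∑ i ∈ T, x i) ^ k ≤ (1 + (x a + ∑ i ∈ T, x i)) ^ k := by
        gcongr
        linarith [hx a]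
      have hn : 0 ≤ 1 + (x a + ∑ i ∈ T, x i) := by linarith [hx a]
      calc _ ≤ (1 + ∑ i ∈ T, x i) ^ (k + 1) + x a * (1 + ∑ i ∈ T, x i) ^ k := add_le_add hk1 hk
        _ = (1 + ∑ i ∈ T, x i) ^ k * (1 + (x a + ∑ i ∈ T, x i)) := by ring
        _ ≤ (1 + (x a + ∑ i ∈ T, x i)) ^ k * (1 + (x a + ∑ i ∈ T, x i)) := by gcongr
        _ = _ := by ring

lemma truncSum_le (g : ι → ℝ) (T : Finset ι) (g0 : ∀ i, 0 ≤ g i) (g1 : ∀ i ∈ T, g i ≤ 1)
    (k : ℕ) :
    truncSum g k T ≤ Real.exp (-∑ i ∈ T, g i) + Real.exp (2 * ∑ i ∈ T, g i) / 2 ^ k := by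
  have h1 : ∏ i ∈ T, (1 - g i) = ∑ S ∈ T.powerset, (-1 : ℝ) ^ S.card * ∏ i ∈ S, g i := by
    have := Finset.prod_one_add (R := ℝ) (f := fun i ↦ -g i) T
    simp only [← sub_eq_add_neg] at this
    rw [this]
    exact Finset.sum_congr rfl fun S _ ↦ Finset.prod_neg _
  have h2 : ∏ i ∈ T, (1 - g i) ≤ Real.exp (-∑ i ∈ T, g i) := by
    rw [← Finset.sum_neg_distrib, Real.exp_sum]
    exact Finset.prod_le_prod (fun i hi ↦ by linarith [g1 i hi])
      (fun i _ ↦ Real.one_sub_le_exp_neg _)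
  have h3 : truncSum g k T - ∏ i ∈ T, (1 - g i)
      ≤ (∑ S ∈ T.powerset, ∏ i ∈ S, 2 * g i) / 2 ^ k := by
    rw [h1, truncSum, ← Finset.sum_sub_distrib, Finset.sum_div]
    refine Finset.sum_le_sum fun S _ ↦ ?_
    have hp : 0 ≤ ∏ i ∈ S, g i := Finset.prod_nonneg fun i _ ↦ g0 i
    rw [Finset.prod_mul_distrib, Finset.prod_const]
    by_cases hc : S.card ≤ k
    · rw [if_pos hc, sub_self]; positivity
    · rw [if_neg hc, zero_sub, le_div_iff₀ (by positivity)]
      have hle : (2:ℝ) ^ k ≤ 2 ^ S.card := by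
        gcongr
        · norm_num
        · omega
      have habs : -((-1 : ℝ) ^ S.card * ∏ i ∈ S, g i) ≤ ∏ i ∈ S, g i := by
        rcases neg_one_pow_eq_or ℝ S.card with h | h <;> rw [h] <;> linarith
      calc -((-1 : ℝ) ^ S.card * ∏ i ∈ S, g i) * 2 ^ k ≤ (∏ i ∈ S, g i) * 2 ^ k := by gcongr
        _ ≤ (∏ i ∈ S, g i) * 2 ^ S.card := by gcongr
        _ = _ := mul_comm _ _
  have h4 : ∑ S ∈ T.powerset, ∏ i ∈ S, 2 * g i ≤ Real.exp (2 * ∑ i ∈ T, g i) := by
    rw [← Finset.prod_one_add, Finset.mul_sum, Real.exp_sum]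
    exact Finset.prod_le_prod (fun i _ ↦ by linarith [g0 i])
      (fun i _ ↦ by rw [add_comm]; exact Real.add_one_le_exp _)
  have h5 : (∑ S ∈ T.powerset, ∏ i ∈ S, 2 * g i) / 2 ^ k
      ≤ Real.exp (2 * ∑ i ∈ T, g i) / 2 ^ k := by gcongr
  linarith

end Bonferroni

lemma abs_card_class_sub (N M c : ℕ) (hM : 0 < M) :
    |(((Icc 1 N).filter fun n ↦ n % M = c % M).card : ℝ) - (N:ℝ) / M| ≤ 1 := by
  have hset : ((Icc 1 N).filter fun n ↦ n % M = c % M)
      = (Finset.Ioc 0 N).filter (fun x ↦ x ≡ c [MOD M]) := by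
    ext n
    rw [Finset.mem_filter, Finset.mem_filter]
    simp only [Finset.mem_Icc, Finset.mem_Ioc, Nat.ModEq, Nat.one_le_iff_ne_zero,
      Nat.pos_iff_ne_zero]
  rw [hset]
  have H := Nat.Ioc_filter_modEq_card 0 N hM c
  set u : ℚ := ((N:ℚ) - c) / M with hu
  set v : ℚ := (((0:ℕ):ℚ) - c) / M with hv
  have hMq : (0:ℚ) < M := by exact_mod_cast hM
  have huv : u - v = (N:ℚ) / M := by
    rw [hu, hv, ← sub_div]; congr 1; push_cast; ring
  have hNM : (0:ℚ) ≤ (N:ℚ) / M := by positivity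
  have hmono : ⌊v⌋ ≤ ⌊u⌋ := Int.floor_le_floor (by linarith)
  rw [max_eq_left (by linarith)] at H
  have hq : |((((Finset.Ioc 0 N).filter (fun x ↦ x ≡ c [MOD M])).card : ℤ) : ℚ) - (N:ℚ) / M| ≤ 1 := by
    rw [H, abs_le]
    push_cast
    have := Int.floor_le u
    have := Int.floor_le v
    have := Int.lt_floor_add_one u
    have := Int.lt_floor_add_one v
    constructor <;> linarith
  have h2 := (Rat.cast_le (K := ℝ)).mpr hq
  rw [Rat.cast_abs] at h2
  push_cast at h2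
  exact h2

lemma abs_card_classes_sub (N : ℕ) (Ω : ℕ → Finset ℕ) (S : Finset ℕ) (hS : ∀ l ∈ S, l.Prime)
    (hΩ : ∀ l ∈ S, Ω l ⊆ Finset.range l) :
    ∀ M c : ℕ, 0 < M → (∀ l ∈ S, M.Coprime l) →
      |(((Icc 1 N).filter fun n ↦ n % M = c % M ∧ ∀ l ∈ S, n % l ∈ Ω l).card : ℝ)
          - (N:ℝ) / M * ∏ l ∈ S, ((Ω l).card : ℝ) / l| ≤ ∏ l ∈ S, ((Ω l).card : ℝ) := by
  induction S using Finset.induction_on with
  | empty =>
    intro M c hM _
    simpa using abs_card_class_sub N M c hM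
  | @insert a S ha ih =>
    intro M c hM hco
    have hap := hS a (Finset.mem_insert_self a S)
    have ihS := ih (fun l hl ↦ hS l (Finset.mem_insert_of_mem hl))
      (fun l hl ↦ hΩ l (Finset.mem_insert_of_mem hl))
    set F := (Icc 1 N).filter fun n ↦ n % M = c % M ∧ ∀ l ∈ insert a S, n % l ∈ Ω l with hF
    have hfib : F.card = ∑ r ∈ Ω a, (F.filter fun n ↦ n % a = r).card := by
      refine Finset.card_eq_sum_card_fiberwise fun n hn ↦ ?_
      exact (Finset.mem_filter.mp hn).2.2 a (Finset.mem_insert_self a S)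
    have hMa : M.Coprime a := hco a (Finset.mem_insert_self a S)
    have hrep : ∀ r ∈ Ω a, ∃ x : ℕ, (F.filter fun n ↦ n % a = r)
        = (Icc 1 N).filter fun n ↦ n % (M * a) = x % (M * a) ∧ ∀ l ∈ S, n % l ∈ Ω l := by
      intro r hr
      obtain ⟨x, hx1, hx2⟩ := Nat.chineseRemainder hMa c r
      refine ⟨x, ?_⟩
      have hra : r % a = r :=
        Nat.mod_eq_of_lt (Finset.mem_range.mp (hΩ a (Finset.mem_insert_self a S) hr))
      have hx2' : x % a = r := by rw [← hra]; exact hx2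
      ext n
      simp only [hF, Finset.mem_filter, Finset.forall_mem_insert]
      constructor
      · rintro ⟨⟨hn, hnM, hna, hnS⟩, hnr⟩
        exact ⟨hn, (Nat.modEq_and_modEq_iff_modEq_mul hMa).mp
          ⟨hnM.trans hx1.symm, hnr.trans hx2'.symm⟩, hnS⟩
      · rintro ⟨hn, hnx, hnS⟩
        obtain ⟨h1, h2⟩ := (Nat.modEq_and_modEq_iff_modEq_mul hMa).mpr hnx
        have h2' : n % a = r := Eq.trans h2 hx2'
        exact ⟨⟨hn, Eq.trans h1 hx1, by rw [h2']; exact hr, hnS⟩, h2'⟩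
    have hb : ∀ r ∈ Ω a,
        |((F.filter fun n ↦ n % a = r).card : ℝ)
          - (N:ℝ) / (M * a : ℕ) * ∏ l ∈ S, ((Ω l).card : ℝ) / l|
          ≤ ∏ l ∈ S, ((Ω l).card : ℝ) := by
      intro r hr
      obtain ⟨x, hx⟩ := hrep r hr
      rw [hx]
      refine ihS (M * a) x (Nat.mul_pos hM hap.pos) fun l hl ↦ ?_
      refine Nat.Coprime.mul_left (hco l (Finset.mem_insert_of_mem hl)) ?_
      exact (Nat.coprime_primes hap (hS l (Finset.mem_insert_of_mem hl))).mpr
        (fun h ↦ ha (h ▸ hl))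
    rw [Finset.prod_insert ha, Finset.prod_insert ha, hfib, Nat.cast_sum]
    have hconst : (N:ℝ) / M * (((Ω a).card : ℝ) / a * ∏ l ∈ S, ((Ω l).card : ℝ) / l)
        = ∑ _r ∈ Ω a, (N:ℝ) / (M * a : ℕ) * ∏ l ∈ S, ((Ω l).card : ℝ) / l := by
      rw [Finset.sum_const, nsmul_eq_mul]
      push_cast
      ring
    rw [hconst, ← Finset.sum_sub_distrib]
    refine (Finset.abs_sum_le_sum_abs _ _).trans ?_
    refine (Finset.sum_le_sum hb).trans ?_
    rw [Finset.sum_const, nsmul_eq_mul]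

/-- Brun's pure sieve, upper bound. -/
lemma card_sifted_le (N : ℕ) (P : Finset ℕ) (hP : ∀ l ∈ P, l.Prime) (Ω : ℕ → Finset ℕ)
    (hΩ : ∀ l ∈ P, Ω l ⊆ Finset.range l) (r : ℕ) :
    (((Icc 1 N).filter fun n ↦ ∀ l ∈ P, n % l ∉ Ω l).card : ℝ)
      ≤ (N:ℝ) * truncSum (fun l ↦ ((Ω l).card : ℝ) / l) (2 * r) P
        + (1 + ∑ l ∈ P, ((Ω l).card : ℝ)) ^ (2 * r) := by
  classical
  set cnt : Finset ℕ → ℝ := fun S ↦
    (((Icc 1 N).filter fun n ↦ ∀ l ∈ S, n % l ∈ Ω l).card : ℝ) with hcnt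
  have h1 : (((Icc 1 N).filter fun n ↦ ∀ l ∈ P, n % l ∉ Ω l).card : ℝ)
      ≤ ∑ n ∈ Icc 1 N, truncSum (fun l ↦ if n % l ∈ Ω l then (1:ℝ) else 0) (2 * r) P := by
    rw [Finset.natCast_card_filter]
    refine Finset.sum_le_sum fun n _ ↦ ?_
    refine le_trans (le_of_eq ?_) (prod_le_truncSum (ι := ℕ) _ P
      (fun i ↦ by split_ifs <;> norm_num) (fun i ↦ by split_ifs <;> norm_num) r)
    rw [Finset.prod_congr rfl (fun l _ ↦ show (1 - if n % l ∈ Ω l then (1:ℝ) else 0)
      = if n % l ∉ Ω l then 1 else 0 by split_ifs <;> norm_num)]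
    exact (Finset.prod_boole).symm
  have h2 : ∑ n ∈ Icc 1 N, truncSum (fun l ↦ if n % l ∈ Ω l then (1:ℝ) else 0) (2 * r) P
      = ∑ S ∈ P.powerset, if S.card ≤ 2 * r then (-1 : ℝ) ^ S.card * cnt S else 0 := by
    unfold truncSum
    rw [Finset.sum_comm]
    refine Finset.sum_congr rfl fun S _ ↦ ?_
    by_cases hc : S.card ≤ 2 * r
    · simp only [if_pos hc, ← Finset.mul_sum, hcnt]
      rw [Finset.natCast_card_filter]
      congr 1
      exact Finset.sum_congr rfl fun n _ ↦ Finset.prod_boole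
    · simp only [if_neg hc, Finset.sum_const_zero]
  refine h1.trans (h2.trans_le ?_)
  refine le_trans ?_ (add_le_add le_rfl
    (sum_small_subsets_le (fun l ↦ ((Ω l).card : ℝ)) P (fun i ↦ Nat.cast_nonneg _) (2 * r)))
  unfold truncSum
  rw [Finset.mul_sum, ← Finset.sum_add_distrib]
  refine Finset.sum_le_sum fun S hS ↦ ?_
  by_cases hc : S.card ≤ 2 * r
  · simp only [if_pos hc]
    have hsub := Finset.mem_powerset.mp hS
    have hb := abs_card_classes_sub N Ω S (fun l hl ↦ hP l (hsub hl))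
      (fun l hl ↦ hΩ l (hsub hl)) 1 0 one_pos (fun l _ ↦ Nat.coprime_one_left l)
    have hcn : (((Icc 1 N).filter fun n ↦ n % 1 = 0 % 1 ∧ ∀ l ∈ S, n % l ∈ Ω l).card : ℝ)
        = cnt S := by simp [hcnt, Nat.mod_one]
    rw [hcn, Nat.cast_one, div_one] at hb
    have := abs_le.mp hb
    rcases neg_one_pow_eq_or ℝ S.card with h | h <;> rw [h] <;> linarith
  · simp only [if_neg hc, mul_zero, add_zero, le_refl]

/-- Forbidden residues modulo `l` for a prime `R` with all `a * R + 1` prime. -/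
def forbid (A : Finset ℕ) (l : ℕ) : Finset ℕ :=
  (Finset.range l).filter fun r ↦ r = 0 ∨ ∃ a ∈ A, (a * r + 1) % l = 0

lemma forbid_card_le (A : Finset ℕ) {l : ℕ} (hl : l.Prime) :
    (forbid A l).card ≤ A.card + 1 := by
  classical
  haveI : Fact l.Prime := ⟨hl⟩
  set sol : ℕ → Finset ℕ := fun a ↦ (Finset.range l).filter fun r ↦ (a * r + 1) % l = 0
  have hsub : forbid A l ⊆ insert 0 (A.biUnion sol) := by
    intro r hr
    simp only [forbid, Finset.mem_filter] at hr
    obtain ⟨hr1, rfl | ⟨a, ha, h⟩⟩ := hr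
    · exact Finset.mem_insert_self _ _
    · exact Finset.mem_insert_of_mem (Finset.mem_biUnion.mpr
        ⟨a, ha, Finset.mem_filter.mpr ⟨hr1, h⟩⟩)
  have hsol : ∀ a, (sol a).card ≤ 1 := by
    intro a
    refine Finset.card_le_one.mpr fun r hr r' hr' ↦ ?_
    simp only [sol, Finset.mem_filter, Finset.mem_range] at hr hr'
    have e1 : ((a * r + 1 : ℕ) : ZMod l) = 0 :=
      (ZMod.natCast_eq_zero_iff _ _).mpr (Nat.dvd_of_mod_eq_zero hr.2)
    have e2 : ((a * r' + 1 : ℕ) : ZMod l) = 0 :=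
      (ZMod.natCast_eq_zero_iff _ _).mpr (Nat.dvd_of_mod_eq_zero hr'.2)
    push_cast at e1 e2
    have ha0 : (a : ZMod l) ≠ 0 := by
      intro h
      rw [h, zero_mul, zero_add] at e1
      exact one_ne_zero e1
    have h3 : (r : ZMod l) = r' := mul_left_cancel₀ ha0 (add_right_cancel (e1.trans e2.symm))
    rw [ZMod.natCast_eq_natCast_iff', Nat.mod_eq_of_lt hr.1, Nat.mod_eq_of_lt hr'.1] at h3
    exact h3
  calc (forbid A l).card ≤ (insert 0 (A.biUnion sol)).card := Finset.card_le_card hsub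
    _ ≤ (A.biUnion sol).card + 1 := Finset.card_insert_le _ _
    _ ≤ A.card + 1 := by
        refine Nat.add_le_add_right ?_ 1
        refine (Finset.card_biUnion_le (s := A) (t := sol)).trans ?_
        calc ∑ a ∈ A, (sol a).card ≤ ∑ _a ∈ A, 1 := Finset.sum_le_sum fun a _ ↦ hsol a
          _ = A.card := by simp

/-- The product controlling coincidences among forbidden residues. -/
def discr (A : Finset ℕ) : ℕ :=
  (∏ a ∈ A, a) * ∏ x ∈ (A ×ˢ A).filter (fun x ↦ x.1 < x.2), (x.2 - x.1)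

lemma forbid_card_ge (A : Finset ℕ) {l : ℕ} (hl : l.Prime) (h : ¬ l ∣ discr A) :
    A.card + 1 ≤ (forbid A l).card := by
  classical
  haveI : Fact l.Prime := ⟨hl⟩
  set ρ : ℕ → ℕ := fun a ↦ (-(a : ZMod l)⁻¹).val with hρ
  have hndvd : ∀ a ∈ A, (a : ZMod l) ≠ 0 := by
    intro a ha h0
    rw [ZMod.natCast_eq_zero_iff] at h0
    exact h ((h0.trans (Finset.dvd_prod_of_mem _ ha)).trans (dvd_mul_right _ _))
  have hmem : ∀ a ∈ A, ρ a ∈ (forbid A l).erase 0 := by
    intro a ha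
    rw [Finset.mem_erase]
    refine ⟨?_, Finset.mem_filter.mpr
      ⟨Finset.mem_range.mpr (ZMod.val_lt _), Or.inr ⟨a, ha, ?_⟩⟩⟩
    · intro h0
      rw [hρ, ZMod.val_eq_zero, neg_eq_zero, inv_eq_zero] at h0
      exact hndvd a ha h0
    · refine Nat.mod_eq_zero_of_dvd ?_
      rw [← ZMod.natCast_eq_zero_iff]
      push_cast
      rw [hρ, ZMod.natCast_zmod_val, mul_neg, mul_inv_cancel₀ (hndvd a ha), neg_add_cancel]
  have hinj : Set.InjOn ρ A := by
    intro a ha b hb hab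
    by_contra hne
    wlog hlt : a < b generalizing a b
    · exact this hb ha hab.symm (Ne.symm hne) (by omega)
    have h1 : (a : ZMod l) = b := by
      have := ZMod.val_injective l hab
      exact inv_injective (neg_injective this)
    have h2 : l ∣ b - a := by
      rw [← ZMod.natCast_eq_zero_iff, Nat.cast_sub hlt.le, h1, sub_self]
    have hab' : (a, b) ∈ (A ×ˢ A).filter (fun x ↦ x.1 < x.2) :=
      Finset.mem_filter.mpr ⟨Finset.mem_product.mpr ⟨ha, hb⟩, hlt⟩
    have h3 : b - a ∣ discr A := by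
      unfold discr
      exact Dvd.dvd.trans (Finset.dvd_prod_of_mem (fun x : ℕ × ℕ ↦ x.2 - x.1) hab')
        (dvd_mul_left _ _)
    exact h (h2.trans h3)
  have h0 : 0 ∈ forbid A l :=
    Finset.mem_filter.mpr ⟨Finset.mem_range.mpr hl.pos, Or.inl rfl⟩
  have hc := Finset.card_le_card_of_injOn ρ hmem hinj
  rw [Finset.card_erase_of_mem h0] at hc
  have := Finset.card_pos.mpr ⟨0, h0⟩
  omega

end Vale.Agent.P031
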