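import Mathlib
import Vale.Agent.P031.Sieve

/-!
Upper bound for the number of primes `R ≤ N` such that `a * R + 1` is prime for all `a ∈ A`.
-/

namespace Vale.Agent.P031

open Finset Real

lemma discr_ne_zero (A : Finset ℕ) (hA : ∀ a ∈ A, 1 ≤ a) : discr A ≠ 0 := by
  refine mul_ne_zero (Finset.prod_ne_zero_iff.mpr fun a ha ↦ ?_)
    (Finset.prod_ne_zero_iff.mpr fun x hx ↦ ?_)
  · have := hA a ha; omega
  · have := (Finset.mem_filter.mp hx).2; omega

lemma log_discr_le (A : Finset ℕ) (hA : A.card ≤ 2) (H : ℝ)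
    (ha : ∀ a ∈ A, 1 ≤ a ∧ Real.log a ≤ Real.exp H) :
    Real.log (discr A) ≤ 6 * Real.exp H := by
  set P := (A ×ˢ A).filter (fun x ↦ x.1 < x.2) with hP
  have hD := discr_ne_zero A (fun a h ↦ (ha a h).1)
  unfold discr at hD ⊢
  rw [← hP] at hD ⊢
  obtain ⟨h1, h2⟩ := mul_ne_zero_iff.mp hD
  rw [Nat.cast_mul, Real.log_mul (Nat.cast_ne_zero.mpr h1) (Nat.cast_ne_zero.mpr h2),
    Nat.cast_prod, Nat.cast_prod,
    Real.log_prod (fun i hi ↦ Nat.cast_ne_zero.mpr (Finset.prod_ne_zero_iff.mp h1 i hi)),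
    Real.log_prod (fun i hi ↦ Nat.cast_ne_zero.mpr (Finset.prod_ne_zero_iff.mp h2 i hi))]
  have hb : ∀ x ∈ P, Real.log ((x.2 - x.1 : ℕ) : ℝ) ≤ Real.exp H := by
    intro x hx
    rw [hP, Finset.mem_filter, Finset.mem_product] at hx
    refine le_trans (Real.log_le_log ?_ ?_) (ha x.2 hx.1.2).2
    · have := hx.2
      exact_mod_cast (by omega : 0 < x.2 - x.1)
    · exact_mod_cast Nat.sub_le x.2 x.1
  have e1 := Finset.sum_le_card_nsmul A _ _ (fun a h ↦ (ha a h).2)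
  have e2 := Finset.sum_le_card_nsmul P _ _ hb
  rw [nsmul_eq_mul] at e1 e2
  have hA' : (A.card : ℝ) ≤ 2 := by exact_mod_cast hA
  have hP' : (P.card : ℝ) ≤ 4 := by
    have : P.card ≤ 4 := by
      refine (Finset.card_filter_le _ _).trans ?_
      rw [Finset.card_product]
      calc A.card * A.card ≤ 2 * 2 := Nat.mul_le_mul hA hA
        _ = 4 := by norm_num
    exact_mod_cast this
  have hE := (Real.exp_pos H).le
  have e3 := mul_le_mul_of_nonneg_right hA' hE
  have e4 := mul_le_mul_of_nonneg_right hP' hE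
  linarith

lemma exists_sum_dvd_le :
    ∃ C, 0 ≤ C ∧ ∀ (D : ℕ) (H : ℝ) (P : Finset ℕ), 0 ≤ H → D ≠ 0 →
      Real.log D ≤ 6 * Real.exp H → (∀ l ∈ P, l.Prime ∧ l ∣ D) →
      ∑ l ∈ P, (1:ℝ) / l ≤ Real.log (H + 3) + C := by
  obtain ⟨C, hC0, hC⟩ := exists_abs_sum_inv_prime
  refine ⟨C + 2, by positivity, fun D H P hH hD hlogD hP ↦ ?_⟩
  set Z : ℝ := 8 * Real.exp H with hZ
  have hZpos : 0 < Z := by positivity
  rw [← Finset.sum_filter_add_sum_filter_not P (fun l : ℕ ↦ (l:ℝ) ≤ Z)]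
  have h1 : ∑ l ∈ P.filter (fun l : ℕ ↦ (l:ℝ) ≤ Z), (1:ℝ) / l ≤ Real.log (H + 3) + C := by
    have hs := hC (Real.log (H + 3)) (Real.log_nonneg (by linarith))
    refine le_trans (Finset.sum_le_sum_of_subset_of_nonneg ?_ fun i _ _ ↦ by positivity)
      (by linarith [(abs_le.mp hs).2] :
        ∑ p ∈ primesExp (Real.exp (Real.log (H + 3))), (1:ℝ) / p ≤ Real.log (H + 3) + C)
    intro l hl
    rw [Finset.mem_filter] at hl
    rw [mem_primesExp, Real.exp_log (by linarith)]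
    refine ⟨(hP l hl.1).1, ?_⟩
    refine (Real.log_le_log (by exact_mod_cast (hP l hl.1).1.pos) hl.2).trans ?_
    rw [hZ, Real.log_mul (by norm_num) (Real.exp_ne_zero _), Real.log_exp,
      show (8:ℝ) = 2 ^ 3 by norm_num, Real.log_pow]
    have := Real.log_two_lt_d9
    push_cast
    linarith
  have h2 : ∑ l ∈ P.filter (fun l : ℕ ↦ ¬ (l:ℝ) ≤ Z), (1:ℝ) / l ≤ 2 := by
    set P' := P.filter (fun l : ℕ ↦ ¬ (l:ℝ) ≤ Z) with hP'
    have hprod : ∏ l ∈ P', l ∣ D :=
      Finset.prod_primes_dvd _ (fun l hl ↦ (hP l (Finset.filter_subset _ _ hl)).1.prime)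
        (fun l hl ↦ (hP l (Finset.filter_subset _ _ hl)).2)
    have hcard : (P'.card : ℝ) * Real.log 2 ≤ 6 * Real.exp H := by
      refine le_trans ?_ hlogD
      have hpos : 0 < ∏ l ∈ P', l :=
        Finset.prod_pos fun l hl ↦ (hP l (Finset.filter_subset _ _ hl)).1.pos
      have h2pow : 2 ^ P'.card ≤ ∏ l ∈ P', l := by
        rw [← Finset.prod_const]
        exact Finset.prod_le_prod' fun l hl ↦ (hP l (Finset.filter_subset _ _ hl)).1.two_le
      rw [← Real.log_pow]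
      refine Real.log_le_log (by positivity) ?_
      exact_mod_cast h2pow.trans (Nat.le_of_dvd (Nat.pos_of_ne_zero hD) hprod)
    have hb := Finset.sum_le_card_nsmul P' (fun l ↦ (1:ℝ) / l) (1 / Z) fun l hl ↦ by
      rw [hP', Finset.mem_filter, not_le] at hl
      gcongr
      exact hl.2.le
    rw [nsmul_eq_mul] at hb
    refine hb.trans ?_
    rw [mul_one_div, div_le_iff₀ hZpos, hZ]
    have hlog := Real.log_two_gt_d9
    have hE := Real.exp_pos H
    have hPn : (0:ℝ) ≤ (P'.card : ℝ) := Nat.cast_nonneg _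
    nlinarith
  linarith

/-- The sieving primes. -/
noncomputable def sieveSet (w : ℕ) : Finset ℕ := (Nat.primesLE w).filter (fun p ↦ 8 ≤ p)

/-- The sieve density. -/
noncomputable def dens (A : Finset ℕ) (l : ℕ) : ℝ := ((forbid A l).card : ℝ) / l

lemma sieveSet_prime {w l : ℕ} (hl : l ∈ sieveSet w) : l.Prime :=
  Nat.prime_of_mem_primesLE (Finset.filter_subset _ _ hl)

lemma le_of_mem_sieveSet {w l : ℕ} (hl : l ∈ sieveSet w) : l ≤ w :=
  Nat.le_of_mem_primesLE (Finset.filter_subset _ _ hl)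

lemma dens_nonneg (A : Finset ℕ) (l : ℕ) : 0 ≤ dens A l := by unfold dens; positivity

lemma dens_le (A : Finset ℕ) (hA : A.card ≤ 2) {w l : ℕ} (hl : l ∈ sieveSet w) :
    dens A l ≤ 3 / (l:ℝ) := by
  unfold dens
  gcongr
  exact_mod_cast (forbid_card_le A (sieveSet_prime hl)).trans (by omega)

lemma sum_small_primes_le (w : ℕ) :
    ∑ p ∈ (Nat.primesLE w).filter (fun p ↦ ¬ 8 ≤ p), (1:ℝ) / p ≤ 4 := by
  have hsub : (Nat.primesLE w).filter (fun p ↦ ¬ 8 ≤ p) ⊆ ({2, 3, 5, 7} : Finset ℕ) := by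
    intro p hp
    rw [Finset.mem_filter, not_le] at hp
    have hpp := Nat.prime_of_mem_primesLE hp.1
    have h8 := hp.2
    have := hpp.two_le
    interval_cases p <;> first | decide | exact absurd hpp (by norm_num)
  refine (Finset.sum_le_sum_of_subset_of_nonneg hsub fun i _ _ ↦ by positivity).trans ?_
  norm_num

lemma dens_sum_upper :
    ∃ C, 0 ≤ C ∧ ∀ (A : Finset ℕ) (w : ℕ) (H : ℝ), A.card ≤ 2 → 0 ≤ H →
      Real.log w ≤ Real.exp H → ∑ l ∈ sieveSet w, dens A l ≤ 3 * (H + C) := by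
  obtain ⟨C, hC0, hC⟩ := exists_abs_sum_inv_prime
  refine ⟨C, hC0, fun A w H hA hH hw ↦ ?_⟩
  refine (Finset.sum_le_sum fun l hl ↦ dens_le A hA hl).trans ?_
  have h1 : ∑ l ∈ sieveSet w, (1:ℝ) / l ≤ H + C := by
    have := hC H hH
    refine le_trans (Finset.sum_le_sum_of_subset_of_nonneg ?_ fun i _ _ ↦ by positivity)
      (by linarith [(abs_le.mp this).2] :
        ∑ p ∈ primesExp (Real.exp H), (1:ℝ) / p ≤ H + C)
    intro l hl
    rw [mem_primesExp]
    refine ⟨sieveSet_prime hl, le_trans ?_ hw⟩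
    exact Real.log_le_log (by exact_mod_cast (sieveSet_prime hl).pos)
      (by exact_mod_cast le_of_mem_sieveSet hl)
  have h2 : ∑ l ∈ sieveSet w, 3 / (l:ℝ) = 3 * ∑ l ∈ sieveSet w, (1:ℝ) / l := by
    rw [Finset.mul_sum]
    exact Finset.sum_congr rfl fun l _ ↦ by ring
  linarith

lemma dens_sum_lower :
    ∃ C, 0 ≤ C ∧ ∀ (A : Finset ℕ) (w : ℕ) (H : ℝ), A.card ≤ 2 → 0 ≤ H → 3 ≤ w →
      (∀ a ∈ A, 1 ≤ a ∧ Real.log a ≤ Real.exp H) →
      ((A.card:ℝ) + 1) * Real.log (Real.log w) - C - 3 * Real.log (H + 3)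
        ≤ ∑ l ∈ sieveSet w, dens A l := by
  obtain ⟨C2, hC20, hC2⟩ := exists_le_sum_inv_primesLE
  obtain ⟨C3, hC30, hC3⟩ := exists_sum_dvd_le
  refine ⟨3 * (C2 + 4) + 3 * C3, by positivity, fun A w H hA hH hw hbound ↦ ?_⟩
  have hm2 : (A.card:ℝ) + 1 ≤ 3 := by
    have : (A.card:ℝ) ≤ 2 := by exact_mod_cast hA
    linarith
  have hsum : ((A.card:ℝ) + 1) * ∑ l ∈ sieveSet w, (1:ℝ) / l
      - 3 * ∑ l ∈ (sieveSet w).filter (fun l ↦ l ∣ discr A), (1:ℝ) / l
        ≤ ∑ l ∈ sieveSet w, dens A l := by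
    rw [Finset.sum_filter (fun l ↦ l ∣ discr A), Finset.mul_sum, Finset.mul_sum,
      ← Finset.sum_sub_distrib]
    refine Finset.sum_le_sum fun l hl ↦ ?_
    have hl0 : (0:ℝ) ≤ 1 / (l:ℝ) := by positivity
    split_ifs with hd
    · have := mul_le_mul_of_nonneg_right hm2 hl0
      linarith [dens_nonneg A l]
    · rw [mul_zero, sub_zero, dens, mul_one_div]
      gcongr
      exact_mod_cast forbid_card_ge A (sieveSet_prime hl) hd
  have hbad := hC3 (discr A) H ((sieveSet w).filter (fun l ↦ l ∣ discr A)) hH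
    (discr_ne_zero A fun a h ↦ (hbound a h).1) (log_discr_le A hA H hbound)
    (fun l hl ↦ ⟨sieveSet_prime (Finset.mem_filter.mp hl).1, (Finset.mem_filter.mp hl).2⟩)
  have hP : Real.log (Real.log w) - (C2 + 4) ≤ ∑ l ∈ sieveSet w, (1:ℝ) / l := by
    have h := hC2 w hw
    rw [← Finset.sum_filter_add_sum_filter_not (Nat.primesLE w) (fun p ↦ 8 ≤ p)] at h
    have := sum_small_primes_le w
    unfold sieveSet
    linarith
  have := mul_le_mul_of_nonneg_left hP (by positivity : (0:ℝ) ≤ (A.card:ℝ) + 1)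
  have := mul_le_mul_of_nonneg_right hm2 (by linarith : (0:ℝ) ≤ C2 + 4)
  linarith

lemma forms_subset (A : Finset ℕ) (N w : ℕ) (hA : ∀ a ∈ A, 1 ≤ a) :
    (Icc 1 N).filter (fun R ↦ R.Prime ∧ ∀ a ∈ A, (a * R + 1).Prime)
      ⊆ (Icc 1 w) ∪ ((Icc 1 N).filter fun n ↦ ∀ l ∈ sieveSet w, n % l ∉ forbid A l) := by
  intro R hR
  rw [Finset.mem_filter] at hR
  obtain ⟨hRI, hRp, hRA⟩ := hR
  by_cases hRw : R ≤ w
  · exact Finset.mem_union_left _ (Finset.mem_Icc.mpr ⟨hRp.one_le, hRw⟩)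
  refine Finset.mem_union_right _ (Finset.mem_filter.mpr ⟨hRI, fun l hl hmem ↦ ?_⟩)
  have hlw : l ≤ w := le_of_mem_sieveSet hl
  have hlp := sieveSet_prime hl
  rw [forbid, Finset.mem_filter] at hmem
  rcases hmem.2 with h0 | ⟨a, ha, h0⟩
  · have := (Nat.prime_dvd_prime_iff_eq hlp hRp).mp (Nat.dvd_of_mod_eq_zero h0)
    omega
  · have hmod : (a * R + 1) % l = 0 := by
      rw [Nat.add_mod, Nat.mul_mod] at h0 ⊢
      rwa [Nat.mod_mod] at h0
    have := (Nat.prime_dvd_prime_iff_eq hlp (hRA a ha)).mp (Nat.dvd_of_mod_eq_zero hmod)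
    have : R ≤ a * R := Nat.le_mul_of_pos_left R (hA a ha)
    omega

lemma sieve_error_le (A : Finset ℕ) (hA : A.card ≤ 2) (w r : ℕ) (t : ℝ) (hw : 8 ≤ w)
    (ht : Real.log w ≤ t) :
    (1 + ∑ l ∈ sieveSet w, ((forbid A l).card : ℝ)) ^ (2 * r) ≤ Real.exp (4 * r * t) := by
  have hw8 : (8:ℝ) ≤ w := by exact_mod_cast hw
  have hs : ∑ l ∈ sieveSet w, ((forbid A l).card : ℝ) ≤ 3 * ((w:ℝ) + 1) := by
    refine (Finset.sum_le_card_nsmul _ _ (3:ℝ) fun l hl ↦ ?_).trans ?_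
    · exact_mod_cast (forbid_card_le A (sieveSet_prime hl)).trans (by omega)
    · rw [nsmul_eq_mul, mul_comm]
      gcongr
      have : (sieveSet w).card ≤ w + 1 :=
        (Finset.card_le_card (t := Finset.range (w + 1)) fun l hl ↦
          Finset.mem_range.mpr (Nat.lt_succ_of_le (le_of_mem_sieveSet hl))).trans_eq
          (Finset.card_range _)
      exact_mod_cast this
  calc _ ≤ ((w:ℝ) ^ 2) ^ (2 * r) := by
        gcongr
        nlinarith
    _ = Real.exp (((2 * (2 * r) : ℕ) : ℝ) * Real.log w) := by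
        rw [← pow_mul, Real.exp_nat_mul, Real.exp_log (by linarith)]
    _ ≤ _ := by
        refine Real.exp_le_exp.mpr ?_
        push_cast
        calc 2 * (2 * (r:ℝ)) * Real.log w ≤ 2 * (2 * (r:ℝ)) * t := by gcongr
          _ = _ := by ring

lemma four_mul_cube_le_exp {L : ℝ} (hL : 200 ≤ L) : 4 * L ^ 3 ≤ Real.exp (L / 2) := by
  refine le_trans ?_ (Real.pow_div_factorial_le_exp (L / 2) (by linarith) 5)
  norm_num [Nat.factorial]
  have h2 : (200:ℝ) * 200 ≤ L * L := by gcongr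
  calc 4 * L ^ 3 ≤ (L * L / 3840) * L ^ 3 := by gcongr; linarith
    _ = _ := by ring

lemma sieve_small_le {L X : ℝ} {k : ℕ} (hL : 200 ≤ L) (hk : k ≤ 3) (hX : 1 / L ≤ X)
    (hX1 : X ≤ 1) : 2 * Real.exp (L / 16) ≤ Real.exp L * (X ^ k / 2) := by
  have hL0 : 0 < L := by linarith
  have hXlow : (1 / L) ^ 3 ≤ X ^ k :=
    le_trans (pow_le_pow_left₀ (by positivity) hX 3)
      (pow_le_pow_of_le_one (le_trans (by positivity) hX) hX1 hk)
  have hkey := four_mul_cube_le_exp hL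
  calc 2 * Real.exp (L / 16) ≤ 2 * Real.exp (L / 2) := by gcongr; norm_num
    _ = 4 * L ^ 3 * Real.exp (L / 2) * ((1 / L) ^ 3 / 2) := by field_simp; ring
    _ ≤ Real.exp (L / 2) * Real.exp (L / 2) * (X ^ k / 2) := by gcongr
    _ = _ := by rw [← Real.exp_add, add_halves]

lemma sieve_main_le {D K C H T L : ℝ} {k : ℕ} (hk1 : 1 ≤ k) (hk : k ≤ 3) (hD : 1 ≤ D)
    (hH : 1 ≤ H) (hL : 0 < L) (hK : 0 ≤ K) (hC1 : 1 ≤ C)
    (hT : L ≤ 128 * D * H * T) (hT0 : 0 < T)
    (hC : 256 * (128 * D) ^ 3 * Real.exp K ≤ C) :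
    Real.exp (-((k:ℝ) * Real.log T - K - 3 * Real.log (H + 3))) ≤ (C * H ^ 6 / L) ^ k / 4 := by
  have e1 : Real.exp (-((k:ℝ) * Real.log T - K - 3 * Real.log (H + 3)))
      = (1 / T) ^ k * Real.exp K * (H + 3) ^ 3 := by
    rw [one_div, inv_pow, show -((k:ℝ) * Real.log T - K - 3 * Real.log (H + 3))
      = -((k:ℝ) * Real.log T) + K + ((3:ℕ):ℝ) * Real.log (H + 3) by push_cast; ring,
      Real.exp_add, Real.exp_add, Real.exp_neg, Real.exp_nat_mul, Real.exp_nat_mul,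
      Real.exp_log hT0, Real.exp_log (by linarith)]
  rw [e1]
  have h1 : 1 / T ≤ 128 * D * H / L := by
    rw [div_le_div_iff₀ hT0 hL, one_mul]
    exact hT
  have hD128 : (128 * D) ^ k ≤ (128 * D) ^ 3 := pow_le_pow_right₀ (by linarith) hk
  have hHpow : H ^ k * H ^ 3 ≤ (H ^ 6) ^ k := by
    rw [← pow_add, ← pow_mul]
    exact pow_le_pow_right₀ hH (by omega)
  have hCpow : 256 * (128 * D) ^ 3 * Real.exp K ≤ C ^ k :=
    hC.trans (le_self_pow₀ hC1 (by omega))
  calc (1 / T) ^ k * Real.exp K * (H + 3) ^ 3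
      ≤ (128 * D * H / L) ^ k * Real.exp K * (4 * H) ^ 3 := by
        gcongr
        linarith
    _ = ((128 * D) ^ k * Real.exp K * 256) * (H ^ k * H ^ 3) / L ^ k / 4 := by
        rw [div_pow, mul_pow]; ring
    _ ≤ ((128 * D) ^ 3 * Real.exp K * 256) * (H ^ 6) ^ k / L ^ k / 4 := by gcongr
    _ = (256 * (128 * D) ^ 3 * Real.exp K) * (H ^ 6) ^ k / L ^ k / 4 := by ring
    _ ≤ C ^ k * (H ^ 6) ^ k / L ^ k / 4 := by gcongr
    _ = _ := by rw [div_pow, mul_pow]

/-- Upper bound sieve for primes `R` with all `a * R + 1` (`a ∈ A`) prime. -/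
theorem exists_prime_forms_count :
    ∃ C, 1 ≤ C ∧ ∀ (H : ℝ) (N : ℕ) (A : Finset ℕ), 1 ≤ H → 2 ≤ N →
      Real.log (Real.log N) ≤ H → A.card ≤ 2 →
      (∀ a ∈ A, 1 ≤ a ∧ Real.log a ≤ Real.exp H) →
      (((Icc 1 N).filter fun R ↦ R.Prime ∧ ∀ a ∈ A, (a * R + 1).Prime).card : ℝ)
        ≤ N * (C * H ^ 6 / Real.log N) ^ (A.card + 1) := by
  classical
  obtain ⟨C1, hC10, hC1⟩ := dens_sum_upper
  obtain ⟨C2, hC20, hC2⟩ := dens_sum_lower
  set D : ℝ := 10 * (1 + C1) + 1 with hD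
  set C : ℝ := 256 * D + 256 * (128 * D) ^ 3 * Real.exp C2 + 200 with hC
  have hD1 : 1 ≤ D := by linarith
  have hK0 : 0 ≤ 256 * (128 * D) ^ 3 * Real.exp C2 := by positivity
  have hC1' : 1 ≤ C := by linarith
  refine ⟨C, hC1', fun H N A hH hN hlogN hA hbound ↦ ?_⟩
  set X : ℝ := C * H ^ 6 / Real.log N with hX
  have hN2 : (2:ℝ) ≤ N := by exact_mod_cast hN
  have hlN : 0 < Real.log N := Real.log_pos (by linarith)
  have hH6 : 1 ≤ H ^ 6 := one_le_pow₀ hH
  rcases le_or_gt 1 X with hX1 | hX1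
  · calc ((Finset.filter _ (Icc 1 N)).card : ℝ) ≤ (N:ℝ) := by
          exact_mod_cast le_trans (Finset.card_filter_le _ _) (by simp)
      _ ≤ _ := le_mul_of_one_le_right (by linarith) (one_le_pow₀ hX1)
  have hbig : C * H ^ 6 < Real.log N := by
    rw [hX, div_lt_one hlN] at hX1
    exact hX1
  set r : ℕ := ⌈10 * (H + C1)⌉₊ with hr
  have hr1 : 10 * (H + C1) ≤ r := Nat.le_ceil _
  have hr2 : (r:ℝ) ≤ D * H := by
    have := (Nat.ceil_lt_add_one (by positivity : 0 ≤ 10 * (H + C1))).le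
    rw [← hr] at this
    have hCH : C1 * 1 ≤ C1 * H := mul_le_mul_of_nonneg_left hH hC10
    rw [hD]
    linarith
  have hrpos : (0:ℝ) < r := by linarith
  set t : ℝ := Real.log N / (64 * r) with ht
  have ht4 : 4 ≤ t := by
    rw [ht, le_div_iff₀ (by positivity)]
    have h5 : H ≤ H ^ 6 := le_self_pow₀ hH (by norm_num)
    calc 4 * (64 * (r:ℝ)) ≤ 4 * (64 * (D * H)) := by gcongr
      _ = (256 * D) * H := by ring
      _ ≤ C * H ^ 6 := by gcongr; linarith
      _ ≤ _ := hbig.le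
  set w : ℕ := ⌊Real.exp t⌋₊ with hw
  have hexp : 16 ≤ Real.exp t := by
    have h4 : Real.log ((2:ℝ) ^ 4) ≤ t := by
      rw [Real.log_pow]; push_cast; linarith [Real.log_two_lt_d9]
    have := Real.exp_le_exp.mpr h4
    rw [Real.exp_log (by norm_num)] at this
    linarith
  have hwle : (w:ℝ) ≤ Real.exp t := Nat.floor_le (Real.exp_pos t).le
  have hwge : Real.exp t / 2 ≤ w := by
    have := Nat.lt_floor_add_one (Real.exp t)
    rw [← hw] at this
    linarith
  have hw8' : (8:ℝ) ≤ w := by linarith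
  have hw8 : 8 ≤ w := by exact_mod_cast hw8'
  have hlw1 : Real.log w ≤ t := (Real.log_le_iff_le_exp (by linarith)).mpr hwle
  have hlw2 : t / 2 ≤ Real.log w := by
    have := Real.log_le_log (by positivity) hwge
    rw [Real.log_div (Real.exp_ne_zero _) (by norm_num), Real.log_exp] at this
    linarith [Real.log_two_lt_d9]
  have htN : t ≤ Real.log N := by
    rw [ht]; exact div_le_self hlN.le (by linarith)
  have hlNH : Real.log N ≤ Real.exp H := (Real.log_le_iff_le_exp hlN).mp hlogN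
  have hupper := hC1 A w H hA (by linarith) (hlw1.trans (htN.trans hlNH))
  have hlower := hC2 A w H hA (by linarith) (by omega) hbound
  have hg1 : ∀ l ∈ sieveSet w, dens A l ≤ 1 := fun l hl ↦ by
    refine (dens_le A hA hl).trans ?_
    have : (8:ℝ) ≤ l := by exact_mod_cast (Finset.mem_filter.mp hl).2
    rw [div_le_one (by linarith)]
    linarith
  have htrunc : truncSum (dens A) (2 * r) (sieveSet w)
      ≤ 2 * Real.exp (-∑ l ∈ sieveSet w, dens A l) := by
    refine (truncSum_le _ _ (dens_nonneg A) hg1 (2 * r)).trans ?_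
    rw [two_mul (Real.exp (-∑ l ∈ sieveSet w, dens A l))]
    gcongr
    rw [div_le_iff₀ (by positivity), ← Real.rpow_natCast, Real.rpow_def_of_pos (by norm_num),
      ← Real.exp_add]
    refine Real.exp_le_exp.mpr ?_
    push_cast
    have := mul_le_mul_of_nonneg_right Real.log_two_gt_d9.le hrpos.le
    linarith
  have hmain : Real.exp (-∑ l ∈ sieveSet w, dens A l) ≤ X ^ (A.card + 1) / 4 := by
    refine le_trans (Real.exp_le_exp.mpr (neg_le_neg hlower)) ?_
    have h := sieve_main_le (k := A.card + 1) (D := D) (K := C2) (C := C) (H := H)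
      (T := Real.log w) (L := Real.log N) (by omega) (by omega) hD1 hH hlN hC20 hC1' ?_
      (by linarith) (by linarith)
    · simpa using h
    · calc Real.log N = 128 * r * (t / 2) := by rw [ht]; field_simp; ring
        _ ≤ 128 * (D * H) * Real.log w := by gcongr
        _ = _ := by ring
  have herr : (1 + ∑ l ∈ sieveSet w, ((forbid A l).card : ℝ)) ^ (2 * r)
      ≤ Real.exp (Real.log N / 16) := by
    refine (sieve_error_le A hA w r t hw8 hlw1).trans (le_of_eq ?_)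
    rw [ht]; congr 1; field_simp; ring
  have hwN : (w:ℝ) ≤ Real.exp (Real.log N / 16) := by
    refine hwle.trans (Real.exp_le_exp.mpr ?_)
    rw [ht]
    gcongr
    linarith
  have hsmall := sieve_small_le (L := Real.log N) (X := X) (k := A.card + 1)
    (by linarith [le_mul_of_one_le_right (by linarith : (0:ℝ) ≤ C) hH6]) (by omega)
    (by rw [hX]; gcongr; exact one_le_mul_of_one_le_of_one_le hC1' hH6) hX1.le
  rw [Real.exp_log (by linarith)] at hsmall
  have hsieve := card_sifted_le N (sieveSet w) (fun l hl ↦ sieveSet_prime hl) (forbid A)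
    (fun l _ ↦ Finset.filter_subset _ _) r
  have hcard : (((Icc 1 N).filter fun R ↦ R.Prime ∧ ∀ a ∈ A, (a * R + 1).Prime).card : ℝ)
      ≤ (w:ℝ)
          + (((Icc 1 N).filter fun n ↦ ∀ l ∈ sieveSet w, n % l ∉ forbid A l).card : ℝ) := by
    have h := (Finset.card_le_card (forms_subset A N w fun a h ↦ (hbound a h).1)).trans
      (Finset.card_union_le _ _)
    rw [Nat.card_Icc, Nat.add_sub_cancel] at h
    exact_mod_cast h
  have hdens : (fun l ↦ ((forbid A l).card : ℝ) / l) = dens A := rfl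
  rw [hdens] at hsieve
  have hNtr : (N:ℝ) * truncSum (dens A) (2 * r) (sieveSet w)
      ≤ (N:ℝ) * (2 * (X ^ (A.card + 1) / 4)) := by
    gcongr
    linarith
  linarith

end Vale.Agent.P031
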