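import Mathlib
import Vale.Agent.P031.SieveForms

/-!
Parameters (all functions of the scale `L ≈ log log x`), normal primes, and small analytic tools.
-/

namespace Vale.Agent.P031

open Finset Real Filter Topology

/-- Permitted deviation in the normality condition. -/
noncomputable def ee (L : ℕ) : ℝ := (L:ℝ) ^ (3/5 : ℝ)

/-- Tolerance in the profile constraints. -/
noncomputable def KA (L : ℕ) : ℝ := (L:ℝ) ^ (13/20 : ℝ)

/-- Prime factors of scale at most `K0` form the tail. -/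
noncomputable def K0 (L : ℕ) : ℕ := ⌈(L:ℝ) ^ (7/10 : ℝ)⌉₊

/-- Width of the boundary layer. -/
noncomputable def KK (L : ℕ) : ℝ := (L:ℝ) ^ (4/5 : ℝ)

/-- Bound for the number of levels. -/
noncomputable def kk (L : ℕ) : ℕ := ⌈(L:ℝ) ^ (1/100 : ℝ)⌉₊

/-- Largest prime factor. -/
def lpf (n : ℕ) : ℕ := n.primeFactors.sup id

lemma le_lpf {n l : ℕ} (hn : n ≠ 0) (hl : l.Prime) (h : l ∣ n) : l ≤ lpf n :=
  Finset.le_sup (f := id) (Nat.mem_primeFactors.mpr ⟨hl, h, hn⟩)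

lemma lpf_prime {n : ℕ} (hn : 2 ≤ n) : (lpf n).Prime ∧ lpf n ∣ n := by
  have hne : n.primeFactors.Nonempty := Nat.nonempty_primeFactors.mpr hn
  obtain ⟨x, hx, he⟩ := Finset.exists_mem_eq_sup _ hne id
  unfold lpf
  rw [he]
  exact ⟨Nat.prime_of_mem_primeFactors hx, Nat.dvd_of_mem_primeFactors hx⟩

/-- No square of a prime of large scale divides `n`. -/
def SqfBig (L n : ℕ) : Prop := ∀ l : ℕ, l.Prime → K0 L < 2 * sc l → ¬ l ^ 2 ∣ n

lemma SqfBig.of_dvd {L a b : ℕ} (h : SqfBig L b) (hab : a ∣ b) : SqfBig L a :=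
  fun l hl hlK hdvd ↦ h l hl hlK (hdvd.trans hab)

/-- Normal primes: `q - 1` has the expected number of prime factors at every scale, a large
prime factor, and no large square factor. -/
structure Normal (L q : ℕ) : Prop where
  prime : q.Prime
  profile : ∀ s : ℕ, |(omle s (q - 1) : ℝ) - (min s (sc q) : ℕ)| ≤ ee L
  top : Real.exp (sc q) ≤ (L:ℝ) ^ 3 * Real.log (lpf (q - 1) : ℕ)
  sqf : SqfBig L (q - 1)

lemma ev_mul_rpow_le {a b : ℝ} (hab : a < b) (C : ℝ) :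
    ∀ᶠ L : ℕ in atTop, C * (L:ℝ) ^ a ≤ (L:ℝ) ^ b := by
  have h := (tendsto_rpow_atTop (sub_pos.mpr hab)).comp tendsto_natCast_atTop_atTop
  filter_upwards [h.eventually_ge_atTop C, eventually_ge_atTop 1] with L hL hL1
  have hL0 : (0:ℝ) < L := by exact_mod_cast hL1
  calc C * (L:ℝ) ^ a ≤ (L:ℝ) ^ (b - a) * (L:ℝ) ^ a := by
        gcongr
        exact hL
    _ = _ := by rw [← Real.rpow_add hL0, sub_add_cancel]

lemma ev_const_le_rpow {b : ℝ} (hb : 0 < b) (C : ℝ) : ∀ᶠ L : ℕ in atTop, C ≤ (L:ℝ) ^ b := by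
  filter_upwards [ev_mul_rpow_le hb C] with L hL
  simpa using hL

lemma ev_log_le_rpow {b : ℝ} (hb : 0 < b) (C : ℝ) :
    ∀ᶠ L : ℕ in atTop, C * Real.log L ≤ (L:ℝ) ^ b := by
  have h2 : (0:ℝ) < b / 2 := by positivity
  filter_upwards [ev_mul_rpow_le (a := b/2) (b := b) (by linarith) (|C| / (b/2)),
    eventually_ge_atTop 1] with L hL hL1
  have hL1' : (1:ℝ) ≤ L := by exact_mod_cast hL1
  have hlog := Real.log_le_rpow_div (by linarith : (0:ℝ) ≤ L) h2
  have hlog0 : 0 ≤ Real.log L := Real.log_nonneg hL1'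
  calc C * Real.log L ≤ |C| * Real.log L := by gcongr; exact le_abs_self C
    _ ≤ |C| * ((L:ℝ) ^ (b/2) / (b/2)) := by gcongr
    _ = |C| / (b/2) * (L:ℝ) ^ (b/2) := by ring
    _ ≤ _ := hL

/-- A polynomial in `L` times `exp (-L^b)` is eventually at most `exp (-L^a)` for `a < b`. -/
lemma ev_poly_mul_exp {a b : ℝ} (ha : 0 < a) (hab : a < b) (C : ℝ) (n : ℕ) (c : ℝ) (hc : 0 < c) :
    ∀ᶠ L : ℕ in atTop,
      C * (L:ℝ) ^ n * Real.exp (-(c * (L:ℝ) ^ b)) ≤ Real.exp (-((L:ℝ) ^ a)) := by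
  filter_upwards [ev_mul_rpow_le hab (3 / c), ev_log_le_rpow (b := b) (by linarith) (3 * n / c),
    ev_const_le_rpow (b := b) (by linarith) (3 * C / c), eventually_ge_atTop 1] with L h1 h2 h3 hL1
  have hL0 : (0:ℝ) < L := by exact_mod_cast hL1
  have e1 : C ≤ Real.exp C := by linarith [Real.add_one_le_exp C]
  have e2 : (L:ℝ) ^ n = Real.exp ((n:ℝ) * Real.log L) := by
    rw [Real.exp_nat_mul, Real.exp_log hL0]
  calc C * (L:ℝ) ^ n * Real.exp (-(c * (L:ℝ) ^ b))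
      ≤ Real.exp C * Real.exp ((n:ℝ) * Real.log L) * Real.exp (-(c * (L:ℝ) ^ b)) := by
        rw [← e2]; gcongr
    _ = Real.exp (C + (n:ℝ) * Real.log L - c * (L:ℝ) ^ b) := by
        rw [← Real.exp_add, ← Real.exp_add]; ring_nf
    _ ≤ _ := by
        refine Real.exp_le_exp.mpr ?_
        have h1' : 3 * (L:ℝ) ^ a ≤ c * (L:ℝ) ^ b := by
          have := mul_le_mul_of_nonneg_left h1 hc.le
          calc 3 * (L:ℝ) ^ a = c * (3 / c * (L:ℝ) ^ a) := by field_simp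
            _ ≤ _ := this
        have h2' : 3 * ((n:ℝ) * Real.log L) ≤ c * (L:ℝ) ^ b := by
          have := mul_le_mul_of_nonneg_left h2 hc.le
          calc 3 * ((n:ℝ) * Real.log L) = c * (3 * n / c * Real.log L) := by field_simp
            _ ≤ _ := this
        have h3' : 3 * C ≤ c * (L:ℝ) ^ b := by
          have := mul_le_mul_of_nonneg_left h3 hc.le
          calc 3 * C = c * (3 * C / c) := by field_simp
            _ ≤ _ := this
        linarith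

lemma sum_inv_sq_le (T : Finset ℕ) (a : ℕ) (ha : 1 ≤ a) (hT : ∀ n ∈ T, a < n) :
    ∑ n ∈ T, (1:ℝ) / (n:ℝ) ^ 2 ≤ 1 / (a:ℝ) := by
  set M := T.sup id with hM
  have hsub : T ⊆ Finset.Icc (a + 1) (max M a) := by
    intro n hn
    rw [Finset.mem_Icc]
    exact ⟨hT n hn, le_max_of_le_left (Finset.le_sup (f := id) hn)⟩
  refine (Finset.sum_le_sum_of_subset_of_nonneg hsub fun i _ _ ↦ by positivity).trans ?_
  have key : ∀ m, a ≤ m →
      ∑ n ∈ Finset.Icc (a + 1) m, (1:ℝ) / (n:ℝ) ^ 2 ≤ 1 / (a:ℝ) - 1 / (m:ℝ) := by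
    intro m hm
    induction m, hm using Nat.le_induction with
    | base => simp
    | succ m hm ih =>
      rw [Finset.sum_Icc_succ_top (by omega)]
      have hm0 : (0:ℝ) < m := by exact_mod_cast (by omega : 0 < m)
      push_cast
      have h3 : 1 / ((m:ℝ) + 1) ^ 2 ≤ 1 / (m:ℝ) - 1 / ((m:ℝ) + 1) := by
        rw [div_sub_div _ _ hm0.ne' (by positivity),
          div_le_div_iff₀ (by positivity) (by positivity)]
        nlinarith
      linarith
  have := key (max M a) (le_max_right _ _)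
  have h0 : 0 ≤ 1 / ((max M a : ℕ):ℝ) := by positivity
  linarith

lemma sum_inv_sq_primes_le (S : Finset ℕ) (hS : ∀ l ∈ S, 2 ≤ l) :
    ∑ l ∈ S, (1:ℝ) / (l:ℝ) ^ 2 ≤ 1 := by
  simpa using sum_inv_sq_le S 1 le_rfl (fun n hn ↦ by have := hS n hn; omega)

/-- Dyadic decomposition. -/
lemma sum_dyadic_le (S : Finset ℕ) (M : ℕ) (f : ℕ → ℝ) (hf : ∀ n ∈ S, 0 ≤ f n)
    (hS : ∀ n ∈ S, 2 ≤ n ∧ n ≤ 2 ^ M) :
    ∑ n ∈ S, f n ≤ ∑ i ∈ Finset.range M,
      ∑ n ∈ S.filter (fun n ↦ 2 ^ i < n ∧ n ≤ 2 ^ (i + 1)), f n := by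
  rw [← Finset.sum_fiberwise_of_maps_to (t := Finset.range M) (g := fun n ↦ Nat.log 2 (n - 1))]
  · refine Finset.sum_le_sum fun i _ ↦ Finset.sum_le_sum_of_subset_of_nonneg ?_ ?_
    · intro n hn
      rw [Finset.mem_filter] at hn ⊢
      obtain ⟨hnS, rfl⟩ := hn
      have := hS n hnS
      have h1 := Nat.pow_log_le_self 2 (x := n - 1) (by omega)
      have h2 := Nat.lt_pow_succ_log_self (b := 2) (by norm_num) (n - 1)
      exact ⟨hnS, by omega, by omega⟩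
    · intro n hn _
      exact hf n (Finset.mem_filter.mp hn).1
  · intro n hn
    have := hS n hn
    rw [Finset.mem_range]
    exact Nat.log_lt_of_lt_pow (by omega) (by omega)

/-- Weight exponent for Rankin's method. -/
lemma rankin_rpow_le {l : ℕ} (hl : 2 ≤ l) {α : ℝ} (hα2 : α ≤ 1/2) :
    (l:ℝ) ^ α ≤ 3/4 * l := by
  have h2 : (2:ℝ) ≤ l := by exact_mod_cast hl
  calc (l:ℝ) ^ α ≤ (l:ℝ) ^ (1/2:ℝ) := Real.rpow_le_rpow_of_exponent_le (by linarith) hα2
    _ = Real.sqrt l := (Real.sqrt_eq_rpow _).symm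
    _ ≤ _ := by
        rw [Real.sqrt_le_left (by linarith)]
        nlinarith

lemma wt_rpow (α : ℝ) {n : ℕ} (hn : n ≠ 0) : wt (fun l ↦ (l:ℝ) ^ α) n = (n:ℝ) ^ α := by
  induction n using Nat.strong_induction_on with
  | _ n ih =>
    by_cases h1 : n = 1
    · subst h1; simp [wt_one]
    obtain ⟨p, hp, hdvd⟩ := Nat.exists_prime_and_dvd h1
    obtain ⟨m, rfl⟩ := hdvd
    have hm : m ≠ 0 := right_ne_zero_of_mul hn
    have hlt : m < p * m := lt_mul_of_one_lt_left (Nat.pos_of_ne_zero hm) hp.one_lt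
    rw [wt_mul _ hp.ne_zero hm, wt_prime _ hp, ih m hlt hm, Nat.cast_mul,
      Real.mul_rpow (Nat.cast_nonneg _) (Nat.cast_nonneg _)]

/-- Rankin's bound for reciprocals of smooth numbers. -/
lemma exists_smooth_tail :
    ∃ C, 0 ≤ C ∧ ∀ (t H D : ℝ) (T : Finset ℕ), 2 ≤ t → 0 ≤ H → t ≤ Real.exp H →
      (∀ n ∈ T, n ≠ 0 ∧ (∀ l : ℕ, l.Prime → l ∣ n → Real.log l ≤ t) ∧ D ≤ Real.log n) →
      ∑ n ∈ T, (1:ℝ) / n ≤ Real.exp (-(D / t) + 15 * (H + C)) := by
  obtain ⟨C, hC0, hC⟩ := exists_abs_sum_inv_prime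
  refine ⟨C, hC0, fun t H D T ht hH htH hT ↦ ?_⟩
  set α : ℝ := 1 / t with hα
  have hα0 : 0 ≤ α := by positivity
  have hα2 : α ≤ 1/2 := by rw [hα]; gcongr
  set S := primesExp t with hS
  have h1 := sum_wt_div_le S T (fun l ↦ (l:ℝ) ^ α)
    (fun l hl ↦ (mem_primesExp.mp hl).1) (fun l _ ↦ Real.rpow_nonneg (Nat.cast_nonneg _) _)
    (fun l hl ↦ rankin_rpow_le (mem_primesExp.mp hl).1.two_le hα2)
    (fun n hn ↦ ⟨(hT n hn).1, fun l hl ↦ mem_primesExp.mpr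
      ⟨Nat.prime_of_mem_primeFactorsList hl,
        (hT n hn).2.1 l (Nat.prime_of_mem_primeFactorsList hl)
          (Nat.dvd_of_mem_primeFactorsList hl)⟩⟩)
  have h2 : ∀ n ∈ T, (1:ℝ) / n * Real.exp (D / t) ≤ wt (fun l ↦ (l:ℝ) ^ α) n / n := by
    intro n hn
    obtain ⟨hn0, -, hD⟩ := hT n hn
    have hn' : (0:ℝ) < n := by exact_mod_cast Nat.pos_of_ne_zero hn0
    rw [wt_rpow α hn0, one_div_mul_eq_div, Real.rpow_def_of_pos hn', hα, mul_one_div]
    gcongr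
  have h3 : ∑ l ∈ S, ((l:ℝ) ^ α / l + 4 * ((l:ℝ) ^ α / l) ^ 2) ≤ 15 * (H + C) := by
    have hstep : ∀ l ∈ S, (l:ℝ) ^ α / l + 4 * ((l:ℝ) ^ α / l) ^ 2 ≤ 15 * ((1:ℝ) / l) := by
      intro l hl
      obtain ⟨hlp, hlog⟩ := mem_primesExp.mp hl
      have hl0 : (0:ℝ) < l := by exact_mod_cast hlp.pos
      have he : (l:ℝ) ^ α ≤ 3 := by
        rw [Real.rpow_def_of_pos hl0, hα, mul_one_div]
        have h1 : Real.log l / t ≤ 1 := (div_le_one (by linarith)).mpr hlog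
        linarith [Real.exp_le_exp.mpr h1, Real.exp_one_lt_d9]
      have hr := rankin_rpow_le hlp.two_le hα2
      have h0 : 0 ≤ (l:ℝ) ^ α / l := by positivity
      have hle1 : (l:ℝ) ^ α / l ≤ 1 := by
        rw [div_le_one hl0]; linarith
      calc (l:ℝ) ^ α / l + 4 * ((l:ℝ) ^ α / l) ^ 2 ≤ 5 * ((l:ℝ) ^ α / l) := by nlinarith
        _ ≤ 5 * (3 / (l:ℝ)) := by gcongr
        _ = _ := by ring
    refine (Finset.sum_le_sum hstep).trans ?_
    rw [← Finset.mul_sum]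
    gcongr
    have := hC H hH
    refine le_trans (Finset.sum_le_sum_of_subset_of_nonneg (primesExp_mono htH)
      fun i _ _ ↦ by positivity) ?_
    linarith [(abs_le.mp this).2]
  rw [Real.exp_add, Real.exp_neg, inv_mul_eq_div, le_div_iff₀ (Real.exp_pos _), Finset.sum_mul]
  exact (Finset.sum_le_sum h2).trans (h1.trans (Real.exp_le_exp.mpr h3))

end Vale.Agent.P031
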