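import Mathlib
import Vale.Agent.P031.Params

/-!
Primes that fail to be normal are rare.
-/

namespace Vale.Agent.P031

open Finset Real Filter Topology

/-- Step weight: `c` on primes of scale at most `s`, `1` elsewhere. -/
noncomputable def stepWt (c : ℝ) (s : ℕ) (l : ℕ) : ℝ := if sc l ≤ s then c else 1

lemma wt_stepWt (c : ℝ) (s n : ℕ) : wt (stepWt c s) n = c ^ omle s n := by
  unfold wt omle stepWt
  induction n.primeFactorsList with
  | nil => simp
  | cons a t ih =>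
    rw [List.map_cons, List.prod_cons, ih, List.filter_cons]
    by_cases h : sc a ≤ s
    · simp [h, pow_succ']
    · simp [h]

lemma omle_of_sc_le {σ s n : ℕ} (h : σ ≤ s)
    (hn : ∀ l ∈ n.primeFactorsList, sc l ≤ σ) : omle s n = omle σ n := by
  unfold omle
  congr 1
  refine List.filter_congr fun l hl ↦ ?_
  simp [(hn l hl), (hn l hl).trans h]

lemma sc_le_of_mem_factors {n m l : ℕ} (hn : n ≠ 0) (hnm : n ≤ m)
    (hl : l ∈ n.primeFactorsList) : sc l ≤ sc m :=
  sc_mono ((Nat.le_of_dvd (Nat.pos_of_ne_zero hn) (Nat.dvd_of_mem_primeFactorsList hl)).trans hnm)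

lemma exp_sc_le_three_mul {n : ℕ} (hn : 1 ≤ Real.log n) :
    Real.exp (sc n) ≤ 3 * Real.log n := by
  rcases Nat.eq_zero_or_pos (sc n) with h | h
  · rw [h, Nat.cast_zero, Real.exp_zero]; linarith
  · have := exp_sc_pred_lt h
    have he : Real.exp (sc n) = Real.exp 1 * Real.exp ((sc n : ℝ) - 1) := by
      rw [← Real.exp_add]; ring_nf
    rw [he]
    exact mul_le_mul (by linarith [Real.exp_one_lt_d9]) this.le (Real.exp_pos _).le (by norm_num)

lemma sc_two_mul_le {Q : ℕ} (hQ : 2 ≤ Q) : sc (2 * Q) ≤ sc Q + 1 := by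
  rw [sc_le_iff]
  push_cast
  have hQ' : (2:ℝ) ≤ Q := by exact_mod_cast hQ
  have hlQ : Real.log 2 ≤ Real.log Q := Real.log_le_log (by norm_num) hQ'
  rw [Real.log_mul (by norm_num) (by linarith)]
  have h2 := log_le_exp_sc Q
  have he : (2:ℝ) * Real.exp (sc Q) ≤ Real.exp ((sc Q : ℝ) + 1) := by
    rw [Real.exp_add, mul_comm]
    gcongr
    linarith [Real.add_one_le_exp (1:ℝ)]
  linarith

/-- The weighted count of primes `q` in a dyadic range whose `q - 1` has a large prime factor. -/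
lemma exists_weighted_prime_count :
    ∃ K, 1 ≤ K ∧ ∀ (L Q : ℕ) (c : ℝ) (s : ℕ) (lam : ℝ) (S : Finset ℕ),
      1 ≤ L → 2 ≤ Q → sc (2 * Q) ≤ L + 3 → 0 < c → c ≤ 3/2 → 0 < lam →
      (∀ q ∈ S, q.Prime ∧ Q < q ∧ q ≤ 2 * Q ∧
        Real.exp (sc q) ≤ (L:ℝ) ^ 3 * Real.log (lpf (q - 1) : ℕ) ∧
        lam ≤ c ^ omle s (q - 1)) →
      (S.card : ℝ) ≤ Q / Real.log (2 * Q : ℕ) * (K * (L:ℝ) ^ 18
        * Real.exp ((c - 1) * (min s (sc (2 * Q)) : ℕ)) / lam) := by
  obtain ⟨C, hC1, hC⟩ := exists_prime_forms_count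
  obtain ⟨C2, hC20, hC2⟩ := exists_abs_sum_primesSc
  set K : ℝ := 16 * (C * 5 ^ 6) ^ 2 * Real.exp (2 * C2 + 9) * 3 with hK
  have hCpow : 1 ≤ (C * 5 ^ 6) ^ 2 := one_le_pow₀ (by linarith)
  have hexp1 : 1 ≤ Real.exp (2 * C2 + 9) := Real.one_le_exp (by linarith)
  refine ⟨K, ?_, fun L Q c s lam S hL hQ hsc hc0 hc hlam hS ↦ ?_⟩
  · rw [hK]
    have : 1 ≤ (C * 5 ^ 6) ^ 2 * Real.exp (2 * C2 + 9) := one_le_mul_of_one_le_of_one_le hCpow hexp1
    linarith
  set σm := sc (2 * Q) with hσm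
  set z := stepWt c s with hz
  have hz0 : ∀ l, 0 < z l := fun l ↦ by rw [hz, stepWt]; split_ifs <;> linarith
  have hz2 : ∀ l, z l ≤ 3/2 := fun l ↦ by rw [hz, stepWt]; split_ifs <;> linarith
  set H : ℝ := (L:ℝ) + 4 with hH
  have hL' : (1:ℝ) ≤ L := by exact_mod_cast hL
  have hQ' : (2:ℝ) ≤ Q := by exact_mod_cast hQ
  set LQ : ℝ := Real.log (2 * Q : ℕ) with hLQ
  have hLQ1 : 1 ≤ LQ := by
    rw [hLQ]; push_cast
    rw [Real.le_log_iff_exp_le (by linarith)]
    linarith [Real.exp_one_lt_d9]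
  have hscR : (σm:ℝ) ≤ L + 3 := by exact_mod_cast hsc
  have hLQH : LQ ≤ Real.exp H := by
    refine (log_le_exp_sc (2 * Q)).trans (Real.exp_le_exp.mpr ?_)
    rw [← hσm, hH]; linarith
  set cof : ℕ → ℕ := fun q ↦ (q - 1) / lpf (q - 1) with hcof
  set 𝒜 := S.image cof with h𝒜
  have hq : ∀ q ∈ S, 2 ≤ q - 1 ∧ (lpf (q - 1)).Prime ∧
      cof q * lpf (q - 1) = q - 1 ∧ cof q ≠ 0 := by
    intro q hqS
    obtain ⟨hp, hlo, -, -, -⟩ := hS q hqS
    have h2 : 2 ≤ q - 1 := by omega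
    obtain ⟨hP, hd⟩ := lpf_prime h2
    have hmul : cof q * lpf (q - 1) = q - 1 := Nat.div_mul_cancel hd
    exact ⟨h2, hP, hmul, fun h ↦ by rw [h, zero_mul] at hmul; omega⟩
  -- a lower bound for the logarithm of the available range
  have hrange : ∀ A ∈ 𝒜, 2 ≤ 2 * Q / A ∧ LQ / (2 * (L:ℝ) ^ 3)
      ≤ Real.log ((2 * Q / A : ℕ) : ℝ) ∧ A ≠ 0 ∧ A ≤ 2 * Q := by
    intro A hA
    obtain ⟨q, hqS, rfl⟩ := Finset.mem_image.mp hA
    obtain ⟨hp, hlo, hhi, htop, -⟩ := hS q hqS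
    obtain ⟨h2, hP, hmul, hA0⟩ := hq q hqS
    have hAle : cof q ≤ 2 * Q := (Nat.div_le_self _ _).trans (by omega)
    have hPN : lpf (q - 1) ≤ 2 * Q / cof q := by
      rw [Nat.le_div_iff_mul_le (Nat.pos_of_ne_zero hA0), mul_comm, hmul]
      omega
    refine ⟨hP.two_le.trans hPN, ?_, hA0, hAle⟩
    have hP0 : (0:ℝ) < (lpf (q - 1) : ℕ) := by exact_mod_cast hP.pos
    have hPN' : ((lpf (q - 1) : ℕ):ℝ) ≤ ((2 * Q / cof q : ℕ):ℝ) := by exact_mod_cast hPN
    refine le_trans ?_ (Real.log_le_log hP0 hPN')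
    rw [div_le_iff₀ (by positivity)]
    have hq' : (Q:ℝ) ≤ q := by exact_mod_cast hlo.le
    have h2log : LQ ≤ 2 * Real.log q := by
      rw [hLQ]; push_cast
      rw [Real.log_mul (by norm_num) (by linarith)]
      have e1 : Real.log 2 ≤ Real.log q := Real.log_le_log (by norm_num) (by linarith)
      have e2 : Real.log Q ≤ Real.log q := Real.log_le_log (by linarith) hq'
      linarith
    have := (log_le_exp_sc q).trans htop
    linarith
  have hwle : ∀ q ∈ S, lam ≤ 2 * wt z (cof q) := by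
    intro q hqS
    obtain ⟨-, -, -, -, hlamle⟩ := hS q hqS
    obtain ⟨h2, hP, hmul, hA0⟩ := hq q hqS
    refine hlamle.trans ?_
    rw [← wt_stepWt, ← hz, ← hmul, wt_mul _ hA0 hP.ne_zero, wt_prime _ hP, mul_comm]
    exact mul_le_mul_of_nonneg_right (by linarith [hz2 (lpf (q - 1))])
      (wt_nonneg (fun l ↦ (hz0 l).le) _)
  have hfib : ∀ A ∈ 𝒜, ((S.filter fun q ↦ cof q = A).card : ℝ)
      ≤ (2 * Q : ℕ) / (A:ℝ) * (C * H ^ 6 * (2 * (L:ℝ) ^ 3) / LQ) ^ 2 := by
    intro A hA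
    obtain ⟨hN2, hlogN, hA0, hA2Q⟩ := hrange A hA
    set N := 2 * Q / A with hN
    have hmap : (S.filter fun q ↦ cof q = A).card
        ≤ ((Icc 1 N).filter fun R ↦ R.Prime ∧ ∀ a ∈ ({A} : Finset ℕ), (a * R + 1).Prime).card := by
      refine Finset.card_le_card_of_injOn (fun q ↦ lpf (q - 1)) ?_ ?_
      · intro q hqm
        rw [Finset.mem_coe, Finset.mem_filter] at hqm
        obtain ⟨hqS, hqA⟩ := hqm
        obtain ⟨hp, hlo, hhi, -, -⟩ := hS q hqS
        obtain ⟨h2, hP, hmul, -⟩ := hq q hqS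
        rw [hqA] at hmul
        rw [Finset.mem_coe, Finset.mem_filter, Finset.mem_Icc]
        refine ⟨⟨hP.one_le, ?_⟩, hP, ?_⟩
        · rw [hN, Nat.le_div_iff_mul_le (Nat.pos_of_ne_zero hA0), mul_comm, hmul]
          omega
        · intro a ha
          rw [Finset.mem_singleton] at ha
          subst ha
          rw [hmul]
          convert hp using 1
          omega
      · intro q hq1 q' hq2 heq
        rw [Finset.mem_coe, Finset.mem_filter] at hq1 hq2
        have e1 := (hq q hq1.1).2.2.1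
        have e2 := (hq q' hq2.1).2.2.1
        have h2a := (hq q hq1.1).1
        have h2b := (hq q' hq2.1).1
        rw [hq1.2] at e1
        rw [hq2.2] at e2
        simp only at heq
        rw [heq, e2] at e1
        omega
    have hNle : N ≤ 2 * Q := Nat.div_le_self _ _
    have hN2' : (2:ℝ) ≤ N := by exact_mod_cast hN2
    have hlN0 : 0 < Real.log N := Real.log_pos (by linarith)
    have hloglog : Real.log (Real.log N) ≤ H := by
      rw [Real.log_le_iff_le_exp hlN0]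
      exact le_trans (Real.log_le_log (by linarith) (by exact_mod_cast hNle)) hLQH
    have hb := hC H N {A} (by rw [hH]; linarith) hN2 hloglog (by simp) (fun a ha ↦ by
      rw [Finset.mem_singleton] at ha
      subst ha
      refine ⟨Nat.one_le_iff_ne_zero.mpr hA0, le_trans ?_ hLQH⟩
      exact Real.log_le_log (by exact_mod_cast Nat.pos_of_ne_zero hA0) (by exact_mod_cast hA2Q))
    rw [Finset.card_singleton] at hb
    refine le_trans (Nat.cast_le.mpr hmap) (hb.trans ?_)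
    have hNdiv : (N:ℝ) ≤ (2 * Q : ℕ) / (A:ℝ) := by rw [hN]; exact Nat.cast_div_le
    refine mul_le_mul hNdiv (pow_le_pow_left₀ (by positivity) ?_ 2) (by positivity)
      (by positivity)
    rw [div_le_div_iff₀ hlN0 (by linarith)]
    have hlogN' : LQ ≤ Real.log N * (2 * (L:ℝ) ^ 3) := by
      rwa [div_le_iff₀ (by positivity)] at hlogN
    calc C * H ^ 6 * LQ ≤ C * H ^ 6 * (Real.log N * (2 * (L:ℝ) ^ 3)) := by gcongr
      _ = _ := by ring
  have hEuler : ∑ A ∈ 𝒜, wt z A / A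
      ≤ Real.exp ((c - 1) * (min s σm : ℕ) + σm + (2 * C2 + 9)) := by
    refine (sum_wt_div_le (primesSc σm) 𝒜 z (fun l hl ↦ (mem_primesSc.mp hl).1)
      (fun l _ ↦ (hz0 l).le) (fun l hl ↦ ?_) ?_).trans (Real.exp_le_exp.mpr ?_)
    · have : (2:ℝ) ≤ l := by exact_mod_cast (mem_primesSc.mp hl).1.two_le
      linarith [hz2 l]
    · intro A hA
      obtain ⟨-, -, hA0, hA2Q⟩ := hrange A hA
      exact ⟨hA0, fun l hl ↦ mem_primesSc.mpr
        ⟨Nat.prime_of_mem_primeFactorsList hl, sc_le_of_mem_factors hA0 hA2Q hl⟩⟩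
    · rw [Finset.sum_add_distrib]
      have h1 : ∑ l ∈ primesSc σm, z l / l = (∑ l ∈ primesSc σm, (1:ℝ) / l)
          + (c - 1) * ∑ l ∈ primesSc (min s σm), (1:ℝ) / l := by
        have hset : (primesSc σm).filter (fun l ↦ sc l ≤ s) = primesSc (min s σm) := by
          ext l
          simp only [Finset.mem_filter, mem_primesSc, le_min_iff]
          tauto
        rw [← hset, Finset.sum_filter, Finset.mul_sum, ← Finset.sum_add_distrib]
        refine Finset.sum_congr rfl fun l _ ↦ ?_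
        rw [hz, stepWt]
        split_ifs <;> ring
      have h2 : ∑ l ∈ primesSc σm, 4 * (z l / l) ^ 2 ≤ 9 := by
        have h := sum_inv_sq_primes_le (primesSc σm) fun l hl ↦ (mem_primesSc.mp hl).1.two_le
        calc ∑ l ∈ primesSc σm, 4 * (z l / l) ^ 2
            ≤ ∑ l ∈ primesSc σm, 9 * ((1:ℝ) / (l:ℝ) ^ 2) := by
              refine Finset.sum_le_sum fun l _ ↦ ?_
              rw [div_pow]
              have : z l ^ 2 ≤ 9/4 := by nlinarith [hz0 l, hz2 l]
              calc 4 * (z l ^ 2 / (l:ℝ) ^ 2) ≤ 4 * ((9/4) / (l:ℝ) ^ 2) := by gcongr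
                _ = _ := by ring
          _ ≤ 9 := by rw [← Finset.mul_sum]; linarith
      have h3 := abs_le.mp (hC2 σm)
      have h4 := abs_le.mp (hC2 (min s σm))
      have hcC : |(c - 1) * (∑ l ∈ primesSc (min s σm), (1:ℝ) / l - (min s σm : ℕ))|
          ≤ 1 * C2 := by
        rw [abs_mul]
        exact mul_le_mul (abs_le.mpr ⟨by linarith, by linarith⟩) (hC2 _) (abs_nonneg _)
          (by norm_num)
      have := le_abs_self ((c - 1) * (∑ l ∈ primesSc (min s σm), (1:ℝ) / l - (min s σm : ℕ)))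
      rw [h1]
      linarith
  have hsum : (S.card : ℝ) * lam
      ≤ (2 * Q : ℕ) * (C * H ^ 6 * (2 * (L:ℝ) ^ 3) / LQ) ^ 2 * 2 * ∑ A ∈ 𝒜, wt z A / A := by
    calc (S.card : ℝ) * lam = ∑ q ∈ S, lam := by rw [Finset.sum_const, nsmul_eq_mul]
      _ ≤ ∑ q ∈ S, 2 * wt z (cof q) := Finset.sum_le_sum hwle
      _ = ∑ A ∈ 𝒜, ((S.filter fun q ↦ cof q = A).card : ℝ) * (2 * wt z A) := by
          rw [← Finset.sum_fiberwise_of_maps_to (t := 𝒜) (g := cof)
            (fun q hqS ↦ Finset.mem_image_of_mem cof hqS)]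
          refine Finset.sum_congr rfl fun A _ ↦ ?_
          rw [← nsmul_eq_mul, ← Finset.sum_const]
          refine Finset.sum_congr rfl fun q hqf ↦ ?_
          rw [(Finset.mem_filter.mp hqf).2]
      _ ≤ ∑ A ∈ 𝒜, (2 * Q : ℕ) / (A:ℝ) * (C * H ^ 6 * (2 * (L:ℝ) ^ 3) / LQ) ^ 2
            * (2 * wt z A) := by
          refine Finset.sum_le_sum fun A hA ↦ mul_le_mul_of_nonneg_right (hfib A hA) ?_
          exact mul_nonneg (by norm_num) (wt_nonneg (fun l ↦ (hz0 l).le) _)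
      _ = _ := by
          rw [Finset.mul_sum]
          refine Finset.sum_congr rfl fun A _ ↦ ?_
          ring
  have hH5 : H ≤ 5 * L := by rw [hH]; linarith
  have hσe : Real.exp (σm:ℝ) ≤ 3 * LQ := exp_sc_le_three_mul hLQ1
  have hmain : (S.card : ℝ) * lam
      ≤ (Q:ℝ) / LQ * (K * (L:ℝ) ^ 18 * Real.exp ((c - 1) * (min s σm : ℕ))) := by
    refine hsum.trans ?_
    calc ((2 * Q : ℕ):ℝ) * (C * H ^ 6 * (2 * (L:ℝ) ^ 3) / LQ) ^ 2 * 2 * ∑ A ∈ 𝒜, wt z A / A
        ≤ ((2 * Q : ℕ):ℝ) * (C * (5 * (L:ℝ)) ^ 6 * (2 * (L:ℝ) ^ 3) / LQ) ^ 2 * 2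
            * (Real.exp ((c - 1) * (min s σm : ℕ)) * (3 * LQ) * Real.exp (2 * C2 + 9)) := by
          refine mul_le_mul (by gcongr) ?_ (Finset.sum_nonneg fun A _ ↦
            div_nonneg (wt_nonneg (fun l ↦ (hz0 l).le) _) (Nat.cast_nonneg _)) (by positivity)
          refine hEuler.trans ?_
          rw [Real.exp_add, Real.exp_add]
          gcongr
      _ = _ := by
          rw [hK]; push_cast; field_simp; ring
  rw [← mul_div_assoc, le_div_iff₀ hlam]
  exact hmain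

end Vale.Agent.P031
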