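import Mathlib
import Vale.Agent.P031.Params

/-!
Integers with an over-full profile have small total reciprocal sum.
-/

namespace Vale.Agent.P031

open Finset Real Filter Topology

/-- Number of prime factors of `n`, with multiplicity, of scale in `(a, b]`. -/
noncomputable def omIoc (a b n : ℕ) : ℕ :=
  (n.primeFactorsList.filter fun l ↦ a < sc l ∧ sc l ≤ b).length

lemma omIoc_mul (a b : ℕ) {m n : ℕ} (hm : m ≠ 0) (hn : n ≠ 0) :
    omIoc a b (m * n) = omIoc a b m + omIoc a b n := by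
  unfold omIoc
  rw [((Nat.perm_primeFactorsList_mul hm hn).filter _).length_eq, List.filter_append,
    List.length_append]

lemma omIoc_zero (a b : ℕ) : omIoc a b 0 = 0 := by simp [omIoc]

lemma omIoc_one (a b : ℕ) : omIoc a b 1 = 0 := by simp [omIoc]

lemma omle_eq_add_omIoc (a b n : ℕ) : omle b n = omle (min a b) n + omIoc a b n := by
  unfold omle omIoc
  induction n.primeFactorsList with
  | nil => simp
  | cons x t ih =>
    simp only [List.filter_cons, decide_eq_true_eq, le_min_iff] at ih ⊢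
    by_cases h1 : sc x ≤ b <;> by_cases h2 : sc x ≤ a <;>
      simp only [h1, h2, and_true, and_false, true_and, false_and, not_lt.mpr, lt_of_not_ge,
        not_false_eq_true, if_true, if_false, List.length_cons] <;> omega

lemma omIoc_prime_le (a b : ℕ) {p : ℕ} (hp : p.Prime) : omIoc a b p ≤ 1 := by
  unfold omIoc
  rw [Nat.primeFactorsList_prime hp]
  exact (List.length_filter_le _ _).trans (by simp)

lemma Normal.omIoc_ge {L q : ℕ} (h : Normal L q) (a b : ℕ) :
    ((min b (sc q) : ℕ) : ℝ) - a - 2 * ee L ≤ (omIoc a b (q - 1) : ℝ) := by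
  have h1 := abs_le.mp (h.profile b)
  have h2 := abs_le.mp (h.profile (min a b))
  have h3 : (omle b (q - 1) : ℝ) = omle (min a b) (q - 1) + omIoc a b (q - 1) := by
    exact_mod_cast omle_eq_add_omIoc a b (q - 1)
  have h4 : ((min (min a b) (sc q) : ℕ) : ℝ) ≤ a := by
    exact_mod_cast (min_le_left _ _).trans (min_le_left _ _)
  linarith

lemma Normal.omIoc_le {L q : ℕ} (h : Normal L q) (a b : ℕ) :
    (omIoc a b (q - 1) : ℝ) ≤ ((min b (sc q) : ℕ) : ℝ) + ee L := by
  have h1 := abs_le.mp (h.profile b)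
  have h3 : (omle b (q - 1) : ℝ) = omle (min a b) (q - 1) + omIoc a b (q - 1) := by
    exact_mod_cast omle_eq_add_omIoc a b (q - 1)
  have h4 : (0:ℝ) ≤ omle (min a b) (q - 1) := Nat.cast_nonneg _
  linarith

/-- Logarithm of the profile weight at a prime `l`. -/
noncomputable def profLog (k : ℕ) (τ : ℕ → ℕ) (s0 l : ℕ) : ℝ :=
  ∑ r ∈ Finset.range k, if s0 < sc l ∧ sc l ≤ τ r then delta r else 0

/-- The profile weight at a prime `l`. -/
noncomputable def profWt (k : ℕ) (τ : ℕ → ℕ) (s0 l : ℕ) : ℝ := Real.exp (profLog k τ s0 l)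

lemma exp_profLog_eq (k : ℕ) {τ : ℕ → ℕ} (hτ : Antitone τ) (s0 l : ℕ) :
    profWt k τ s0 l = 1 + ∑ r ∈ Finset.range k, if s0 < sc l ∧ sc l ≤ τ r then (1:ℝ) else 0 := by
  induction k with
  | zero => simp [profWt, profLog]
  | succ k ih =>
    unfold profWt profLog at ih ⊢
    rw [Finset.sum_range_succ, Finset.sum_range_succ, Real.exp_add, ih]
    by_cases h : s0 < sc l ∧ sc l ≤ τ k
    · have hall : ∑ r ∈ Finset.range k, (if s0 < sc l ∧ sc l ≤ τ r then (1:ℝ) else 0) = k := by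
        rw [Finset.sum_congr rfl fun r hr ↦
          if_pos ⟨h.1, h.2.trans (hτ (Finset.mem_range.mp hr).le)⟩]
        simp
      rw [if_pos h, if_pos h, hall, delta, Real.exp_log (by positivity)]
      field_simp
      ring
    · rw [if_neg h, if_neg h, Real.exp_zero, mul_one, add_zero]

lemma profWt_le (k : ℕ) {τ : ℕ → ℕ} (hτ : Antitone τ) (s0 l : ℕ) :
    profWt k τ s0 l ≤ k + 1 := by
  rw [exp_profLog_eq k hτ, add_comm]
  gcongr
  refine (Finset.sum_le_card_nsmul _ _ (1:ℝ) fun r _ ↦ ?_).trans_eq (by simp)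
  split_ifs <;> norm_num

lemma profWt_eq_one {k : ℕ} {τ : ℕ → ℕ} {s0 l : ℕ} (h : sc l ≤ s0) : profWt k τ s0 l = 1 := by
  unfold profWt profLog
  rw [Finset.sum_eq_zero fun r _ ↦ if_neg fun h' ↦ absurd h'.1 (not_lt.mpr h), Real.exp_zero]

lemma log_wt_profWt (k : ℕ) (τ : ℕ → ℕ) (s0 n : ℕ) :
    Real.log (wt (profWt k τ s0) n)
      = ∑ r ∈ Finset.range k, delta r * (omIoc s0 (τ r) n : ℝ) := by
  rw [log_wt (z := profWt k τ s0) (fun l ↦ Real.exp_pos _) n]
  unfold omIoc
  induction n.primeFactorsList with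
  | nil => simp
  | cons a t ih =>
    rw [List.map_cons, List.sum_cons, ih, profWt, Real.log_exp, profLog, ← Finset.sum_add_distrib]
    refine Finset.sum_congr rfl fun r _ ↦ ?_
    rw [List.filter_cons]
    by_cases h : s0 < sc a ∧ sc a ≤ τ r
    · simp only [h, and_self, decide_true, if_true, List.length_cons]
      push_cast
      ring
    · simp only [h, decide_false, if_false, Bool.false_eq_true]
      ring

/-- Total reciprocal sum of integers with a given over-full profile. -/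
theorem exists_profile_rare :
    ∃ C, 1 ≤ C ∧ ∀ (k σ0 s0 : ℕ) (τ : ℕ → ℕ) (E : ℝ) (T : Finset ℕ),
      Antitone τ → τ 0 ≤ σ0 → 0 ≤ E →
      2 * ((k:ℝ) + 1) ≤ Real.exp (Real.exp (s0:ℝ)) →
      (∀ n ∈ T, n ≠ 0 ∧ (∀ l : ℕ, l.Prime → l ∣ n → sc l ≤ σ0) ∧
        ∀ r < k, ((min (τ r) σ0 : ℕ) : ℝ) + ∑ i ∈ Finset.range k, ((min (τ r) (τ i) : ℕ) : ℝ)
          - E ≤ omIoc s0 (τ r) n) →
      ∑ n ∈ T, (1:ℝ) / n
        ≤ Real.exp ((σ0:ℝ) - ∑ r ∈ Finset.range k, acoef r * τ r
            + C * ((k:ℝ) + 1) ^ 2 + E * ((k:ℝ) + 1)) := by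
  obtain ⟨C, hC0, hC⟩ := exists_abs_sum_primesSc
  refine ⟨C + 4, by linarith, fun k σ0 s0 τ E T hτ hτ0 hE hs0 hT ↦ ?_⟩
  set z := profWt k τ s0 with hz
  have hz0 : ∀ l, 0 < z l := fun l ↦ Real.exp_pos _
  set M : ℕ → ℝ := fun r ↦
    ((min (τ r) σ0 : ℕ) : ℝ) + ∑ i ∈ Finset.range k, ((min (τ r) (τ i) : ℕ) : ℝ) - E with hM
  set lam := Real.exp (∑ r ∈ Finset.range k, delta r * M r) with hlam
  have hmarkov : ∀ n ∈ T, (1:ℝ) / n * lam ≤ wt z n / n := by
    intro n hn
    rw [one_div_mul_eq_div]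
    gcongr
    rw [hlam, ← Real.exp_log (wt_pos hz0 n), hz, log_wt_profWt]
    exact Real.exp_le_exp.mpr (Finset.sum_le_sum fun r hr ↦
      mul_le_mul_of_nonneg_left ((hT n hn).2.2 r (Finset.mem_range.mp hr)) (delta_nonneg r))
  have hE2 := sum_wt_div_le (primesSc σ0) T z (fun l hl ↦ (mem_primesSc.mp hl).1)
    (fun l _ ↦ (hz0 l).le) (fun l hl ↦ ?_) (fun n hn ↦ ⟨(hT n hn).1, fun l hl ↦ mem_primesSc.mpr
      ⟨Nat.prime_of_mem_primeFactorsList hl, (hT n hn).2.1 l
        (Nat.prime_of_mem_primeFactorsList hl) (Nat.dvd_of_mem_primeFactorsList hl)⟩⟩)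
  swap
  · have hlp := (mem_primesSc.mp hl).1
    have hl2 : (2:ℝ) ≤ l := by exact_mod_cast hlp.two_le
    by_cases h : sc l ≤ s0
    · rw [hz, profWt_eq_one h]; linarith
    · refine (profWt_le k hτ s0 l).trans ?_
      have h' := Real.exp_lt_exp.mpr (lt_sc_iff.mp (not_le.mp h))
      rw [Real.exp_log (by linarith)] at h'
      linarith
  have hsum : ∑ l ∈ primesSc σ0, (z l / l + 4 * (z l / l) ^ 2)
      ≤ (σ0:ℝ) + ∑ r ∈ Finset.range k, (τ r : ℝ) + (C + 4) * ((k:ℝ) + 1) ^ 2 := by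
    rw [Finset.sum_add_distrib]
    have h2 : ∑ l ∈ primesSc σ0, 4 * (z l / l) ^ 2 ≤ 4 * ((k:ℝ) + 1) ^ 2 := by
      calc ∑ l ∈ primesSc σ0, 4 * (z l / l) ^ 2
          ≤ ∑ l ∈ primesSc σ0, 4 * ((k:ℝ) + 1) ^ 2 * ((1:ℝ) / (l:ℝ) ^ 2) := by
            refine Finset.sum_le_sum fun l _ ↦ ?_
            rw [div_pow, mul_one_div, ← mul_div_assoc]
            gcongr
            · exact (hz0 l).le
            · exact profWt_le k hτ s0 l
        _ ≤ _ := by
            rw [← Finset.mul_sum]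
            exact mul_le_of_le_one_right (by positivity)
              (sum_inv_sq_primes_le _ fun l hl ↦ (mem_primesSc.mp hl).1.two_le)
    have h1 : ∑ l ∈ primesSc σ0, z l / l
        ≤ (σ0:ℝ) + C + ∑ r ∈ Finset.range k, ((τ r : ℝ) + C) := by
      have heq : ∀ l ∈ primesSc σ0, z l / l = (1:ℝ) / l
          + ∑ r ∈ Finset.range k, if s0 < sc l ∧ sc l ≤ τ r then (1:ℝ) / l else 0 := by
        intro l _
        rw [hz, exp_profLog_eq k hτ, add_div, Finset.sum_div]
        congr 1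
        refine Finset.sum_congr rfl fun r _ ↦ ?_
        split_ifs <;> simp
      rw [Finset.sum_congr rfl heq, Finset.sum_add_distrib, Finset.sum_comm]
      refine add_le_add (by linarith [(abs_le.mp (hC σ0)).2]) (Finset.sum_le_sum fun r _ ↦ ?_)
      rw [← Finset.sum_filter]
      refine le_trans (Finset.sum_le_sum_of_subset_of_nonneg (t := primesSc (τ r)) ?_
        fun i _ _ ↦ by positivity) (by linarith [(abs_le.mp (hC (τ r))).2])
      intro l hl
      rw [Finset.mem_filter, mem_primesSc] at hl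
      exact mem_primesSc.mpr ⟨hl.1.1, hl.2.2⟩
    rw [Finset.sum_add_distrib, Finset.sum_const, Finset.card_range, nsmul_eq_mul] at h1
    have hk : (1:ℝ) + k ≤ ((k:ℝ) + 1) ^ 2 := by nlinarith [Nat.cast_nonneg (α := ℝ) k]
    have := mul_le_mul_of_nonneg_left hk hC0
    linarith
  have hdelta : ∑ r ∈ Finset.range k, delta r * M r
      ≥ ∑ r ∈ Finset.range k, (acoef r + 1) * τ r - E * ((k:ℝ) + 1) := by
    rw [← sum_delta_min σ0 τ hτ hτ0]
    simp only [hM, mul_sub, Finset.sum_sub_distrib]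
    have h3 : ∑ r ∈ Finset.range k, delta r * E ≤ E * ((k:ℝ) + 1) := by
      calc ∑ r ∈ Finset.range k, delta r * E ≤ ∑ _r ∈ Finset.range k, 1 * E := by
            gcongr with r _
            exact delta_le_one r
        _ ≤ _ := by
            rw [Finset.sum_const, Finset.card_range, nsmul_eq_mul]
            linarith
    linarith
  have hmain : (∑ n ∈ T, (1:ℝ) / n) * lam
      ≤ Real.exp ((σ0:ℝ) + ∑ r ∈ Finset.range k, (τ r : ℝ) + (C + 4) * ((k:ℝ) + 1) ^ 2) := by
    rw [Finset.sum_mul]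
    exact (Finset.sum_le_sum hmarkov).trans (hE2.trans (Real.exp_le_exp.mpr hsum))
  rw [hlam, ← le_div_iff₀ (Real.exp_pos _), ← Real.exp_sub] at hmain
  refine hmain.trans (Real.exp_le_exp.mpr ?_)
  simp only [add_mul, one_mul, Finset.sum_add_distrib] at hdelta
  linarith

end Vale.Agent.P031
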