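import Mathlib
import Vale.Agent.P031.Profile

/-!
Chains of levels: representations of totients by descending normal primes and a small tail.
-/

namespace Vale.Agent.P031

open Finset Real Filter Topology

/-- `v` is a value of Euler's totient function. -/
def IsTot (v : ℕ) : Prop := ∃ n : ℕ, 0 < n ∧ Nat.totient n = v

/-- Number of totient values in `[1, N]`. -/
noncomputable def Vn (N : ℕ) : ℕ := by
  classical exact ((Icc 1 N).filter IsTot).card

/-- The linear form `∑_r a_{d+r} l_r`. -/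
noncomputable def Phid : ℕ → List ℝ → ℝ
  | _, [] => 0
  | d, x :: l => acoef d * x + Phid (d + 1) l

lemma Phid_nil (d : ℕ) : Phid d [] = 0 := rfl

lemma Phid_cons (d : ℕ) (x : ℝ) (l : List ℝ) :
    Phid d (x :: l) = acoef d * x + Phid (d + 1) l := rfl

lemma Phid_append (l1 l2 : List ℝ) :
    ∀ d : ℕ, Phid d (l1 ++ l2) = Phid d l1 + Phid (d + l1.length) l2 := by
  induction l1 with
  | nil => intro d; simp [Phid_nil]
  | cons x t ih =>
    intro d
    rw [List.cons_append, Phid_cons, Phid_cons, ih, List.length_cons,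
      show d + 1 + t.length = d + (t.length + 1) by omega]
    ring

lemma Phid_nonneg (l : List ℝ) (hl : ∀ x ∈ l, 0 ≤ x) : ∀ d : ℕ, 0 ≤ Phid d l := by
  induction l with
  | nil => intro d; simp [Phid_nil]
  | cons x t ih =>
    intro d
    rw [Phid_cons]
    have := ih (fun y hy ↦ hl y (List.mem_cons_of_mem _ hy)) (d + 1)
    have := mul_nonneg (acoef_nonneg d) (hl x List.mem_cons_self)
    linarith

lemma Phid_mono_index (l : List ℝ) (hl : ∀ x ∈ l, 0 ≤ x) :
    ∀ d e : ℕ, d ≤ e → Phid d l ≤ Phid e l := by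
  induction l with
  | nil => intro d e _; simp [Phid_nil]
  | cons x t ih =>
    intro d e h
    rw [Phid_cons, Phid_cons]
    exact add_le_add (mul_le_mul_of_nonneg_right (acoef_mono h) (hl x List.mem_cons_self))
      (ih (fun y hy ↦ hl y (List.mem_cons_of_mem _ hy)) _ _ (by omega))

/-- The scales of a list of levels. -/
noncomputable def scs (qs : List ℕ) : List ℝ := qs.map fun q ↦ (sc q : ℝ)

lemma scs_nonneg (qs : List ℕ) : ∀ x ∈ scs qs, (0:ℝ) ≤ x := by
  intro x hx
  obtain ⟨q, -, rfl⟩ := List.mem_map.mp hx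
  exact Nat.cast_nonneg _

/-- Ford's linear form on a list of levels. -/
noncomputable def Phi (qs : List ℕ) : ℝ := Phid 0 (scs qs)

/-- The linear form truncated to `k` levels. -/
noncomputable def PhiK (k : ℕ) (qs : List ℕ) : ℝ :=
  ∑ r ∈ Finset.range k, acoef r * (sc (qs.getD r 0) : ℝ)

lemma sc_zero : sc 0 = 0 := by simp [sc]

lemma Phid_scs_eq (qs : List ℕ) : ∀ d k : ℕ, qs.length ≤ k →
    Phid d (scs qs) = ∑ r ∈ Finset.range k, acoef (d + r) * (sc (qs.getD r 0) : ℝ) := by
  induction qs with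
  | nil => intro d k _; simp [scs, Phid_nil, sc_zero]
  | cons q t ih =>
    intro d k hk
    obtain ⟨k', rfl⟩ : ∃ k', k = k' + 1 := ⟨k - 1, by simp at hk; omega⟩
    rw [scs, List.map_cons, Phid_cons, Finset.sum_range_succ']
    simp only [List.getD_cons_succ, List.getD_cons_zero, Nat.add_zero]
    have := ih (d + 1) k' (by simpa using hk)
    rw [scs] at this
    rw [this, add_comm]
    congr 1
    refine Finset.sum_congr rfl fun r _ ↦ ?_
    rw [show d + (r + 1) = d + 1 + r by omega]

lemma Phi_eq_PhiK {qs : List ℕ} {k : ℕ} (h : qs.length ≤ k) : Phi qs = PhiK k qs := by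
  unfold Phi PhiK
  rw [Phid_scs_eq qs 0 k h]
  simp

lemma sum_getD_eq {β : Type*} [AddCommMonoid β] (f : ℕ → β) (hf : f 0 = 0) :
    ∀ (l : List ℕ) (K : ℕ),
      ∑ i ∈ Finset.range K, f (l.getD i 0) = ((l.take K).map f).sum := by
  intro l
  induction l with
  | nil => intro K; simp [hf]
  | cons q t ih =>
    intro K
    cases K with
    | zero => simp
    | succ K =>
      rw [Finset.sum_range_succ', List.take_succ_cons, List.map_cons, List.sum_cons]
      simp only [List.getD_cons_succ, List.getD_cons_zero]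
      rw [ih, add_comm]

lemma antitone_sc_getD {qs : List ℕ} (h : qs.Pairwise (· > ·)) :
    Antitone fun r ↦ sc (qs.getD r 0) := by
  intro i j hij
  refine sc_mono ?_
  rcases Nat.lt_or_ge j qs.length with hj | hj
  · have hi : i < qs.length := lt_of_le_of_lt hij hj
    rw [List.getD_eq_getElem _ _ hj, List.getD_eq_getElem _ _ hi]
    rcases Nat.lt_or_ge i j with h' | h'
    · exact (List.pairwise_iff_getElem.mp h i j hi hj h').le
    · have : i = j := le_antisymm hij h'
      subst this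
      exact le_rfl
  · rw [List.getD_eq_default _ _ hj]
    exact Nat.zero_le _

/-- The product `∏ (q - 1)` over a list. -/
def prodPred (qs : List ℕ) : ℕ := (qs.map fun q ↦ q - 1).prod

/-- The value of a chain. -/
def cval (qs : List ℕ) (w : ℕ) : ℕ := prodPred qs * w

lemma prodPred_cons (q : ℕ) (qs : List ℕ) : prodPred (q :: qs) = (q - 1) * prodPred qs := by
  simp [prodPred]

lemma cval_cons (q : ℕ) (qs : List ℕ) (w : ℕ) : cval (q :: qs) w = (q - 1) * cval qs w := by
  rw [cval, cval, prodPred_cons, mul_assoc]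

lemma prodPred_append (a b : List ℕ) : prodPred (a ++ b) = prodPred a * prodPred b := by
  simp [prodPred]

lemma prodPred_ne_zero {qs : List ℕ} (h : ∀ q ∈ qs, Nat.Prime q) : prodPred qs ≠ 0 := by
  refine List.prod_ne_zero fun hm ↦ ?_
  obtain ⟨q, hq, h0⟩ := List.mem_map.mp hm
  have := (h q hq).two_le
  omega

lemma totient_prod_mul :
    ∀ (qs : List ℕ) (n : ℕ), qs.Pairwise (· > ·) → (∀ q ∈ qs, Nat.Prime q ∧ ¬ q ∣ n) →
      Nat.totient (qs.prod * n) = cval qs (Nat.totient n) := by
  intro qs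
  induction qs with
  | nil => intro n _ _; simp [cval, prodPred]
  | cons q t ih =>
    intro n hp h
    rw [List.pairwise_cons] at hp
    obtain ⟨hqp, hqn⟩ := h q List.mem_cons_self
    have hco : Nat.Coprime q (t.prod * n) := by
      refine Nat.Coprime.mul_right ?_ (hqp.coprime_iff_not_dvd.mpr hqn)
      refine Nat.coprime_list_prod_right_iff.mpr fun x hx ↦ ?_
      exact (Nat.coprime_primes hqp (h x (List.mem_cons_of_mem _ hx)).1).mpr (hp.1 x hx).ne'
    rw [List.prod_cons, mul_assoc, Nat.totient_mul hco, Nat.totient_prime hqp,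
      ih n hp.2 (fun x hx ↦ h x (List.mem_cons_of_mem _ hx)), cval_cons]

lemma prime_dvd_totient {n p : ℕ} (hn : n ≠ 0) (hp : p.Prime) (h : p ∣ Nat.totient n) :
    p ≤ lpf n := by
  rw [Nat.totient_eq_div_primeFactors_mul] at h
  rcases (Nat.Prime.dvd_mul hp).mp h with h1 | h1
  · exact le_lpf hn hp (h1.trans (Nat.div_dvd_of_dvd (Nat.prod_primeFactors_dvd n)))
  · obtain ⟨q, hq, hdvd⟩ := (Prime.dvd_finset_prod_iff hp.prime _).mp h1
    obtain ⟨hqp, hqn, -⟩ := Nat.mem_primeFactors.mp hq
    have h2 := hqp.two_le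
    have := Nat.le_of_dvd (by omega) hdvd
    have := le_lpf hn hqp hqn
    omega

lemma sc_prime_dvd_totient {n p s : ℕ} (hn : n ≠ 0) (hp : p.Prime) (h : p ∣ Nat.totient n)
    (hs : ∀ l : ℕ, l.Prime → l ∣ n → sc l ≤ s) : sc p ≤ s := by
  have hle := prime_dvd_totient hn hp h
  have hn2 : 2 ≤ n := by
    by_contra hcon
    have hn1 : n = 1 := by omega
    rw [hn1, Nat.totient_one] at h
    exact hp.one_lt.ne' (Nat.dvd_one.mp h)
  obtain ⟨h1, h2⟩ := lpf_prime hn2
  exact (sc_mono hle).trans (hs _ h1 h2)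

/-- A chain: descending normal levels above the scale `K0`, satisfying the profile constraints,
together with a totient tail built from small primes. -/
structure Chain (L : ℕ) (qs : List ℕ) (w : ℕ) : Prop where
  sorted : qs.Pairwise (· > ·)
  normal : ∀ q ∈ qs, Normal L q
  scale : ∀ q ∈ qs, K0 L < sc q ∧ sc q ≤ L + 3
  len : qs.length ≤ kk L
  step : ∀ a q rest, qs = a ++ q :: rest → Phi rest ≤ (sc q : ℝ) + KA L
  tail : ∃ n : ℕ, 0 < n ∧ Nat.totient n = w ∧ (∀ l : ℕ, l.Prime → l ∣ n → sc l ≤ K0 L) ∧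
    Real.log n ≤ (L:ℝ) ^ 3 * Real.exp (K0 L)

lemma Chain.tail_of_cons {L q : ℕ} {qs : List ℕ} {w : ℕ} (h : Chain L (q :: qs) w) :
    Chain L qs w where
  sorted := (List.pairwise_cons.mp h.sorted).2
  normal := fun x hx ↦ h.normal x (List.mem_cons_of_mem _ hx)
  scale := fun x hx ↦ h.scale x (List.mem_cons_of_mem _ hx)
  len := by have := h.len; simp at this; omega
  step := fun a x rest he ↦ h.step (q :: a) x rest (by rw [he, List.cons_append])
  tail := h.tail

lemma Chain.drop {L : ℕ} {qs : List ℕ} {w : ℕ} (h : Chain L qs w) :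
    ∀ k : ℕ, Chain L (qs.drop k) w := by
  induction qs with
  | nil => intro k; simpa using h
  | cons q t ih =>
    intro k
    cases k with
    | zero => simpa using h
    | succ k => simpa using ih h.tail_of_cons k

lemma Chain.w_pos {L : ℕ} {qs : List ℕ} {w : ℕ} (h : Chain L qs w) : 0 < w := by
  obtain ⟨n, hn, rfl, -⟩ := h.tail
  exact Nat.totient_pos.mpr hn

lemma Chain.cval_pos {L : ℕ} {qs : List ℕ} {w : ℕ} (h : Chain L qs w) : 0 < cval qs w :=
  Nat.mul_pos (Nat.pos_of_ne_zero (prodPred_ne_zero fun q hq ↦ (h.normal q hq).prime)) h.w_pos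

lemma Chain.w_prime_sc {L : ℕ} {qs : List ℕ} {w : ℕ} (h : Chain L qs w) {l : ℕ}
    (hl : l.Prime) (hd : l ∣ w) : sc l ≤ K0 L := by
  obtain ⟨n, hn, rfl, hs, -⟩ := h.tail
  exact sc_prime_dvd_totient hn.ne' hl hd hs

lemma Chain.log_w_le {L : ℕ} {qs : List ℕ} {w : ℕ} (h : Chain L qs w) :
    Real.log w ≤ (L:ℝ) ^ 3 * Real.exp (K0 L) := by
  obtain ⟨n, hn, rfl, -, hlog⟩ := h.tail
  exact le_trans (Real.log_le_log (by exact_mod_cast Nat.totient_pos.mpr hn)
    (by exact_mod_cast Nat.totient_le n)) hlog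

lemma Chain.isTot {L : ℕ} {qs : List ℕ} {w : ℕ} (h : Chain L qs w) : IsTot (cval qs w) := by
  obtain ⟨n, hn, rfl, hs, -⟩ := h.tail
  refine ⟨qs.prod * n, Nat.mul_pos (List.prod_pos fun q hq ↦ (h.normal q hq).prime.pos) hn,
    totient_prod_mul qs n h.sorted fun q hq ↦ ⟨(h.normal q hq).prime, fun hd ↦ ?_⟩⟩
  have := hs q (h.normal q hq).prime hd
  have := (h.scale q hq).1
  omega

end Vale.Agent.P031
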