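import Mathlib
import Vale.Agent.P031.Chain

/-!
Linear algebra of the level recursion: minimal admissible scales, box tops and their comparison.
-/

namespace Vale.Agent.P031

open Finset Real

/-- First entry of a list, zero for the empty list. -/
def hd (l : List ℝ) : ℝ := l.headD 0

lemma hd_nil : hd [] = 0 := rfl
lemma hd_cons (x : ℝ) (l : List ℝ) : hd (x :: l) = x := rfl

lemma hd_nonneg {l : List ℝ} (h : ∀ x ∈ l, 0 ≤ x) : 0 ≤ hd l := by
  cases l with
  | nil => exact le_rfl
  | cons x t => exact h x List.mem_cons_self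

/-- `k` levels above `τ`, each exceeding the requirements by `c`. -/
noncomputable def bld (c : ℝ) : ℕ → List ℝ → List ℝ
  | 0, _ => []
  | k + 1, τ => (max (hd (bld c k τ ++ τ)) (Phid 0 (bld c k τ ++ τ)) + c) :: bld c k τ

lemma bld_length (c : ℝ) : ∀ (k : ℕ) (τ : List ℝ), (bld c k τ).length = k
  | 0, _ => rfl
  | k + 1, τ => by simp [bld, bld_length c k τ]

lemma bld_nonneg {c : ℝ} (hc : 0 ≤ c) {τ : List ℝ} (hτ : ∀ x ∈ τ, 0 ≤ x) :
    ∀ k : ℕ, ∀ x ∈ bld c k τ ++ τ, 0 ≤ x := by
  intro k
  induction k with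
  | zero => simpa [bld] using hτ
  | succ k ih =>
    intro x hx
    rw [bld, List.cons_append, List.mem_cons] at hx
    rcases hx with rfl | hx
    · have := le_max_left (hd (bld c k τ ++ τ)) (Phid 0 (bld c k τ ++ τ))
      have := hd_nonneg ih
      linarith
    · exact ih x hx

/-- `∑_{r<n} a_{d+r}`. -/
noncomputable def asum (d n : ℕ) : ℝ := Phid d (List.replicate n 1)

lemma asum_le : ∀ (n d : ℕ), asum d n ≤ n * ((d:ℝ) + n + 1) := by
  intro n
  induction n with
  | zero => intro d; simp [asum, Phid_nil]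
  | succ n ih =>
    intro d
    have h := ih (d + 1)
    unfold asum at h ⊢
    rw [List.replicate_succ, Phid_cons, mul_one]
    have hd' : (0:ℝ) ≤ d := Nat.cast_nonneg d
    have hn : (0:ℝ) ≤ n := Nat.cast_nonneg n
    have h1 := acoef_le_log d
    have h2 := Real.log_le_sub_one_of_pos (show (0:ℝ) < (d:ℝ) + 2 by linarith)
    push_cast at h ⊢
    nlinarith

lemma asum_nonneg (d n : ℕ) : 0 ≤ asum d n :=
  Phid_nonneg _ (fun x hx ↦ by rw [List.eq_of_mem_replicate hx]; norm_num) d

lemma Phid_le_add {e : ℝ} {U V : List ℝ} (h : List.Forall₂ (fun x y ↦ x ≤ y + e) U V) :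
    ∀ (d : ℕ) (τ : List ℝ), Phid d (U ++ τ) ≤ Phid d (V ++ τ) + e * asum d U.length := by
  induction h with
  | nil => intro d τ; simp [asum, Phid_nil]
  | @cons x y U V hxy hUV ih =>
    intro d τ
    rw [List.cons_append, List.cons_append, Phid_cons, Phid_cons, List.length_cons, asum,
      List.replicate_succ, Phid_cons]
    have := ih (d + 1) τ
    have := mul_le_mul_of_nonneg_left hxy (acoef_nonneg d)
    unfold asum at *
    linarith

lemma hd_le_add {e : ℝ} (he : 0 ≤ e) {U V : List ℝ}
    (h : List.Forall₂ (fun x y ↦ x ≤ y + e) U V) (τ : List ℝ) :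
    hd (U ++ τ) ≤ hd (V ++ τ) + e := by
  cases h with
  | nil => simp only [List.nil_append]; linarith
  | cons hxy _ => simpa [hd] using hxy

/-- An entry is controlled by the linear form. -/
lemma elem_le_Phid {e : ℝ} {U V : List ℝ} (h : List.Forall₂ (fun x y ↦ y ≤ x + e) U V) :
    ∀ (d i : ℕ), i < U.length →
      0.386 * (U.getD i 0 - V.getD i 0 + e) ≤ Phid d U - Phid d V + e * asum d U.length := by
  induction h with
  | nil => intro d i hi; simp at hi
  | @cons x y U V hxy hUV ih =>
    intro d i hi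
    rw [Phid_cons, Phid_cons, List.length_cons, asum, List.replicate_succ, Phid_cons]
    have hnon : 0 ≤ Phid (d + 1) U - Phid (d + 1) V + e * asum (d + 1) U.length := by
      have hflip : List.Forall₂ (fun a b ↦ a ≤ b + e) V U := hUV.flip
      have := Phid_le_add hflip (d + 1) []
      rw [List.append_nil, List.append_nil, ← hUV.length_eq] at this
      linarith
    cases i with
    | zero =>
      simp only [List.getD_cons_zero]
      have hp : 0 ≤ x - y + e := by linarith
      have := mul_le_mul_of_nonneg_right (acoef_ge d) hp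
      unfold asum at hnon
      linarith
    | succ i =>
      simp only [List.getD_cons_succ]
      have h1 := ih (d + 1) i (by simpa using hi)
      have h2 := mul_nonneg (acoef_nonneg d) (show 0 ≤ x - y + e by linarith)
      unfold asum at h1
      linarith

/-- Growth factor of errors along the recursion. -/
noncomputable def errFac (j k : ℕ) : ℝ := (((j:ℝ) + 1) ^ 2 + 1) ^ k

lemma one_le_errFac (j k : ℕ) : 1 ≤ errFac j k :=
  one_le_pow₀ (by have := sq_nonneg ((j:ℝ) + 1); linarith)

lemma errFac_mono (j : ℕ) {k k' : ℕ} (h : k ≤ k') : errFac j k ≤ errFac j k' :=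
  pow_le_pow_right₀ (by have := sq_nonneg ((j:ℝ) + 1); linarith) h

lemma asum_zero_le_sq {j k : ℕ} (h : k ≤ j) : asum 0 k ≤ ((j:ℝ) + 1) ^ 2 := by
  refine (asum_le k 0).trans ?_
  have hk : (k:ℝ) ≤ j := by exact_mod_cast h
  have : (0:ℝ) ≤ k := Nat.cast_nonneg k
  push_cast
  nlinarith

lemma step_err {j k : ℕ} {c : ℝ} (hc : 0 ≤ c) (hk : k ≤ j) :
    c + errFac j k * c * max 1 (asum 0 k) ≤ errFac j (k + 1) * c := by
  have h1 := one_le_errFac j k
  have hm : max 1 (asum 0 k) ≤ ((j:ℝ) + 1) ^ 2 :=
    max_le (one_le_pow₀ (by linarith [Nat.cast_nonneg (α := ℝ) j])) (asum_zero_le_sq hk)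
  have h2 := mul_le_mul_of_nonneg_left hm (mul_nonneg (le_trans zero_le_one h1) hc)
  have h3 := mul_le_mul_of_nonneg_right h1 hc
  rw [show errFac j (k + 1) = errFac j k * (((j:ℝ) + 1) ^ 2 + 1) from pow_succ _ _]
  linarith

/-- Increasing the margin `c` changes the levels by `O(c)`. -/
lemma bld_le {j : ℕ} {c : ℝ} (hc : 0 ≤ c) (τ : List ℝ) :
    ∀ k : ℕ, k ≤ j →
      List.Forall₂ (fun x y ↦ x ≤ y + errFac j k * c) (bld c k τ) (bld 0 k τ) := by
  intro k
  induction k with
  | zero => intro _; exact List.Forall₂.nil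
  | succ k ih =>
    intro hk
    have h := ih (by omega)
    have he : 0 ≤ errFac j k * c := mul_nonneg (le_trans zero_le_one (one_le_errFac j k)) hc
    have hstep := step_err (j := j) (k := k) hc (by omega)
    rw [bld, bld]
    refine List.Forall₂.cons ?_ (h.imp fun x y hxy ↦ hxy.trans (by
      have := mul_le_mul_of_nonneg_right (errFac_mono j (Nat.le_succ k)) hc
      linarith))
    have h1 := hd_le_add he h τ
    have h2 := Phid_le_add h 0 τ
    rw [bld_length] at h2
    have h3 := mul_le_mul_of_nonneg_left (le_max_left 1 (asum 0 k)) he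
    have h4 := mul_le_mul_of_nonneg_left (le_max_right 1 (asum 0 k)) he
    have h5 := le_max_left (hd (bld 0 k τ ++ τ)) (Phid 0 (bld 0 k τ ++ τ))
    have h6 := le_max_right (hd (bld 0 k τ ++ τ)) (Phid 0 (bld 0 k τ ++ τ))
    have h7 : max (hd (bld c k τ ++ τ)) (Phid 0 (bld c k τ ++ τ))
        ≤ max (hd (bld 0 k τ ++ τ)) (Phid 0 (bld 0 k τ ++ τ))
          + errFac j k * c * max 1 (asum 0 k) := max_le (by linarith) (by linarith)
    linarith

/-- Admissible levels, up to `δ`. -/
def Adm (δ : ℝ) (U τ : List ℝ) : Prop :=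
  ∀ a u rest, U = a ++ u :: rest → hd (rest ++ τ) ≤ u + δ ∧ Phid 0 (rest ++ τ) ≤ u + δ

lemma Adm.tail {δ x : ℝ} {U τ : List ℝ} (h : Adm δ (x :: U) τ) : Adm δ U τ :=
  fun a u rest he ↦ h (x :: a) u rest (by rw [he, List.cons_append])

/-- Admissible levels are at least the minimal ones. -/
lemma adm_ge_bld {j : ℕ} {δ : ℝ} (hδ : 0 ≤ δ) (τ : List ℝ) :
    ∀ (U : List ℝ), U.length ≤ j → Adm δ U τ →
      List.Forall₂ (fun x y ↦ x ≤ y + errFac j U.length * δ) (bld 0 U.length τ) U := by
  intro U
  induction U with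
  | nil => intro _ _; exact List.Forall₂.nil
  | cons u U ih =>
    intro hlen hadm
    rw [List.length_cons] at hlen ⊢
    have h := ih (by omega) hadm.tail
    have he : 0 ≤ errFac j U.length * δ :=
      mul_nonneg (le_trans zero_le_one (one_le_errFac _ _)) hδ
    have hstep := step_err (j := j) (k := U.length) hδ (by omega)
    rw [bld]
    refine List.Forall₂.cons ?_ (h.imp fun x y hxy ↦ hxy.trans (by
      have := mul_le_mul_of_nonneg_right (errFac_mono j (Nat.le_succ U.length)) hδ
      linarith))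
    obtain ⟨ha, hb⟩ := hadm [] u U rfl
    have h1 := hd_le_add he h τ
    have h2 := Phid_le_add h 0 τ
    rw [bld_length] at h2
    have h3 := mul_le_mul_of_nonneg_left (le_max_left 1 (asum 0 U.length)) he
    have h4 := mul_le_mul_of_nonneg_left (le_max_right 1 (asum 0 U.length)) he
    rw [add_zero]
    exact max_le (by linarith) (by linarith)

/-- The minimal levels for the normalised tail. -/
noncomputable def gLev : ℕ → List ℝ
  | 0 => []
  | k + 1 => max (hd (gLev k)) (Phid 0 (gLev k) + 1) :: gLev k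

/-- The factor `Φ (minimal levels) + 1`. -/
noncomputable def gG (k : ℕ) : ℝ := Phid 0 (gLev k) + 1

lemma gLev_one_le : ∀ k : ℕ, ∀ x ∈ gLev k, (1:ℝ) ≤ x := by
  intro k
  induction k with
  | zero => simp [gLev]
  | succ k ih =>
    intro x hx
    rw [gLev, List.mem_cons] at hx
    rcases hx with rfl | hx
    · refine le_max_of_le_right ?_
      have := Phid_nonneg (gLev k) (fun y hy ↦ le_trans zero_le_one (ih y hy)) 0
      linarith
    · exact ih x hx

lemma gLev_length : ∀ k : ℕ, (gLev k).length = k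
  | 0 => rfl
  | k + 1 => by simp [gLev, gLev_length k]

lemma one_le_gG (k : ℕ) : 1 ≤ gG k := by
  have := Phid_nonneg (gLev k) (fun y hy ↦ le_trans zero_le_one (gLev_one_le k y hy)) 0
  unfold gG
  linarith

lemma Phid_map_mul (c : ℝ) :
    ∀ (l : List ℝ) (d : ℕ), Phid d (l.map fun x ↦ c * x) = c * Phid d l := by
  intro l
  induction l with
  | nil => intro d; simp [Phid_nil]
  | cons x t ih => intro d; rw [List.map_cons, Phid_cons, Phid_cons, ih]; ring

lemma Phid_shift_le (e : ℕ) : ∀ (l : List ℝ), (∀ x ∈ l, 0 ≤ x) → ∀ d : ℕ,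
    Phid (d + e) l ≤ 7 * ((e:ℝ) + 1) * Phid d l := by
  intro l
  induction l with
  | nil => intro _ d; simp [Phid_nil]
  | cons x t ih =>
    intro hl d
    rw [Phid_cons, Phid_cons]
    have h1 := ih (fun y hy ↦ hl y (List.mem_cons_of_mem _ hy)) (d + 1)
    have h2 := mul_le_mul_of_nonneg_right (acoef_add_le d e) (hl x List.mem_cons_self)
    rw [show d + 1 + e = d + e + 1 by omega] at h1
    linarith

lemma hd_le_three_Phid {τ : List ℝ} (hτ : ∀ x ∈ τ, 0 ≤ x) : hd τ ≤ 3 * Phid 0 τ := by
  cases τ with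
  | nil => simp [hd_nil, Phid_nil]
  | cons x t =>
    rw [hd_cons, Phid_cons]
    have h1 := Phid_nonneg t (fun y hy ↦ hτ y (List.mem_cons_of_mem _ hy)) (0 + 1)
    have h2 := mul_le_mul_of_nonneg_right acoef_zero_gt.le (hτ x List.mem_cons_self)
    linarith [hτ x List.mem_cons_self]

lemma bld_ge_gLev {τ : List ℝ} (hτ : ∀ x ∈ τ, 0 ≤ x) :
    ∀ k : ℕ, List.Forall₂ (fun x y ↦ x ≤ y + 0)
      ((gLev k).map fun x ↦ Phid 0 τ * x) (bld 0 k τ) := by
  have hΦ := Phid_nonneg τ hτ 0
  intro k
  induction k with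
  | zero => exact List.Forall₂.nil
  | succ k ih =>
    rw [gLev, List.map_cons, bld]
    refine List.Forall₂.cons ?_ ih
    rw [add_zero, add_zero, mul_max_of_nonneg _ _ hΦ]
    refine max_le_max ?_ ?_
    · cases k with
      | zero => simpa [gLev, bld, hd_nil] using hd_nonneg hτ
      | succ k =>
        cases ih with
        | cons hxy _ =>
          simp only [gLev, bld, List.cons_append, hd_cons, add_zero] at hxy ⊢
          exact hxy
    · have h1 := Phid_le_add ih 0 τ
      rw [Phid_append, Phid_append, Phid_map_mul, List.length_map, gLev_length,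
        bld_length, zero_mul, add_zero, Nat.zero_add] at h1
      have h2 := Phid_mono_index τ hτ 0 k (Nat.zero_le k)
      rw [Phid_append, bld_length, Nat.zero_add]
      linarith

/-- The total of the minimal levels is at least `Φ(τ) * gG k`. -/
lemma total_ge {τ : List ℝ} (hτ : ∀ x ∈ τ, 0 ≤ x) (k : ℕ) :
    Phid 0 τ * gG k ≤ Phid 0 (bld 0 k τ ++ τ) := by
  have h1 := Phid_le_add (bld_ge_gLev hτ k) 0 []
  rw [List.append_nil, List.append_nil, Phid_map_mul, zero_mul, add_zero] at h1
  have h2 := Phid_mono_index τ hτ 0 k (Nat.zero_le k)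
  rw [Phid_append, bld_length, Nat.zero_add]
  unfold gG
  linarith

lemma bld_le_gLev {j : ℕ} {τ : List ℝ} (hτ : ∀ x ∈ τ, 0 ≤ x) :
    ∀ k : ℕ, k ≤ j → List.Forall₂ (fun x y ↦ x ≤ y + 0)
      (bld 0 k τ) ((gLev k).map fun x ↦ 7 * ((j:ℝ) + 1) * Phid 0 τ * x) := by
  have hΦ := Phid_nonneg τ hτ 0
  have hM : 0 ≤ 7 * ((j:ℝ) + 1) * Phid 0 τ := by positivity
  intro k
  induction k with
  | zero => intro _; exact List.Forall₂.nil
  | succ k ih =>
    intro hk
    have h := ih (by omega)
    rw [gLev, List.map_cons, bld]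
    refine List.Forall₂.cons ?_ h
    rw [add_zero, add_zero, mul_max_of_nonneg _ _ hM]
    refine max_le ?_ (le_max_of_le_right ?_)
    · cases k with
      | zero =>
        refine le_max_of_le_right ?_
        simp only [bld, gLev, List.nil_append, Phid_nil]
        have := hd_le_three_Phid hτ
        have : (0:ℝ) ≤ j * Phid 0 τ := by positivity
        linarith
      | succ k =>
        refine le_max_of_le_left ?_
        cases h with
        | cons hxy _ =>
          simp only [gLev, bld, List.cons_append, hd_cons, add_zero] at hxy ⊢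
          exact hxy
    · have h1 := Phid_le_add h 0 []
      rw [List.append_nil, List.append_nil, Phid_map_mul, zero_mul, add_zero] at h1
      have h2 := Phid_shift_le k τ hτ 0
      rw [Nat.zero_add] at h2
      rw [Phid_append, bld_length, Nat.zero_add]
      have hkj : ((k:ℝ) + 1) ≤ (j:ℝ) + 1 := by
        have : (k:ℝ) ≤ j := by exact_mod_cast (by omega : k ≤ j)
        linarith
      have h3 : 7 * ((k:ℝ) + 1) * Phid 0 τ ≤ 7 * ((j:ℝ) + 1) * Phid 0 τ := by gcongr
      linarith

/-- The total of the minimal levels is at most `7 (j+1) Φ(τ) * gG k`. -/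
lemma total_le {j k : ℕ} (hk : k ≤ j) {τ : List ℝ} (hτ : ∀ x ∈ τ, 0 ≤ x) :
    Phid 0 (bld 0 k τ ++ τ) ≤ 7 * ((j:ℝ) + 1) * Phid 0 τ * gG k := by
  have hΦ := Phid_nonneg τ hτ 0
  have h1 := Phid_le_add (bld_le_gLev hτ k hk) 0 []
  rw [List.append_nil, List.append_nil, Phid_map_mul, zero_mul, add_zero] at h1
  have h2 := Phid_shift_le k τ hτ 0
  rw [Nat.zero_add] at h2
  rw [Phid_append, bld_length, Nat.zero_add]
  have hk' : (k:ℝ) ≤ j := by exact_mod_cast hk
  have h3 : 7 * ((k:ℝ) + 1) * Phid 0 τ ≤ 7 * ((j:ℝ) + 1) * Phid 0 τ := by gcongr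
  unfold gG
  linarith

/-- The top level is below the total by a fixed factor. -/
lemma bld_head_le {c : ℝ} (hc : 0 ≤ c) {τ : List ℝ} (hτ : ∀ x ∈ τ, 0 ≤ x) (k : ℕ) :
    ∀ x ∈ bld c (k + 1) τ, 1.28 * (x - c) ≤ Phid 0 (bld c (k + 1) τ ++ τ) := by
  set rest := bld c k τ ++ τ with hrest
  have hnn := bld_nonneg hc hτ k
  set h0 := max (hd rest) (Phid 0 rest) + c with hh0
  have hp0 := Phid_nonneg rest hnn 0
  have hp1 := Phid_mono_index rest hnn 0 1 (by omega)
  have hh : h0 - c ≥ 0 := by
    have := le_max_right (hd rest) (Phid 0 rest)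
    linarith
  have hhead : 1.28 * (h0 - c) ≤ Phid 0 (bld c (k + 1) τ ++ τ) := by
    rw [bld, List.cons_append, Phid_cons, ← hrest, ← hh0]
    have ha := mul_le_mul_of_nonneg_right acoef_zero_gt.le hh
    have hac := mul_nonneg (acoef_nonneg 0) hc
    rcases max_choice (hd rest) (Phid 0 rest) with he | he
    · have h1 : acoef 1 * hd rest ≤ Phid 1 rest := by
        cases hr : rest with
        | nil => simp [hd_nil, Phid_nil]
        | cons y t =>
          rw [hd_cons, Phid_cons]
          have := Phid_nonneg t (fun z hz ↦ hnn z (by rw [← hrest, hr]; exact List.mem_cons_of_mem _ hz)) 2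
          linarith
      have h2 : h0 - c = hd rest := by rw [hh0, he]; ring
      rw [h2] at hh ha ⊢
      have h3 := mul_le_mul_of_nonneg_right acoef_zero_add_one hh
      have h4 : h0 = hd rest + c := by linarith
      rw [h4, Nat.zero_add]
      linarith
    · have h2 : h0 - c = Phid 0 rest := by rw [hh0, he]; ring
      rw [h2] at ha hh ⊢
      have h4 : h0 = Phid 0 rest + c := by linarith
      rw [h4, Nat.zero_add]
      linarith
  intro x hx
  refine le_trans ?_ hhead
  have hmono : ∀ (n : ℕ), ∀ y ∈ bld c n τ, y ≤ hd (bld c n τ ++ τ) := by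
    intro n
    induction n with
    | zero => simp [bld]
    | succ n ih =>
      intro y hy
      rw [bld, List.mem_cons] at hy
      rw [bld, List.cons_append, hd_cons]
      rcases hy with rfl | hy
      · exact le_rfl
      · exact le_trans (ih y hy) (by
          have := le_max_left (hd (bld c n τ ++ τ)) (Phid 0 (bld c n τ ++ τ))
          linarith)
  have := hmono (k + 1) x hx
  rw [bld, List.cons_append, hd_cons] at this
  linarith

end Vale.Agent.P031
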