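import Mathlib
import Vale.Agent.P031.Abnormal

/-!
The number of primes in `(Q, 2Q]` that are not normal.
-/

namespace Vale.Agent.P031

open Finset Real Filter Topology

lemma ev_K0_bound : ∀ᶠ L : ℕ in atTop,
    (L:ℝ) ^ 3 ≤ Real.exp ((K0 L : ℝ) - 1) ∧ 3 * (L:ℝ) + 12 ≤ Real.exp (((K0 L / 2 : ℕ) : ℝ)) := by
  filter_upwards [ev_log_le_rpow (b := 7/10) (by norm_num) 8,
    ev_const_le_rpow (b := 7/10) (by norm_num) 40, eventually_ge_atTop 2] with L h1 h2 hL
  have hL0 : (2:ℝ) ≤ L := by exact_mod_cast hL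
  have hK : (L:ℝ) ^ (7/10 : ℝ) ≤ K0 L := Nat.le_ceil _
  constructor
  · rw [← Real.exp_log (show (0:ℝ) < (L:ℝ) ^ 3 by positivity), Real.log_pow]
    refine Real.exp_le_exp.mpr ?_
    push_cast
    linarith [Real.log_nonneg (show (1:ℝ) ≤ L by linarith)]
  · have hs : ((K0 L : ℝ) - 1) / 2 ≤ ((K0 L / 2 : ℕ) : ℝ) := by
      have h : K0 L ≤ 2 * (K0 L / 2) + 1 := by omega
      have h' : (K0 L : ℝ) ≤ 2 * ((K0 L / 2 : ℕ) : ℝ) + 1 := by exact_mod_cast h
      linarith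
    have hl : Real.log (16 * L) ≤ ((K0 L / 2 : ℕ) : ℝ) := by
      rw [Real.log_mul (by norm_num) (by linarith), show (16:ℝ) = 2 ^ 4 by norm_num, Real.log_pow]
      have := Real.log_two_lt_d9
      push_cast
      linarith
    calc 3 * (L:ℝ) + 12 ≤ 16 * L := by linarith
      _ = Real.exp (Real.log (16 * L)) := (Real.exp_log (by linarith)).symm
      _ ≤ _ := Real.exp_le_exp.mpr hl

lemma ee_le (L : ℕ) (hL : 1 ≤ L) : ee L ≤ L := by
  have hL' : (1:ℝ) ≤ L := by exact_mod_cast hL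
  unfold ee
  simpa using Real.rpow_le_rpow_of_exponent_le hL' (by norm_num : (3/5:ℝ) ≤ 1)

lemma card_dvd_le (m N : ℕ) :
    ((Icc 1 N).filter fun n ↦ m ∣ n).card = N / m := by
  rw [← Nat.Ioc_filter_dvd_card_eq_div N m]
  congr 1

/-- Bound on the primes `q` in `(Q, 2Q]` for which `q - 1` has a square of a large prime. -/
lemma card_not_sqf_le (L Q : ℕ) (S : Finset ℕ) (hQ : 1 ≤ Q)
    (ha : 4 ≤ Real.exp (Real.exp ((K0 L / 2 : ℕ) : ℝ)))
    (hS : ∀ q ∈ S, 2 ≤ q ∧ q ≤ 2 * Q ∧ ¬ SqfBig L (q - 1)) :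
    (S.card : ℝ) ≤ 4 * Q * Real.exp (-Real.exp ((K0 L / 2 : ℕ) : ℝ)) := by
  classical
  set s0 := K0 L / 2 with hs0
  set E := Real.exp (Real.exp (s0 : ℝ)) with hE
  set a := ⌊E⌋₊ with ha'
  have ha1 : 1 ≤ a := Nat.le_floor (by push_cast; linarith)
  have haE : E / 2 ≤ a := by
    have := Nat.lt_floor_add_one E
    rw [← ha'] at this
    linarith
  set Ls := (Nat.primesLE (2 * Q)).filter (fun l ↦ K0 L < 2 * sc l) with hLs
  have hsub : S.image (fun q ↦ q - 1) ⊆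
      Ls.biUnion (fun l ↦ (Icc 1 (2 * Q)).filter fun n ↦ l ^ 2 ∣ n) := by
    intro n hn
    obtain ⟨q, hq, rfl⟩ := Finset.mem_image.mp hn
    obtain ⟨h2, hle, hns⟩ := hS q hq
    simp only [SqfBig, not_forall, not_not] at hns
    obtain ⟨l, hl, hlK, hdvd⟩ := hns
    refine Finset.mem_biUnion.mpr ⟨l, Finset.mem_filter.mpr ⟨?_, hlK⟩,
      Finset.mem_filter.mpr ⟨Finset.mem_Icc.mpr ⟨by omega, by omega⟩, hdvd⟩⟩
    refine Nat.mem_primesLE.mpr ⟨?_, hl⟩
    have := Nat.le_of_dvd (by omega) hdvd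
    have : l ≤ l ^ 2 := Nat.le_self_pow (by norm_num) l
    omega
  have hinj : Set.InjOn (fun q : ℕ ↦ q - 1) S := by
    intro x hx y hy hxy
    have := (hS x hx).1
    have := (hS y hy).1
    simp only at hxy
    omega
  have h1 : S.card ≤ ∑ l ∈ Ls, 2 * Q / l ^ 2 := by
    rw [← Finset.card_image_of_injOn hinj]
    refine (Finset.card_le_card hsub).trans (Finset.card_biUnion_le.trans ?_)
    exact Finset.sum_le_sum fun l _ ↦ (card_dvd_le _ _).le
  have hla : ∀ l ∈ Ls, a < l := by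
    intro l hl
    obtain ⟨hlp, hlK⟩ := Finset.mem_filter.mp hl
    have hs : s0 < sc l := by omega
    have hl0 : (0:ℝ) < l := by exact_mod_cast (Nat.prime_of_mem_primesLE hlp).pos
    have h := Real.exp_lt_exp.mpr (lt_sc_iff.mp hs)
    rw [Real.exp_log hl0, ← hE] at h
    have : (a:ℝ) < l := lt_of_le_of_lt (Nat.floor_le (Real.exp_pos _).le) h
    exact_mod_cast this
  have h2 := sum_inv_sq_le Ls a ha1 hla
  calc (S.card : ℝ) ≤ ((∑ l ∈ Ls, 2 * Q / l ^ 2 : ℕ) : ℝ) := by exact_mod_cast h1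
    _ ≤ ∑ l ∈ Ls, ((2 * Q : ℕ) : ℝ) * (1 / (l:ℝ) ^ 2) := by
        push_cast
        refine Finset.sum_le_sum fun l _ ↦ ?_
        refine le_trans Nat.cast_div_le (le_of_eq ?_)
        push_cast
        ring
    _ ≤ ((2 * Q : ℕ) : ℝ) * (1 / (a:ℝ)) := by rw [← Finset.mul_sum]; gcongr
    _ ≤ ((2 * Q : ℕ) : ℝ) * (1 / (E / 2)) := by gcongr
    _ = _ := by rw [Real.exp_neg, hE]; push_cast; field_simp; ring

/-- Bound on the primes `q` in `(Q, 2Q]` for which `q - 1` is smooth. -/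
lemma exists_card_not_top_le :
    ∃ C, 0 ≤ C ∧ ∀ (L Q : ℕ) (S : Finset ℕ), 1 ≤ L → 4 ≤ Q → sc (2 * Q) ≤ L + 3 →
      (L:ℝ) ^ 3 ≤ Real.log (2 * Q : ℕ) →
      (∀ q ∈ S, Q < q ∧ q ≤ 2 * Q ∧
        ¬ Real.exp (sc q) ≤ (L:ℝ) ^ 3 * Real.log (lpf (q - 1) : ℕ)) →
      (S.card : ℝ) ≤ 2 * Q * Real.exp (-((L:ℝ) ^ 3 / 6) + 15 * ((L:ℝ) + 5 + C)) := by
  obtain ⟨C, hC0, hC⟩ := exists_smooth_tail
  refine ⟨C, hC0, fun L Q S hL hQ hsc hbig hS ↦ ?_⟩
  have hL' : (1:ℝ) ≤ L := by exact_mod_cast hL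
  set LQ := Real.log (2 * Q : ℕ) with hLQ
  set t : ℝ := 3 * LQ / (L:ℝ) ^ 3 with ht
  have hL3 : (1:ℝ) ≤ (L:ℝ) ^ 3 := one_le_pow₀ hL'
  have ht2 : 2 ≤ t := by rw [ht, le_div_iff₀ (by positivity)]; linarith
  have hscR : ((sc (2 * Q) : ℕ):ℝ) ≤ (L:ℝ) + 3 := by exact_mod_cast hsc
  have hLQ0 : 0 < LQ := by linarith
  have htH : t ≤ Real.exp ((L:ℝ) + 5) := by
    calc t ≤ 3 * LQ := by rw [ht]; exact div_le_self (by linarith) hL3
      _ ≤ Real.exp 2 * Real.exp ((L:ℝ) + 3) := by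
          refine mul_le_mul ?_ ?_ hLQ0.le (Real.exp_pos _).le
          · linarith [Real.add_one_le_exp (2:ℝ)]
          · exact (log_le_exp_sc _).trans (Real.exp_le_exp.mpr hscR)
      _ = _ := by rw [← Real.exp_add]; ring_nf
  have hQ' : (4:ℝ) ≤ Q := by exact_mod_cast hQ
  have h := hC t ((L:ℝ) + 5) (LQ / 2) (S.image fun q ↦ q - 1) ht2 (by linarith) htH ?_
  · have hexp : LQ / 2 / t = (L:ℝ) ^ 3 / 6 := by rw [ht]; field_simp; ring
    rw [hexp] at h
    have hinj : Set.InjOn (fun q : ℕ ↦ q - 1) S := by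
      intro x hx y hy hxy
      have := (hS x hx).1
      have := (hS y hy).1
      simp only at hxy
      omega
    rw [Finset.sum_image hinj] at h
    calc (S.card : ℝ) = ∑ q ∈ S, (1:ℝ) := by simp
      _ ≤ ∑ q ∈ S, (2 * (Q:ℝ)) * (1 / ((q - 1 : ℕ) : ℝ)) := by
          refine Finset.sum_le_sum fun q hq ↦ ?_
          obtain ⟨hlo, hhi, -⟩ := hS q hq
          have h1 : (0:ℝ) < ((q - 1 : ℕ) : ℝ) := by exact_mod_cast (by omega : 0 < q - 1)
          rw [mul_one_div, le_div_iff₀ h1, one_mul]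
          exact_mod_cast (by omega : q - 1 ≤ 2 * Q)
      _ ≤ _ := by rw [← Finset.mul_sum]; gcongr
  · intro n hn
    obtain ⟨q, hq, rfl⟩ := Finset.mem_image.mp hn
    obtain ⟨hlo, hhi, htop⟩ := hS q hq
    rw [not_le] at htop
    refine ⟨by omega, fun l hl hdvd ↦ ?_, ?_⟩
    · have hle := le_lpf (by omega) hl hdvd
      have h1 : Real.log l ≤ Real.log (lpf (q - 1) : ℕ) :=
        Real.log_le_log (by exact_mod_cast hl.pos) (by exact_mod_cast hle)
      refine h1.trans ?_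
      rw [ht, le_div_iff₀ (by positivity)]
      have h3 : Real.exp (sc q) ≤ 3 * LQ := by
        refine le_trans (Real.exp_le_exp.mpr ?_) (exp_sc_le_three_mul (n := 2 * Q) ?_)
        · exact_mod_cast sc_mono hhi
        · rw [← hLQ]; linarith
      linarith
    · rw [hLQ]
      push_cast
      rw [Real.log_mul (by norm_num) (by linarith)]
      have hq1 : (Q:ℝ) ≤ ((q - 1 : ℕ):ℝ) := by exact_mod_cast (by omega : Q ≤ q - 1)
      have e2 := Real.log_le_log (by linarith) hq1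
      have e3 : Real.log 2 ≤ Real.log Q := Real.log_le_log (by norm_num) (by linarith)
      linarith

/-- Bound on the primes `q` in `(Q, 2Q]` for which the profile of `q - 1` deviates at scale `s`. -/
lemma exists_card_dev_le :
    ∃ K, 1 ≤ K ∧ ∀ (L Q s : ℕ) (S : Finset ℕ), 1 ≤ L → 2 ≤ Q → sc (2 * Q) ≤ L + 3 →
      s ≤ L + 3 →
      (∀ q ∈ S, q.Prime ∧ Q < q ∧ q ≤ 2 * Q ∧
        Real.exp (sc q) ≤ (L:ℝ) ^ 3 * Real.log (lpf (q - 1) : ℕ) ∧
        ee L < |(omle s (q - 1) : ℝ) - (min s (sc q) : ℕ)|) →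
      (S.card : ℝ) ≤ Q / Real.log (2 * Q : ℕ)
        * (K * (L:ℝ) ^ 18 * Real.exp (-(ee L ^ 2 / (32 * (L:ℝ))))) := by
  obtain ⟨K, hK1, hK⟩ := exists_weighted_prime_count
  refine ⟨K * (2 * Real.exp 2), ?_, fun L Q s S hL hQ hsc hs hS ↦ ?_⟩
  · have : 1 ≤ Real.exp 2 := Real.one_le_exp (by norm_num)
    exact one_le_mul_of_one_le_of_one_le hK1 (by linarith)
  classical
  have hL' : (1:ℝ) ≤ L := by exact_mod_cast hL
  have he0 : 0 < ee L := Real.rpow_pos_of_pos (by linarith) _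
  have heL := ee_le L hL
  set ε : ℝ := ee L / (16 * L) with hε
  have hε0 : 0 < ε := by positivity
  have hε2 : ε ≤ 1/16 := by rw [hε, div_le_iff₀ (by positivity)]; linarith
  set μ : ℕ := min s (sc (2 * Q)) with hμ
  have hμb : (μ:ℝ) ≤ (L:ℝ) + 3 := by exact_mod_cast (min_le_left _ _).trans hs
  have hμ1 : ∀ q ∈ S, (min s (sc q) : ℕ) ≤ μ ∧ μ ≤ (min s (sc q) : ℕ) + 1 := by
    intro q hq
    obtain ⟨-, hlo, hhi, -, -⟩ := hS q hq
    have h1 := sc_mono hhi
    have h2 := sc_two_mul_le hQ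
    have h3 := sc_mono hlo.le
    omega
  set X : ℝ := (K * (L:ℝ) ^ 18 * Real.exp (-(ee L ^ 2 / (32 * (L:ℝ))))) * Real.exp 2 with hX
  -- excess
  set S1 := S.filter fun q ↦ ((min s (sc q) : ℕ):ℝ) + ee L < (omle s (q - 1) : ℝ) with hS1
  set S2 := S.filter fun q ↦ ¬ ((min s (sc q) : ℕ):ℝ) + ee L < (omle s (q - 1) : ℝ) with hS2
  have key1 : (S1.card : ℝ) ≤ Q / Real.log (2 * Q : ℕ) * X := by
    rcases S1.eq_empty_or_nonempty with h | ⟨q0, hq0⟩
    · rw [h, Finset.card_empty, Nat.cast_zero]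
      exact mul_nonneg (div_nonneg (Nat.cast_nonneg _) (Real.log_natCast_nonneg _))
        (by rw [hX]; positivity)
    set N := (μ:ℝ) - 1 + ee L with hN
    set lam := Real.exp (N * (ε - ε ^ 2)) with hlam
    refine (hK L Q (1 + ε) s lam S1 hL hQ hsc (by linarith) (by linarith) (Real.exp_pos _)
      fun q hq ↦ ?_).trans ?_
    · obtain ⟨hqS, hexc⟩ := Finset.mem_filter.mp hq
      obtain ⟨hp, hlo, hhi, htop, -⟩ := hS q hqS
      refine ⟨hp, hlo, hhi, htop, ?_⟩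
      have hlog : ε - ε ^ 2 ≤ Real.log (1 + ε) := by
        have h := Real.one_sub_inv_le_log_of_pos (x := 1 + ε) (by linarith)
        refine le_trans ?_ h
        rw [show 1 - (1 + ε)⁻¹ = ε / (1 + ε) by field_simp; ring, le_div_iff₀ (by linarith)]
        nlinarith [pow_pos hε0 3]
      rw [← Real.exp_log (show 0 < 1 + ε by linarith), ← Real.exp_nat_mul, hlam, Real.exp_le_exp]
      have hle : N ≤ (omle s (q - 1) : ℝ) := by
        have : (μ:ℝ) ≤ ((min s (sc q) : ℕ):ℝ) + 1 := by exact_mod_cast (hμ1 q hqS).2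
        linarith
      have h0 : 0 ≤ ε - ε ^ 2 := by nlinarith
      calc N * (ε - ε ^ 2) ≤ (omle s (q - 1) : ℝ) * (ε - ε ^ 2) := by gcongr
        _ ≤ _ := by gcongr
    · refine mul_le_mul_of_nonneg_left ?_ (by positivity)
      rw [hX, hlam, show 1 + ε - 1 = ε by ring, mul_div_assoc, ← Real.exp_sub,
        mul_assoc (K * (L:ℝ) ^ 18) (Real.exp _) (Real.exp 2), ← Real.exp_add]
      refine mul_le_mul_of_nonneg_left (Real.exp_le_exp.mpr ?_) (by positivity)
      rw [← hμ, hN]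
      have e1 : ε * ε * ((μ:ℝ) - 1 + ee L) ≤ ε * ε * (6 * L) := by
        gcongr; linarith
      have e2 : ε * ε * (6 * L) = 6 * ee L ^ 2 / (256 * L) := by
        rw [hε]; field_simp; ring
      have e3 : ε * ee L = ee L ^ 2 / (16 * L) := by rw [hε]; field_simp
      have e5 : 0 ≤ ee L ^ 2 / (256 * (L:ℝ)) := by positivity
      have e6 : 6 * ee L ^ 2 / (256 * (L:ℝ)) = 6 * (ee L ^ 2 / (256 * (L:ℝ))) := by ring
      have e7 : ee L ^ 2 / (16 * (L:ℝ)) = 16 * (ee L ^ 2 / (256 * (L:ℝ))) := by ring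
      have e8 : ee L ^ 2 / (32 * (L:ℝ)) = 8 * (ee L ^ 2 / (256 * (L:ℝ))) := by ring
      linarith
  have key2 : (S2.card : ℝ) ≤ Q / Real.log (2 * Q : ℕ) * X := by
    rcases S2.eq_empty_or_nonempty with h | ⟨q0, hq0⟩
    · rw [h, Finset.card_empty, Nat.cast_zero]
      exact mul_nonneg (div_nonneg (Nat.cast_nonneg _) (Real.log_natCast_nonneg _))
        (by rw [hX]; positivity)
    have hdef : ∀ q ∈ S2, (omle s (q - 1) : ℝ) ≤ (μ:ℝ) - ee L := by
      intro q hq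
      obtain ⟨hqS, hnot⟩ := Finset.mem_filter.mp hq
      obtain ⟨-, -, -, -, hdev⟩ := hS q hqS
      have h1 : ((min s (sc q) : ℕ):ℝ) ≤ (μ:ℝ) := by exact_mod_cast (hμ1 q hqS).1
      rw [lt_abs] at hdev
      rcases hdev with h | h
      · exact absurd (by linarith) hnot
      · linarith
    set M := (μ:ℝ) - ee L with hM
    have hM0 : 0 ≤ M := le_trans (Nat.cast_nonneg _) (hdef q0 hq0)
    set lam := Real.exp (M * (-ε - 2 * ε ^ 2)) with hlam
    refine (hK L Q (1 - ε) s lam S2 hL hQ hsc (by linarith) (by linarith) (Real.exp_pos _)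
      fun q hq ↦ ?_).trans ?_
    · obtain ⟨hqS, -⟩ := Finset.mem_filter.mp hq
      obtain ⟨hp, hlo, hhi, htop, -⟩ := hS q hqS
      refine ⟨hp, hlo, hhi, htop, ?_⟩
      have hlog : -ε - 2 * ε ^ 2 ≤ Real.log (1 - ε) := by
        have h := Real.one_sub_inv_le_log_of_pos (x := 1 - ε) (by linarith)
        refine le_trans ?_ h
        rw [show 1 - (1 - ε)⁻¹ = (-ε) / (1 - ε) by
          field_simp [show (1:ℝ) - ε ≠ 0 by linarith]; ring, le_div_iff₀ (by linarith)]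
        nlinarith
      rw [← Real.exp_log (show 0 < 1 - ε by linarith), ← Real.exp_nat_mul, hlam, Real.exp_le_exp]
      have h0 : -ε - 2 * ε ^ 2 ≤ 0 := by nlinarith
      calc M * (-ε - 2 * ε ^ 2) ≤ (omle s (q - 1) : ℝ) * (-ε - 2 * ε ^ 2) :=
            mul_le_mul_of_nonpos_right (hdef q hq) h0
        _ ≤ _ := by gcongr
    · refine mul_le_mul_of_nonneg_left ?_ (by positivity)
      rw [hX, hlam, show 1 - ε - 1 = -ε by ring, mul_div_assoc, ← Real.exp_sub,
        mul_assoc (K * (L:ℝ) ^ 18) (Real.exp _) (Real.exp 2), ← Real.exp_add]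
      refine mul_le_mul_of_nonneg_left (Real.exp_le_exp.mpr ?_) (by positivity)
      rw [← hμ, hM]
      have e1 : 2 * (ε * ε) * ((μ:ℝ) - ee L) ≤ 2 * (ε * ε) * (4 * L) := by
        gcongr; linarith
      have e2 : 2 * (ε * ε) * (4 * L) = 8 * (ee L ^ 2 / (256 * (L:ℝ))) := by
        rw [hε]; field_simp; ring
      have e3 : ε * ee L = 16 * (ee L ^ 2 / (256 * (L:ℝ))) := by rw [hε]; field_simp; ring
      have e5 : 0 ≤ ee L ^ 2 / (256 * (L:ℝ)) := by positivity
      have e8 : ee L ^ 2 / (32 * (L:ℝ)) = 8 * (ee L ^ 2 / (256 * (L:ℝ))) := by ring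
      linarith
  have hsplit : (S1.card : ℝ) + S2.card = S.card := by
    exact_mod_cast Finset.card_filter_add_card_filter_not _
  calc (S.card : ℝ) ≤ 2 * (Q / Real.log (2 * Q : ℕ) * X) := by linarith
    _ = _ := by rw [hX]; ring

/-- Primes that are not normal are rare in every dyadic range. -/
theorem ev_abnormal_count :
    ∀ᶠ L : ℕ in atTop, ∀ (Q : ℕ) (S : Finset ℕ), sc (2 * Q) ≤ L + 3 → K0 L ≤ sc (2 * Q) →
      (∀ q ∈ S, q.Prime ∧ Q < q ∧ q ≤ 2 * Q ∧ ¬ Normal L q) →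
      (S.card : ℝ) ≤ Q / Real.log (2 * Q : ℕ) * Real.exp (-((L:ℝ) ^ (1/10 : ℝ))) := by
  obtain ⟨C, hC0, hT⟩ := exists_card_not_top_le
  obtain ⟨K, hK1, hD⟩ := exists_card_dev_le
  filter_upwards [ev_K0_bound, eventually_ge_atTop 2,
    ev_poly_mul_exp (a := 1/10) (b := 1/5) (by norm_num) (by norm_num) (3 * (K * 5)) 19 (1/32)
      (by norm_num),
    ev_const_le_rpow (b := 1) (by norm_num) (200 + 15 * C)] with L hK0 hL hpoly hbigL
  intro Q S hsc hKQ hS
  classical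
  rw [Real.rpow_one] at hbigL
  have hL' : (2:ℝ) ≤ L := by exact_mod_cast hL
  set LQ := Real.log (2 * Q : ℕ) with hLQ
  have hKpos : 0 < K0 L := by
    rw [K0, Nat.ceil_pos]; positivity
  have hLQbig : (L:ℝ) ^ 3 ≤ LQ := by
    refine hK0.1.trans ?_
    refine le_trans (Real.exp_le_exp.mpr ?_) (exp_sc_pred_lt (n := 2 * Q) (by omega)).le
    have : (K0 L : ℝ) ≤ sc (2 * Q) := by exact_mod_cast hKQ
    linarith
  have h8 : (8:ℝ) ≤ (L:ℝ) ^ 3 := by
    calc (8:ℝ) = 2 ^ 3 := by norm_num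
      _ ≤ _ := by gcongr
  have hQ4 : 4 ≤ Q := by
    by_contra h
    have : Real.log (2 * Q : ℕ) ≤ ((2 * Q : ℕ) : ℝ) := Real.log_le_self (Nat.cast_nonneg _)
    rw [← hLQ] at this
    have h2 : ((2 * Q : ℕ) : ℝ) ≤ 6 := by exact_mod_cast (by omega : 2 * Q ≤ 6)
    linarith
  have hLQ0 : 0 < LQ := by linarith
  have hLQle : LQ ≤ Real.exp ((L:ℝ) + 3) :=
    (log_le_exp_sc _).trans (Real.exp_le_exp.mpr (by exact_mod_cast hsc))
  set Z := Real.exp (-((L:ℝ) ^ (1/10 : ℝ))) with hZ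
  set SA := S.filter fun q ↦ ¬ SqfBig L (q - 1) with hSA
  set SB := S.filter fun q ↦ ¬ Real.exp (sc q) ≤ (L:ℝ) ^ 3 * Real.log (lpf (q - 1) : ℕ) with hSB
  set SC : ℕ → Finset ℕ := fun s ↦ S.filter fun q ↦
    Real.exp (sc q) ≤ (L:ℝ) ^ 3 * Real.log (lpf (q - 1) : ℕ) ∧
      ee L < |(omle s (q - 1) : ℝ) - (min s (sc q) : ℕ)| with hSC
  have hcover : S ⊆ (SA ∪ SB) ∪ (Finset.range (L + 4)).biUnion SC := by
    intro q hq
    obtain ⟨hp, hlo, hhi, hnn⟩ := hS q hq
    by_cases h1 : SqfBig L (q - 1)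
    swap
    · exact Finset.mem_union_left _ (Finset.mem_union_left _
        (Finset.mem_filter.mpr ⟨hq, h1⟩))
    by_cases h2 : Real.exp (sc q) ≤ (L:ℝ) ^ 3 * Real.log (lpf (q - 1) : ℕ)
    swap
    · exact Finset.mem_union_left _ (Finset.mem_union_right _
        (Finset.mem_filter.mpr ⟨hq, h2⟩))
    have : ∃ s, ee L < |(omle s (q - 1) : ℝ) - (min s (sc q) : ℕ)| := by
      by_contra hno
      simp only [not_exists, not_lt] at hno
      exact hnn ⟨hp, hno, h2, h1⟩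
    obtain ⟨s, hs⟩ := this
    refine Finset.mem_union_right _ (Finset.mem_biUnion.mpr ?_)
    have hscq : sc q ≤ L + 3 := (sc_mono hhi).trans hsc
    by_cases hs' : s ≤ sc q
    · exact ⟨s, Finset.mem_range.mpr (by omega), Finset.mem_filter.mpr ⟨hq, h2, hs⟩⟩
    · refine ⟨sc q, Finset.mem_range.mpr (by omega), Finset.mem_filter.mpr ⟨hq, h2, ?_⟩⟩
      rw [omle_of_sc_le (σ := sc q) (s := s) (by omega) fun l hl ↦
        sc_le_of_mem_factors (m := q) (by omega) (by omega) hl,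
        min_eq_right (by omega)] at hs
      rwa [min_self]
  have hQ0 : (0:ℝ) ≤ Q := Nat.cast_nonneg _
  have hLp : (L:ℝ) ^ (1/10:ℝ) ≤ L := by
    simpa using Real.rpow_le_rpow_of_exponent_le (by linarith : (1:ℝ) ≤ L)
      (by norm_num : (1/10:ℝ) ≤ 1)
  have hA : (SA.card : ℝ) ≤ Q / LQ * (Z / 3) := by
    refine (card_not_sqf_le L Q SA (by omega) ?_ fun q hq ↦ ?_).trans ?_
    · linarith [Real.add_one_le_exp (Real.exp ((K0 L / 2 : ℕ) : ℝ))]
    · obtain ⟨hqS, h⟩ := Finset.mem_filter.mp hq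
      obtain ⟨hp, -, hhi, -⟩ := hS q hqS
      exact ⟨hp.two_le, hhi, h⟩
    · calc 4 * (Q:ℝ) * Real.exp (-Real.exp ((K0 L / 2 : ℕ) : ℝ))
          = (Q:ℝ) / LQ * (4 * LQ * Real.exp (-Real.exp ((K0 L / 2 : ℕ) : ℝ))) := by field_simp
        _ ≤ _ := by
            refine mul_le_mul_of_nonneg_left ?_ (by positivity)
            calc 4 * LQ * Real.exp (-Real.exp ((K0 L / 2 : ℕ) : ℝ))
                ≤ Real.exp 3 * Real.exp ((L:ℝ) + 3)
                    * Real.exp (-Real.exp ((K0 L / 2 : ℕ) : ℝ)) := by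
                  gcongr
                  linarith [Real.add_one_le_exp (3:ℝ)]
              _ ≤ Real.exp (-((L:ℝ) ^ (1/10:ℝ))) * Real.exp (-2) := by
                  rw [← Real.exp_add, ← Real.exp_add, ← Real.exp_add]
                  exact Real.exp_le_exp.mpr (by linarith [hK0.2])
              _ ≤ _ := by
                  rw [div_eq_mul_one_div Z 3]
                  gcongr
                  rw [Real.exp_neg, ← one_div]
                  gcongr
                  linarith [Real.add_one_le_exp (2:ℝ)]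
  have hB : (SB.card : ℝ) ≤ Q / LQ * (Z / 3) := by
    refine (hT L Q SB (by omega) hQ4 hsc hLQbig fun q hq ↦ ?_).trans ?_
    · obtain ⟨hqS, h⟩ := Finset.mem_filter.mp hq
      obtain ⟨-, hlo, hhi, -⟩ := hS q hqS
      exact ⟨hlo, hhi, h⟩
    · calc 2 * (Q:ℝ) * Real.exp (-((L:ℝ) ^ 3 / 6) + 15 * ((L:ℝ) + 5 + C))
          = (Q:ℝ) / LQ * (2 * LQ * Real.exp (-((L:ℝ) ^ 3 / 6) + 15 * ((L:ℝ) + 5 + C))) := by
            field_simp
        _ ≤ _ := by
            refine mul_le_mul_of_nonneg_left ?_ (by positivity)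
            calc 2 * LQ * Real.exp (-((L:ℝ) ^ 3 / 6) + 15 * ((L:ℝ) + 5 + C))
                ≤ Real.exp 1 * Real.exp ((L:ℝ) + 3)
                    * Real.exp (-((L:ℝ) ^ 3 / 6) + 15 * ((L:ℝ) + 5 + C)) := by
                  gcongr
                  linarith [Real.add_one_le_exp (1:ℝ)]
              _ ≤ Real.exp (-((L:ℝ) ^ (1/10:ℝ))) * Real.exp (-2) := by
                  rw [← Real.exp_add, ← Real.exp_add, ← Real.exp_add]
                  refine Real.exp_le_exp.mpr ?_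
                  have h1 : (200:ℝ) * L ≤ (L:ℝ) ^ 2 := by
                    rw [sq]; gcongr; linarith
                  have h2 : (L:ℝ) ^ 2 * 200 ≤ (L:ℝ) ^ 3 := by
                    rw [pow_succ (L:ℝ) 2]; gcongr; linarith
                  linarith
              _ ≤ _ := by
                  rw [div_eq_mul_one_div Z 3]
                  gcongr
                  rw [Real.exp_neg, ← one_div]
                  gcongr
                  linarith [Real.add_one_le_exp (2:ℝ)]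
  have hC' : (((Finset.range (L + 4)).biUnion SC).card : ℝ) ≤ Q / LQ * (Z / 3) := by
    calc (((Finset.range (L + 4)).biUnion SC).card : ℝ)
        ≤ ∑ s ∈ Finset.range (L + 4), ((SC s).card : ℝ) := by
          exact_mod_cast Finset.card_biUnion_le
      _ ≤ ∑ _s ∈ Finset.range (L + 4),
            Q / LQ * (K * (L:ℝ) ^ 18 * Real.exp (-(ee L ^ 2 / (32 * (L:ℝ))))) := by
          refine Finset.sum_le_sum fun s hs ↦ ?_
          refine hD L Q s (SC s) (by omega) (by omega) hsc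
            (by have := Finset.mem_range.mp hs; omega) fun q hq ↦ ?_
          obtain ⟨hqS, h1, h2⟩ := Finset.mem_filter.mp hq
          obtain ⟨hp, hlo, hhi, -⟩ := hS q hqS
          exact ⟨hp, hlo, hhi, h1, h2⟩
      _ ≤ _ := by
          rw [Finset.sum_const, Finset.card_range, nsmul_eq_mul, mul_left_comm]
          refine mul_le_mul_of_nonneg_left ?_ (by positivity)
          have hee : ee L ^ 2 / (32 * (L:ℝ)) = 1/32 * (L:ℝ) ^ (1/5:ℝ) := by
            have hL0 : (0:ℝ) < L := by linarith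
            rw [ee, ← Real.rpow_natCast ((L:ℝ) ^ (3/5:ℝ)) 2, ← Real.rpow_mul hL0.le,
              show (3/5:ℝ) * ((2:ℕ):ℝ) = 1/5 + 1 by norm_num, Real.rpow_add hL0, Real.rpow_one]
            field_simp
          rw [hee, le_div_iff₀ (by norm_num : (0:ℝ) < 3)]
          refine le_trans ?_ hpoly
          have : ((L + 4 : ℕ) : ℝ) ≤ 5 * (L:ℝ) := by push_cast; linarith
          calc ((L + 4 : ℕ) : ℝ) * (K * (L:ℝ) ^ 18 * Real.exp (-(1/32 * (L:ℝ) ^ (1/5:ℝ)))) * 3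
              ≤ 5 * (L:ℝ) * (K * (L:ℝ) ^ 18 * Real.exp (-(1/32 * (L:ℝ) ^ (1/5:ℝ)))) * 3 := by
                gcongr
            _ = _ := by ring
  calc (S.card : ℝ)
      ≤ ((SA.card : ℝ) + SB.card) + ((Finset.range (L + 4)).biUnion SC).card := by
        exact_mod_cast (Finset.card_le_card hcover).trans ((Finset.card_union_le _ _).trans
          (Nat.add_le_add_right (Finset.card_union_le _ _) _))
    _ ≤ _ := by linarith

end Vale.Agent.P031
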