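import Mathlib
import Vale.Agent.P031.Chain
import Vale.Agent.P031.Normal

/-!
Tools for the decomposition of totients: size of preimages, level lists, decay of levels, and a
count of products `R * m` with a large prime `R`.
-/

namespace Vale.Agent.P031

open Finset Real Filter Topology

lemma le_totient_sq_aux (n : ℕ) : n ≠ 0 → n ≤ (if Even n then 2 else 1) * Nat.totient n ^ 2 := by
  induction n using Nat.recOnPrimeCoprime with
  | zero => intro h; exact absurd rfl h
  | prime_pow p k hp =>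
    intro _
    rcases Nat.eq_zero_or_pos k with rfl | hk
    · simp
    obtain ⟨j, rfl⟩ : ∃ j, k = j + 1 := ⟨k - 1, by omega⟩
    rw [Nat.totient_prime_pow_succ hp]
    rcases hp.eq_two_or_odd' with rfl | hodd
    · rw [if_pos (Nat.even_pow.mpr ⟨even_two, by omega⟩)]
      have h1 : 1 ≤ 2 ^ j := Nat.one_le_two_pow
      calc 2 ^ (j + 1) = 2 * (2 ^ j * 1) := by ring
        _ ≤ 2 * (2 ^ j * 2 ^ j) := by gcongr
        _ = _ := by ring
    · rw [if_neg (Nat.not_even_iff_odd.mpr hodd.pow), one_mul]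
      obtain ⟨m, rfl⟩ := hodd
      have hm : 1 ≤ m := by have := hp.two_le; omega
      rw [Nat.add_sub_cancel, pow_succ]
      have h1 : 1 ≤ (2 * m + 1) ^ j := Nat.one_le_pow _ _ (by omega)
      calc (2 * m + 1) ^ j * (2 * m + 1) ≤ ((2 * m + 1) ^ j * (2 * m + 1) ^ j) * (2 * m) ^ 2 := by
            refine Nat.mul_le_mul (Nat.le_mul_of_pos_left _ (by omega)) ?_
            calc 2 * m + 1 ≤ (2 * m) * 2 := by omega
              _ ≤ (2 * m) * (2 * m) := by gcongr; omega
              _ = _ := by ring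
        _ = _ := by ring
  | coprime a b ha hb hab iha ihb =>
    intro _
    have ha' := iha (by omega)
    have hb' := ihb (by omega)
    rw [Nat.totient_mul hab, mul_pow]
    have hnot : ¬ (Even a ∧ Even b) := fun ⟨h1, h2⟩ ↦ by
      have := Nat.dvd_gcd h1.two_dvd h2.two_dvd
      rw [hab.gcd_eq_one] at this
      omega
    calc a * b ≤ ((if Even a then 2 else 1) * a.totient ^ 2)
          * ((if Even b then 2 else 1) * b.totient ^ 2) := Nat.mul_le_mul ha' hb'
      _ = _ := by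
        by_cases h1 : Even a <;> by_cases h2 : Even b <;>
          simp [h1, h2, Nat.even_mul] at hnot ⊢ <;> ring

lemma le_two_mul_totient_sq (n : ℕ) : n ≤ 2 * Nat.totient n ^ 2 := by
  rcases Nat.eq_zero_or_pos n with rfl | hn
  · simp
  refine (le_totient_sq_aux n hn.ne').trans (Nat.mul_le_mul_right _ ?_)
  split_ifs <;> omega

/-- Preimages of totients up to `N` are at most `C L^2 N`. -/
lemma exists_preimage_le :
    ∃ C, 1 ≤ C ∧ ∀ (L N n : ℕ), 1 ≤ L → sc N ≤ L + 1 → 0 < n → Nat.totient n ≤ N →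
      (n:ℝ) ≤ C * (L:ℝ) ^ 2 * N := by
  obtain ⟨C3, hC30, hC3⟩ := exists_sum_dvd_le
  have hexp : 1 ≤ Real.exp (2 * C3) := Real.one_le_exp (by linarith)
  refine ⟨25 * Real.exp (2 * C3), by linarith, fun L N n hL hsc hn hv ↦ ?_⟩
  have hL' : (1:ℝ) ≤ L := by exact_mod_cast hL
  have hv1 : 1 ≤ Nat.totient n := Nat.totient_pos.mpr hn
  have hn' : (0:ℝ) < n := by exact_mod_cast hn
  have hscR : ((sc N : ℕ):ℝ) ≤ (L:ℝ) + 1 := by exact_mod_cast hsc
  have hlogN : Real.log N ≤ Real.exp ((L:ℝ) + 1) :=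
    (log_le_exp_sc N).trans (Real.exp_le_exp.mpr hscR)
  have hlogn : Real.log n ≤ 6 * Real.exp ((L:ℝ) + 1) := by
    have h2 : (n:ℝ) ≤ 2 * (Nat.totient n : ℝ) ^ 2 := by exact_mod_cast le_two_mul_totient_sq n
    have hv' : (1:ℝ) ≤ (Nat.totient n : ℝ) := by exact_mod_cast hv1
    have := Real.log_le_log hn' h2
    rw [Real.log_mul (by norm_num) (by positivity), Real.log_pow] at this
    have h3 : Real.log (Nat.totient n : ℝ) ≤ Real.log N :=
      Real.log_le_log (by linarith) (by exact_mod_cast hv)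
    have h4 : Real.log 2 ≤ Real.exp ((L:ℝ) + 1) := by
      linarith [Real.log_two_lt_d9, Real.add_one_le_exp ((L:ℝ) + 1)]
    push_cast at this
    linarith [Real.exp_pos ((L:ℝ) + 1)]
  have hsum := hC3 n ((L:ℝ) + 1) n.primeFactors (by linarith) hn.ne' hlogn
    fun l hl ↦ ⟨Nat.prime_of_mem_primeFactors hl, Nat.dvd_of_mem_primeFactors hl⟩
  have hprod : ∏ p ∈ n.primeFactors, (p:ℝ)
      ≤ (∏ p ∈ n.primeFactors, ((p:ℝ) - 1))
        * Real.exp (2 * ∑ p ∈ n.primeFactors, (1:ℝ) / p) := by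
    rw [Finset.mul_sum, Real.exp_sum, ← Finset.prod_mul_distrib]
    refine Finset.prod_le_prod (fun i _ ↦ Nat.cast_nonneg _) fun p hp ↦ ?_
    have h2 : (2:ℝ) ≤ p := by exact_mod_cast (Nat.prime_of_mem_primeFactors hp).two_le
    calc (p:ℝ) ≤ ((p:ℝ) - 1) * (1 + 2 * (1 / (p:ℝ))) := by
          have : 1 / (p:ℝ) ≤ 1/2 := by gcongr
          have h3 : (p:ℝ) * (1 / (p:ℝ)) = 1 := by field_simp
          linarith
      _ ≤ _ := by
          refine mul_le_mul_of_nonneg_left ?_ (by linarith)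
          rw [add_comm]
          exact Real.add_one_le_exp _
  have hid : (Nat.totient n : ℝ) * ∏ p ∈ n.primeFactors, (p:ℝ)
      = (n:ℝ) * ∏ p ∈ n.primeFactors, ((p:ℝ) - 1) := by
    have h := Nat.totient_mul_prod_primeFactors n
    have h' : ((Nat.totient n * ∏ p ∈ n.primeFactors, p : ℕ) : ℝ)
        = ((n * ∏ p ∈ n.primeFactors, (p - 1) : ℕ) : ℝ) := by rw [h]
    push_cast at h'
    rw [h']
    congr 1
    refine Finset.prod_congr rfl fun p hp ↦ ?_
    rw [Nat.cast_sub (Nat.prime_of_mem_primeFactors hp).one_le, Nat.cast_one]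
  have hpos : 0 < ∏ p ∈ n.primeFactors, ((p:ℝ) - 1) := by
    refine Finset.prod_pos fun p hp ↦ ?_
    have h2 : (2:ℝ) ≤ p := by exact_mod_cast (Nat.prime_of_mem_primeFactors hp).two_le
    linarith
  have hmain : (n:ℝ) ≤ (Nat.totient n : ℝ) * Real.exp (2 * ∑ p ∈ n.primeFactors, (1:ℝ) / p) := by
    refine le_of_mul_le_mul_right ?_ hpos
    calc (n:ℝ) * ∏ p ∈ n.primeFactors, ((p:ℝ) - 1)
        = (Nat.totient n : ℝ) * ∏ p ∈ n.primeFactors, (p:ℝ) := hid.symm
      _ ≤ (Nat.totient n : ℝ) * ((∏ p ∈ n.primeFactors, ((p:ℝ) - 1))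
            * Real.exp (2 * ∑ p ∈ n.primeFactors, (1:ℝ) / p)) := by gcongr
      _ = _ := by ring
  refine hmain.trans ?_
  have hexp2 : Real.exp (2 * ∑ p ∈ n.primeFactors, (1:ℝ) / p)
      ≤ 25 * Real.exp (2 * C3) * (L:ℝ) ^ 2 := by
    calc Real.exp (2 * ∑ p ∈ n.primeFactors, (1:ℝ) / p)
        ≤ Real.exp (((2:ℕ):ℝ) * Real.log ((L:ℝ) + 1 + 3) + 2 * C3) := by
          refine Real.exp_le_exp.mpr ?_
          push_cast
          linarith
      _ = ((L:ℝ) + 4) ^ 2 * Real.exp (2 * C3) := by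
          rw [Real.exp_add, Real.exp_nat_mul, Real.exp_log (by linarith)]; ring_nf
      _ ≤ (5 * (L:ℝ)) ^ 2 * Real.exp (2 * C3) := by gcongr; linarith
      _ = _ := by ring
  calc (Nat.totient n : ℝ) * Real.exp (2 * ∑ p ∈ n.primeFactors, (1:ℝ) / p)
      ≤ (N:ℝ) * (25 * Real.exp (2 * C3) * (L:ℝ) ^ 2) := by gcongr
    _ = _ := by ring

/-- The primes of `n` of scale above `K0`, in descending order. -/
noncomputable def bigList (L n : ℕ) : List ℕ :=
  (n.primeFactors.filter fun q ↦ K0 L < sc q).sort (· ≥ ·)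

lemma mem_bigList {L n q : ℕ} : q ∈ bigList L n ↔ q ∈ n.primeFactors ∧ K0 L < sc q := by
  simp [bigList]

lemma bigList_sorted (L n : ℕ) : (bigList L n).Pairwise (· > ·) := by
  have h1 : (bigList L n).Pairwise (· ≥ ·) := Finset.pairwise_sort _ _
  have h2 : (bigList L n).Nodup := Finset.sort_nodup _ _
  exact h1.imp₂ (fun a b hab hne ↦ lt_of_le_of_ne hab (Ne.symm hne)) h2

lemma bigList_prod_dvd (L n : ℕ) : (bigList L n).prod ∣ n := by
  have : (bigList L n).prod = ∏ q ∈ n.primeFactors.filter (fun q ↦ K0 L < sc q), q := by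
    rw [bigList, ← Multiset.prod_coe, Finset.sort_eq, ← Finset.prod_map_val]
    simp
  rw [this]
  exact (Finset.prod_dvd_prod_of_subset _ _ _ (Finset.filter_subset _ _)).trans
    (Nat.prod_primeFactors_dvd n)

/-- A preimage splits into its level primes and a small part. -/
lemma exists_split {L n : ℕ} (hn : 0 < n) (hsq : SqfBig L n) :
    ∃ t, 0 < t ∧ n = (bigList L n).prod * t ∧ t ∣ n ∧
      (∀ l : ℕ, l.Prime → l ∣ t → sc l ≤ K0 L) ∧
      Nat.totient n = cval (bigList L n) (Nat.totient t) := by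
  obtain ⟨t, ht⟩ := bigList_prod_dvd L n
  have ht0 : 0 < t := Nat.pos_of_ne_zero fun h ↦ by rw [h, mul_zero] at ht; omega
  have htd : t ∣ n := ⟨(bigList L n).prod, by rw [mul_comm]; exact ht⟩
  have hsmall : ∀ l : ℕ, l.Prime → l ∣ t → sc l ≤ K0 L := by
    intro l hl hlt
    by_contra hbig
    rw [not_le] at hbig
    have hmem : l ∈ bigList L n :=
      mem_bigList.mpr ⟨Nat.mem_primeFactors.mpr ⟨hl, hlt.trans htd, by omega⟩, hbig⟩
    refine hsq l hl (by omega) ?_
    rw [sq, ht]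
    exact Nat.mul_dvd_mul (List.dvd_prod hmem) hlt
  refine ⟨t, ht0, ht, htd, hsmall, ?_⟩
  conv_lhs => rw [ht]
  refine totient_prod_mul _ t (bigList_sorted L n) fun q hq ↦
    ⟨Nat.prime_of_mem_primeFactors (mem_bigList.mp hq).1, fun hd ↦ ?_⟩
  have := hsmall q (Nat.prime_of_mem_primeFactors (mem_bigList.mp hq).1) hd
  have := (mem_bigList.mp hq).2
  omega

lemma kk_pos (L : ℕ) (hL : 1 ≤ L) : 1 ≤ kk L :=
  Nat.one_le_iff_ne_zero.mpr (Nat.ceil_pos.mpr (Real.rpow_pos_of_pos (by exact_mod_cast hL) _)).ne'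

lemma kk_le {L : ℕ} (hL : 1 ≤ L) : (kk L : ℝ) ≤ 2 * (L:ℝ) ^ (1/100 : ℝ) := by
  have h := Nat.ceil_lt_add_one (a := (L:ℝ) ^ (1/100 : ℝ)) (by positivity)
  have h1 : (1:ℝ) ≤ (L:ℝ) ^ (1/100 : ℝ) :=
    Real.one_le_rpow (by exact_mod_cast hL) (by norm_num)
  unfold kk
  linarith

/-- Levels satisfying the profile constraints decay geometrically, so there are few of them. -/
lemma ev_length_le_kk :
    ∀ᶠ L : ℕ in atTop, ∀ qs : List ℕ, qs.Pairwise (· > ·) →
      (∀ q ∈ qs, K0 L < sc q ∧ sc q ≤ L + 3) →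
      (∀ a q rest, qs = a ++ q :: rest → a.length < kk L →
        PhiK (kk L) rest ≤ (sc q : ℝ) + KA L) →
      qs.length ≤ kk L := by
  filter_upwards [ev_mul_rpow_le (a := 13/20) (b := 7/10) (by norm_num) 8,
    ev_log_le_rpow (b := 1/100) (by norm_num) 40,
    ev_const_le_rpow (b := 1/100) (by norm_num) 80, eventually_ge_atTop 4]
    with L hKA hlog hkk8 hL qs hsorted hscale hstep
  by_contra hlen
  rw [not_le] at hlen
  set σ : ℕ → ℝ := fun i ↦ (sc (qs.getD i 0) : ℝ) with hσ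
  have hK0 : (L:ℝ) ^ (7/10 : ℝ) ≤ K0 L := Nat.le_ceil _
  have hkkge : (L:ℝ) ^ (1/100 : ℝ) ≤ kk L := Nat.le_ceil _
  have hkk80 : (80:ℝ) ≤ kk L := by linarith
  have hkk2 : 2 ≤ kk L := by
    have : (2:ℝ) ≤ kk L := by linarith
    exact_mod_cast this
  have hbig : ∀ i, i < qs.length → (K0 L : ℝ) < σ i ∧ σ i ≤ (L:ℝ) + 3 := by
    intro i hi
    have := hscale qs[i] (List.getElem_mem hi)
    simp only [hσ, List.getD_eq_getElem _ _ hi]
    exact ⟨by exact_mod_cast this.1, by exact_mod_cast this.2⟩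
  have hstep2 : ∀ i, i + 2 ≤ kk L → 1.155 * σ (i + 2) ≤ σ i := by
    intro i hi
    have hi' : i < qs.length := by omega
    have hdec : qs = qs.take i ++ qs[i] :: qs.drop (i + 1) := by
      rw [List.cons_getElem_drop_succ, List.take_append_drop]
    have h := hstep _ _ _ hdec (by rw [List.length_take]; omega)
    have hlow : acoef 0 * σ (i + 1) + acoef 1 * σ (i + 2) ≤ PhiK (kk L) (qs.drop (i + 1)) := by
      unfold PhiK
      refine le_trans (le_of_eq ?_) (Finset.sum_le_sum_of_subset_of_nonneg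
        (Finset.range_subset_range.mpr hkk2)
        fun r _ _ ↦ mul_nonneg (acoef_nonneg r) (Nat.cast_nonneg _))
      rw [Finset.sum_range_succ, Finset.sum_range_one]
      simp [hσ, List.getD_eq_getElem?_getD, List.getElem?_drop]
    have hσi : σ i = (sc qs[i] : ℝ) := by simp [hσ, hi']
    rw [← hσi] at h
    have hb := (hbig (i + 2) (by omega)).1
    have hKA' : 8 * KA L ≤ σ (i + 2) := by unfold KA; linarith
    have hanti : σ (i + 2) ≤ σ (i + 1) := by
      simp only [hσ]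
      exact_mod_cast antitone_sc_getD hsorted (Nat.le_succ (i + 1))
    have hm := mul_le_mul_of_nonneg_left hanti (acoef_nonneg 0)
    have hpos : (0:ℝ) ≤ σ (i + 2) := Nat.cast_nonneg _
    have := mul_le_mul_of_nonneg_right acoef_zero_add_one hpos
    linarith
  have hgeo : ∀ t, 2 * t ≤ kk L → (1.155:ℝ) ^ t * σ (2 * t) ≤ σ 0 := by
    intro t
    induction t with
    | zero => intro _; simp
    | succ t ih =>
      intro ht
      refine le_trans ?_ (ih (by omega))
      rw [pow_succ, mul_assoc, show 2 * (t + 1) = 2 * t + 2 by ring]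
      exact mul_le_mul_of_nonneg_left (hstep2 (2 * t) (by omega)) (by positivity)
  set t := kk L / 2 with ht
  have h1 := hgeo t (by omega)
  have h2 := (hbig (2 * t) (by omega)).1
  have h3 := (hbig 0 (by omega)).2
  have hK1 : (1:ℝ) ≤ σ (2 * t) := by
    have : (1:ℝ) ≤ (L:ℝ) ^ (7/10 : ℝ) :=
      Real.one_le_rpow (by exact_mod_cast (by omega : 1 ≤ L)) (by norm_num)
    linarith
  have hpow : (1.155:ℝ) ^ t ≤ (L:ℝ) + 3 := by
    calc (1.155:ℝ) ^ t ≤ (1.155:ℝ) ^ t * σ (2 * t) := le_mul_of_one_le_right (by positivity) hK1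
      _ ≤ _ := by linarith
  have hlog' := Real.log_le_log (by positivity) hpow
  rw [Real.log_pow] at hlog'
  have h134 : (0.13:ℝ) ≤ Real.log 1.155 := by
    have := Real.one_sub_inv_le_log_of_pos (x := (1.155:ℝ)) (by norm_num)
    norm_num at this ⊢
    linarith
  have htk : (kk L : ℝ) ≤ 2 * (t:ℝ) + 1 := by
    exact_mod_cast (by omega : kk L ≤ 2 * t + 1)
  have hlogL : Real.log ((L:ℝ) + 3) ≤ Real.log L + 1 := by
    have hL4 : (4:ℝ) ≤ L := by exact_mod_cast hL
    calc Real.log ((L:ℝ) + 3) ≤ Real.log (2 * L) := Real.log_le_log (by linarith) (by linarith)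
      _ = Real.log 2 + Real.log L := Real.log_mul (by norm_num) (by linarith)
      _ ≤ _ := by linarith [Real.log_two_lt_d9]
  have h13 := mul_le_mul_of_nonneg_left h134 (Nat.cast_nonneg (α := ℝ) t)
  linarith

/-- Few integers `R * m ≤ M` have `R` a large prime and `m` in a given set. -/
lemma exists_count_top :
    ∃ C, 1 ≤ C ∧ ∀ (L M : ℕ) (a : ℝ) (T : Finset ℕ) (S : Finset ℕ) (g : ℕ → ℕ → ℕ),
      1 ≤ L → sc M ≤ L + 4 → 0 < a →
      (∀ v ∈ S, ∃ R m, R.Prime ∧ m ∈ T ∧ 0 < m ∧ R * m ≤ M ∧ a ≤ Real.log R ∧ g R m = v) →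
      (S.card : ℝ) ≤ (M:ℝ) * (C * (L:ℝ) ^ 6 / a) * ∑ m ∈ T, (1:ℝ) / m := by
  classical
  obtain ⟨C, hC1, hC⟩ := exists_prime_forms_count
  refine ⟨C * 5 ^ 6, by linarith, fun L M a T S g hL hsc ha hS ↦ ?_⟩
  have hL' : (1:ℝ) ≤ L := by exact_mod_cast hL
  set F : ℕ → Finset ℕ := fun m ↦
    (Icc 1 (M / m)).filter fun R ↦ R.Prime ∧ a ≤ Real.log R with hF
  set P := T.biUnion fun m ↦ (F m).image fun R ↦ (R, m) with hP
  have hsub : S ⊆ P.image fun x ↦ g x.1 x.2 := by
    intro v hv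
    obtain ⟨R, m, hR, hm, hm0, hRm, ha', hg⟩ := hS v hv
    refine Finset.mem_image.mpr ⟨(R, m), Finset.mem_biUnion.mpr ⟨m, hm,
      Finset.mem_image.mpr ⟨R, Finset.mem_filter.mpr ⟨Finset.mem_Icc.mpr ⟨hR.one_le, ?_⟩,
        hR, ha'⟩, rfl⟩⟩, hg⟩
    rw [Nat.le_div_iff_mul_le hm0]
    exact hRm
  have hcard : S.card ≤ ∑ m ∈ T, (F m).card :=
    (Finset.card_le_card hsub).trans (Finset.card_image_le.trans (Finset.card_biUnion_le.trans
      (Finset.sum_le_sum fun m _ ↦ Finset.card_image_le)))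
  calc (S.card : ℝ) ≤ ∑ m ∈ T, ((F m).card : ℝ) := by exact_mod_cast hcard
    _ ≤ ∑ m ∈ T, (M:ℝ) * (C * 5 ^ 6 * (L:ℝ) ^ 6 / a) * ((1:ℝ) / m) := by
        refine Finset.sum_le_sum fun m _ ↦ ?_
        rcases (F m).eq_empty_or_nonempty with h | ⟨R, hR⟩
        · rw [h, Finset.card_empty, Nat.cast_zero]; positivity
        obtain ⟨hRI, hRp, hRa⟩ := Finset.mem_filter.mp hR
        set N := M / m with hN
        have hRN := (Finset.mem_Icc.mp hRI).2
        have hN2 : 2 ≤ N := hRp.two_le.trans hRN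
        have hN2' : (2:ℝ) ≤ N := by exact_mod_cast hN2
        have hlN : 0 < Real.log N := Real.log_pos (by linarith)
        have haN : a ≤ Real.log N := hRa.trans
          (Real.log_le_log (by exact_mod_cast hRp.pos) (by exact_mod_cast hRN))
        have hloglog : Real.log (Real.log N) ≤ (L:ℝ) + 4 := by
          rw [Real.log_le_iff_le_exp hlN]
          refine (log_le_exp_sc N).trans (Real.exp_le_exp.mpr ?_)
          exact_mod_cast (sc_mono (Nat.div_le_self M m)).trans hsc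
        have hb := hC ((L:ℝ) + 4) N ∅ (by linarith) hN2 hloglog (by simp) (by simp)
        rw [Finset.card_empty, pow_one] at hb
        calc ((F m).card : ℝ) ≤ (((Icc 1 N).filter fun R ↦ R.Prime
              ∧ ∀ a ∈ (∅ : Finset ℕ), (a * R + 1).Prime).card : ℝ) := by
              refine Nat.cast_le.mpr (Finset.card_le_card fun x hx ↦ ?_)
              obtain ⟨h1, h2, -⟩ := Finset.mem_filter.mp hx
              exact Finset.mem_filter.mpr ⟨h1, h2, by simp⟩
          _ ≤ (N:ℝ) * (C * ((L:ℝ) + 4) ^ 6 / Real.log N) := hb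
          _ ≤ ((M:ℝ) / m) * (C * (5 * (L:ℝ)) ^ 6 / a) := by
              refine mul_le_mul (by rw [hN]; exact Nat.cast_div_le) ?_ (by positivity)
                (by positivity)
              gcongr
              linarith
          _ = _ := by ring
    _ = _ := by rw [← Finset.mul_sum]

end Vale.Agent.P031
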