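import Mathlib
import Vale.Agent.P031.DecompAux

/-!
The exceptional classes of totients: abnormal levels, large smooth parts, profile violations.
-/

namespace Vale.Agent.P031

open Finset Real Filter Topology

lemma mem_Vn_filter {z m : ℕ} [DecidablePred IsTot] :
    Vn z = ((Icc 1 z).filter IsTot).card ∧ (m ∈ (Icc 1 z).filter IsTot ↔
      (1 ≤ m ∧ m ≤ z) ∧ IsTot m) := by
  constructor
  · unfold Vn
    congr
  · simp

lemma inv_mul_le_split {a b L : ℝ} (ha : 0 < a) (hb : 0 < b) (hL : 0 < L) (hab : L ≤ a + b) :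
    1 / (a * b) ≤ 1 / L * (1 / a + 1 / b) := by
  rw [div_add_div _ _ ha.ne' hb.ne', div_mul_div_comm, one_mul, one_mul, mul_one,
    div_le_div_iff₀ (by positivity) (by positivity), one_mul]
  have := mul_le_mul_of_nonneg_right hab (by positivity : 0 ≤ a * b)
  linarith

lemma sum_range_inv_succ_le (n : ℕ) (hn : 1 ≤ n) :
    ∑ i ∈ Finset.range n, (1:ℝ) / ((i:ℝ) + 1) ≤ 1 + Real.log n := by
  have h : (harmonic n : ℝ) = ∑ i ∈ Finset.range n, (1:ℝ) / ((i:ℝ) + 1) := by
    simp [harmonic, one_div]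
  rw [← h]
  exact harmonic_le_one_add_log n

/-- The dyadic sum `∑ 1 / (log 2^i · log (N / 2^i))`. -/
lemma sum_inv_log_split {logN : ℝ} {K : ℕ} (hK : (K:ℝ) * Real.log 2 ≤ logN) (hlogN : 1 ≤ logN) :
    ∑ i ∈ Finset.range (K + 1),
        (1:ℝ) / ((((i:ℝ) + 1) * Real.log 2) * max 1 (logN - i * Real.log 2))
      ≤ 1 / logN * (4 * (1 + Real.log (2 * logN + 1))) := by
  have hl2 := Real.log_two_gt_d9
  have hl2' := Real.log_two_lt_d9
  calc ∑ i ∈ Finset.range (K + 1),
        (1:ℝ) / ((((i:ℝ) + 1) * Real.log 2) * max 1 (logN - i * Real.log 2))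
      ≤ ∑ i ∈ Finset.range (K + 1), 1 / logN *
          (1.45 * (1 / ((i:ℝ) + 1)) + 2.5 * (1 / (((K - i : ℕ) : ℝ) + 1))) := by
        refine Finset.sum_le_sum fun i hi ↦ ?_
        have hiK : i ≤ K := Nat.lt_succ_iff.mp (Finset.mem_range.mp hi)
        have hi0 : (0:ℝ) ≤ i := Nat.cast_nonneg i
        have ha : 0 < ((i:ℝ) + 1) * Real.log 2 := by positivity
        have hb : 0 < max 1 (logN - (i:ℝ) * Real.log 2) := lt_max_of_lt_left one_pos
        refine (inv_mul_le_split (L := logN) ha hb (by linarith) ?_).trans ?_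
        · have := le_max_right 1 (logN - (i:ℝ) * Real.log 2)
          linarith
        refine mul_le_mul_of_nonneg_left (add_le_add ?_ ?_) (one_div_nonneg.mpr (zero_le_one.trans hlogN))
        · rw [mul_one_div, div_le_div_iff₀ ha (by positivity)]
          calc 1 * ((i:ℝ) + 1) ≤ (1.45 * Real.log 2) * ((i:ℝ) + 1) := by
                gcongr; linarith
            _ = _ := by ring
        · rw [mul_one_div, div_le_div_iff₀ hb (by positivity), one_mul]
          set j : ℕ := K - i with hj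
          have hb' : (j:ℝ) * Real.log 2 ≤ logN - (i:ℝ) * Real.log 2 := by
            rw [hj, Nat.cast_sub hiK]; linarith
          rcases Nat.lt_or_ge j 2 with h | h
          · have : (j:ℝ) ≤ 1 := by exact_mod_cast (by omega : j ≤ 1)
            linarith [le_max_left 1 (logN - (i:ℝ) * Real.log 2)]
          · have h2 : (2:ℝ) ≤ j := by exact_mod_cast h
            have := mul_le_mul_of_nonneg_left hl2.le (Nat.cast_nonneg (α := ℝ) j)
            linarith [le_max_right 1 (logN - (i:ℝ) * Real.log 2)]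
    _ = 1 / logN * (1.45 * ∑ i ∈ Finset.range (K + 1), (1:ℝ) / ((i:ℝ) + 1)
          + 2.5 * ∑ i ∈ Finset.range (K + 1), (1:ℝ) / ((i:ℝ) + 1)) := by
        have hrefl : ∑ i ∈ Finset.range (K + 1), (1:ℝ) / (((K - i : ℕ) : ℝ) + 1)
            = ∑ i ∈ Finset.range (K + 1), (1:ℝ) / ((i:ℝ) + 1) := by
          rw [← Finset.sum_range_reflect (fun i ↦ (1:ℝ) / ((i:ℝ) + 1)) (K + 1)]
          exact Finset.sum_congr rfl fun i _ ↦ by simp
        rw [← Finset.mul_sum, Finset.sum_add_distrib, ← Finset.mul_sum, ← Finset.mul_sum, hrefl]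
    _ ≤ _ := by
        have hs := sum_range_inv_succ_le (K + 1) (by omega)
        have hlog : Real.log ((K + 1 : ℕ) : ℝ) ≤ Real.log (2 * logN + 1) := by
          refine Real.log_le_log (by positivity) ?_
          push_cast
          have := mul_le_mul_of_nonneg_left hl2.le (Nat.cast_nonneg (α := ℝ) K)
          have h0 : (0:ℝ) ≤ K := Nat.cast_nonneg K
          linarith
        have h1 : 0 ≤ 1 + Real.log (2 * logN + 1) := by
          linarith [Real.log_nonneg (by linarith : (1:ℝ) ≤ 2 * logN + 1)]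
        refine mul_le_mul_of_nonneg_left ?_ (by positivity)
        linarith

lemma one_div_log_le {N : ℕ} (h : 0 < sc N) :
    1 / Real.log N ≤ Real.exp 1 / Real.exp (sc N) := by
  have h1 := exp_sc_pred_lt h
  have h2 : 0 < Real.log N := lt_trans (Real.exp_pos _) h1
  rw [div_le_div_iff₀ h2 (Real.exp_pos _), one_mul]
  calc Real.exp (sc N) = Real.exp 1 * Real.exp ((sc N : ℝ) - 1) := by
        rw [← Real.exp_add]; ring_nf
    _ ≤ _ := by gcongr

/-- Totients with an abnormal level are negligible relative to the a priori bound `B`. -/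
lemma ev_abnormal_branch :
    ∀ᶠ L : ℕ in atTop, ∀ (N : ℕ) (B : ℝ) (S : Finset ℕ), sc N ≤ L + 1 → L ≤ sc N + 1 → 0 ≤ B →
      (∀ z : ℕ, z ≤ N → (Vn z : ℝ) ≤ B * z / Real.log ((z:ℝ) + 3)) →
      (∀ v ∈ S, 1 ≤ v ∧ v ≤ N ∧ ∃ q m, q.Prime ∧ K0 L < sc q ∧ ¬ Normal L q ∧ IsTot m ∧
        v = (q - 1) * m) →
      (S.card : ℝ) ≤ B * N / Real.exp (sc N) * Real.exp (-((L:ℝ) ^ (1/11 : ℝ))) := by
  filter_upwards [ev_abnormal_count, eventually_ge_atTop 8,
    ev_poly_mul_exp (a := 1/11) (b := 1/10) (by norm_num) (by norm_num) 88 1 1 one_pos]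
    with L hab hL hpoly N B S hscN hLN hB hV hS
  classical
  have hL8 : (8:ℝ) ≤ L := by exact_mod_cast hL
  have hscpos : 0 < sc N := by omega
  have hlogN : 1 ≤ Real.log N := by
    refine le_trans (Real.one_le_exp ?_) (exp_sc_pred_lt hscpos).le
    have : (1:ℝ) ≤ (sc N : ℝ) := by exact_mod_cast hscpos
    linarith
  have hN2 : 2 ≤ N := by
    by_contra h
    have h1 : Real.log N ≤ (N:ℝ) := Real.log_le_self (Nat.cast_nonneg _)
    have h2 : (N:ℝ) ≤ 1 := by exact_mod_cast (by omega : N ≤ 1)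
    interval_cases N <;> norm_num at hlogN
  set Z := Real.exp (-((L:ℝ) ^ (1/10 : ℝ))) with hZ
  set Bad := (Icc 2 (N + 1)).filter fun q ↦ q.Prime ∧ K0 L < sc q ∧ ¬ Normal L q with hBad
  have hsub : S ⊆ Bad.biUnion fun q ↦
      ((Icc 1 (N / (q - 1))).filter IsTot).image fun m ↦ (q - 1) * m := by
    intro v hv
    obtain ⟨hv1, hvN, q, m, hq, hqK, hqn, hm, rfl⟩ := hS v hv
    have hq2 := hq.two_le
    have hm0 : 1 ≤ m := by
      rcases Nat.eq_zero_or_pos m with h | h
      · rw [h, mul_zero] at hv1; omega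
      · exact h
    have hqN : q - 1 ≤ N := (Nat.le_mul_of_pos_right _ hm0).trans hvN
    refine Finset.mem_biUnion.mpr ⟨q, Finset.mem_filter.mpr
      ⟨Finset.mem_Icc.mpr ⟨hq2, by omega⟩, hq, hqK, hqn⟩,
      Finset.mem_image.mpr ⟨m, Finset.mem_filter.mpr ⟨Finset.mem_Icc.mpr ⟨hm0, ?_⟩, hm⟩, rfl⟩⟩
    rw [Nat.le_div_iff_mul_le (by omega), mul_comm]
    exact hvN
  have h1 : (S.card : ℝ) ≤ ∑ q ∈ Bad, (Vn (N / (q - 1)) : ℝ) := by
    have := (Finset.card_le_card hsub).trans (Finset.card_biUnion_le.trans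
      (Finset.sum_le_sum fun q _ ↦ Finset.card_image_le))
    have h' : ∀ q : ℕ, ((Icc 1 (N / (q - 1))).filter IsTot).card = Vn (N / (q - 1)) :=
      fun q ↦ (mem_Vn_filter (m := 0)).1.symm
    simp only [h'] at this
    exact_mod_cast this
  set K := Nat.log 2 N with hK
  have hKle : (K:ℝ) * Real.log 2 ≤ Real.log N := by
    rw [← Real.log_pow]
    refine Real.log_le_log (by positivity) ?_
    exact_mod_cast Nat.pow_log_le_self 2 (by omega : N ≠ 0)
  have hKlt : N < 2 ^ (K + 1) := Nat.lt_pow_succ_log_self (by norm_num) N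
  have h2 : ∑ q ∈ Bad, (Vn (N / (q - 1)) : ℝ) ≤ ∑ i ∈ Finset.range (K + 1),
      ∑ q ∈ Bad.filter (fun q ↦ 2 ^ i < q ∧ q ≤ 2 ^ (i + 1)), (Vn (N / (q - 1)) : ℝ) :=
    sum_dyadic_le Bad (K + 1) _ (fun _ _ ↦ Nat.cast_nonneg _) fun q hq ↦ by
      have := Finset.mem_Icc.mp (Finset.mem_filter.mp hq).1
      exact ⟨this.1, by omega⟩
  have h3 : ∀ i ∈ Finset.range (K + 1),
      ∑ q ∈ Bad.filter (fun q ↦ 2 ^ i < q ∧ q ≤ 2 ^ (i + 1)), (Vn (N / (q - 1)) : ℝ)
      ≤ B * N * Z * (1 / ((((i:ℝ) + 1) * Real.log 2)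
          * max 1 (Real.log N - i * Real.log 2))) := by
    intro i hi
    have hiK : i ≤ K := Nat.lt_succ_iff.mp (Finset.mem_range.mp hi)
    set Si := Bad.filter fun q ↦ 2 ^ i < q ∧ q ≤ 2 ^ (i + 1) with hSi
    rcases Si.eq_empty_or_nonempty with he | ⟨q₀, hq₀⟩
    · rw [he, Finset.sum_empty]; positivity
    have hQN : 2 ^ i ≤ N := (Nat.pow_le_pow_right (by norm_num) hiK).trans
      (Nat.pow_log_le_self 2 (by omega))
    set Q := 2 ^ i with hQ
    have hQ2 : 2 ^ (i + 1) = 2 * Q := by rw [hQ, pow_succ]; ring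
    obtain ⟨hq₀B, hq₀1, hq₀2⟩ := Finset.mem_filter.mp hq₀
    have hscQ : sc (2 * Q) ≤ L + 3 := by
      have h1 := sc_two_mul_le hN2
      have h2 := sc_mono (Nat.mul_le_mul_left 2 hQN)
      omega
    have hKQ : K0 L ≤ sc (2 * Q) := by
      have h1 := (Finset.mem_filter.mp hq₀B).2.2.1
      have h2 := sc_mono (hQ2 ▸ hq₀2)
      omega
    have hcnt := hab Q Si hscQ hKQ fun q hq ↦ by
      obtain ⟨hqB, hlo, hhi⟩ := Finset.mem_filter.mp hq
      exact ⟨(Finset.mem_filter.mp hqB).2.1, hlo, hQ2 ▸ hhi, (Finset.mem_filter.mp hqB).2.2.2⟩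
    have hQ0 : 0 < Q := Nat.two_pow_pos i
    set z := N / Q with hz
    have hmono : ∀ q ∈ Si, (Vn (N / (q - 1)) : ℝ) ≤ B * z / Real.log ((z:ℝ) + 3) := by
      intro q hq
      obtain ⟨hqB, hlo, hhi⟩ := Finset.mem_filter.mp hq
      refine le_trans ?_ (hV z (Nat.div_le_self _ _))
      have hle : N / (q - 1) ≤ z := Nat.div_le_div_left (by omega) hQ0
      have := Finset.card_le_card (Finset.filter_subset_filter IsTot
        (Finset.Icc_subset_Icc le_rfl hle) : (Icc 1 (N / (q - 1))).filter IsTot ⊆ _)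
      rw [← (mem_Vn_filter (m := 0)).1, ← (mem_Vn_filter (m := 0)).1] at this
      exact_mod_cast this
    have hz3 : max 1 (Real.log N - i * Real.log 2) ≤ Real.log ((z:ℝ) + 3) := by
      refine max_le ?_ ?_
      · rw [Real.le_log_iff_exp_le (by positivity)]
        linarith [Real.exp_one_lt_d9, (Nat.cast_nonneg z : (0:ℝ) ≤ z)]
      · have hNz : (N:ℝ) ≤ ((z:ℝ) + 3) * (Q:ℝ) := by
          have : N < (z + 1) * Q := by
            rw [mul_comm]
            exact Nat.lt_mul_div_succ N hQ0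
          have h' : (N:ℝ) < ((z:ℝ) + 1) * (Q:ℝ) := by exact_mod_cast this
          have hQp : (0:ℝ) ≤ Q := Nat.cast_nonneg Q
          linarith
        have := Real.log_le_log (by exact_mod_cast (by omega : 0 < N)) hNz
        rw [Real.log_mul (by positivity) (by exact_mod_cast hQ0.ne'), hQ] at this
        push_cast at this
        rw [Real.log_pow] at this
        linarith
    have hlog2Q : Real.log ((2 * Q : ℕ) : ℝ) = ((i:ℝ) + 1) * Real.log 2 := by
      rw [← hQ2]; push_cast; rw [Real.log_pow]; push_cast; ring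
    have hl2 := Real.log_two_gt_d9
    calc ∑ q ∈ Si, (Vn (N / (q - 1)) : ℝ)
        ≤ (Si.card : ℝ) * (B * z / Real.log ((z:ℝ) + 3)) := by
          refine (Finset.sum_le_sum hmono).trans (le_of_eq ?_)
          rw [Finset.sum_const, nsmul_eq_mul]
      _ ≤ ((Q:ℝ) / Real.log ((2 * Q : ℕ) : ℝ) * Z) * (B * z / Real.log ((z:ℝ) + 3)) := by
          refine mul_le_mul_of_nonneg_right hcnt (div_nonneg (by positivity) ?_)
          exact le_trans (le_trans zero_le_one (le_max_left _ _)) hz3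
      _ = B * ((Q:ℝ) * z) * Z * (1 / ((((i:ℝ) + 1) * Real.log 2) * Real.log ((z:ℝ) + 3))) := by
          rw [hlog2Q]; field_simp
      _ ≤ _ := by
          have hQz : (Q:ℝ) * z ≤ N := by exact_mod_cast Nat.mul_div_le N Q
          have hmax : 0 < max 1 (Real.log N - i * Real.log 2) := lt_max_of_lt_left one_pos
          have hlz : 0 < Real.log ((z:ℝ) + 3) := lt_of_lt_of_le hmax hz3
          refine mul_le_mul (mul_le_mul_of_nonneg_right (mul_le_mul_of_nonneg_left hQz hB)
            (Real.exp_pos _).le) ?_ (by positivity) (by positivity)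
          exact one_div_le_one_div_of_le (by positivity)
            (mul_le_mul_of_nonneg_left hz3 (by positivity))
  have hsplit := sum_inv_log_split hKle hlogN
  calc (S.card : ℝ) ≤ ∑ i ∈ Finset.range (K + 1), B * N * Z * (1 / ((((i:ℝ) + 1) * Real.log 2)
          * max 1 (Real.log N - i * Real.log 2))) := h1.trans (h2.trans (Finset.sum_le_sum h3))
    _ ≤ B * N * Z * (1 / Real.log N * (4 * (1 + Real.log (2 * Real.log N + 1)))) := by
        rw [← Finset.mul_sum]
        gcongr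
    _ ≤ B * N * Z * (Real.exp 1 / Real.exp (sc N) * (4 * ((L:ℝ) + 5))) := by
        refine mul_le_mul_of_nonneg_left (mul_le_mul (one_div_log_le hscpos)
          (mul_le_mul_of_nonneg_left ?_ (by norm_num)) ?_ (by positivity)) (by positivity)
        swap
        · linarith [Real.log_nonneg (by linarith : (1:ℝ) ≤ 2 * Real.log N + 1)]
        · have h1 : Real.log (2 * Real.log N + 1) ≤ Real.log (3 * Real.exp ((L:ℝ) + 1)) := by
            refine Real.log_le_log (by linarith) ?_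
            have : Real.log N ≤ Real.exp ((L:ℝ) + 1) :=
              (log_le_exp_sc N).trans (Real.exp_le_exp.mpr (by exact_mod_cast hscN))
            linarith
          rw [Real.log_mul (by norm_num) (Real.exp_ne_zero _), Real.log_exp] at h1
          have : Real.log 3 ≤ 2 := by
            have := Real.log_le_sub_one_of_pos (show (0:ℝ) < 3 by norm_num)
            linarith
          linarith
    _ = B * N / Real.exp (sc N) * ((4 * Real.exp 1 * ((L:ℝ) + 5)) * Z) := by ring
    _ ≤ _ := by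
        refine mul_le_mul_of_nonneg_left ?_ (by positivity)
        simp only [one_mul, pow_one] at hpoly
        refine le_trans ?_ hpoly
        rw [hZ]
        refine mul_le_mul_of_nonneg_right ?_ (Real.exp_pos _).le
        calc 4 * Real.exp 1 * ((L:ℝ) + 5) ≤ 4 * 3 * ((L:ℝ) + 5) := by
              gcongr; linarith [Real.exp_one_lt_d9]
          _ ≤ _ := by linarith

/-- Totients whose preimage has a huge smooth divisor are negligible. -/
lemma exists_smooth_branch :
    ∃ C, 0 ≤ C ∧ ∀ (L M : ℕ) (S : Finset ℕ), 2 ≤ L →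
      (∀ v ∈ S, ∃ n s d, Nat.totient n = v ∧ 1 ≤ n ∧ n ≤ M ∧ s ≤ L + 2 ∧ d ∣ n ∧
        (∀ l : ℕ, l.Prime → l ∣ d → sc l ≤ s) ∧ (L:ℝ) ^ 3 * Real.exp s ≤ Real.log d) →
      (S.card : ℝ) ≤ ((L:ℝ) + 3) * ((M:ℝ)
        * Real.exp (-((L:ℝ) ^ 3 / 2) + 15 * ((L:ℝ) + 4 + C))) := by
  obtain ⟨C, hC0, hC⟩ := exists_smooth_tail
  refine ⟨C, hC0, fun L M S hL hS ↦ ?_⟩
  classical
  set T : ℕ → Finset ℕ := fun s ↦ (Icc 1 M).filter fun d ↦
    (∀ l : ℕ, l.Prime → l ∣ d → sc l ≤ s) ∧ (L:ℝ) ^ 3 * Real.exp s ≤ Real.log d with hT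
  have hsub : S ⊆ (Finset.range (L + 3)).biUnion fun s ↦ (T s).biUnion fun d ↦
      ((Icc 1 M).filter fun n ↦ d ∣ n).image Nat.totient := by
    intro v hv
    obtain ⟨n, s, d, hv', hn1, hnM, hs, hd, h1, h2⟩ := hS v hv
    refine Finset.mem_biUnion.mpr ⟨s, Finset.mem_range.mpr (by omega),
      Finset.mem_biUnion.mpr ⟨d, Finset.mem_filter.mpr ⟨Finset.mem_Icc.mpr
        ⟨Nat.pos_of_dvd_of_pos hd hn1, (Nat.le_of_dvd hn1 hd).trans hnM⟩, h1, h2⟩,
        Finset.mem_image.mpr ⟨n, Finset.mem_filter.mpr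
          ⟨Finset.mem_Icc.mpr ⟨hn1, hnM⟩, hd⟩, hv'⟩⟩⟩
  have hcard : (S.card : ℝ) ≤ ∑ s ∈ Finset.range (L + 3), ∑ d ∈ T s, (M:ℝ) * ((1:ℝ) / d) := by
    calc (S.card : ℝ) ≤ ∑ s ∈ Finset.range (L + 3), ∑ d ∈ T s, ((M / d : ℕ) : ℝ) := by
          have := (Finset.card_le_card hsub).trans (Finset.card_biUnion_le.trans
            (Finset.sum_le_sum fun s _ ↦ Finset.card_biUnion_le.trans
              (Finset.sum_le_sum fun d _ ↦ Finset.card_image_le.trans (card_dvd_le d M).le)))
          exact_mod_cast this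
      _ ≤ _ := by
          refine Finset.sum_le_sum fun s _ ↦ Finset.sum_le_sum fun d _ ↦ ?_
          rw [mul_one_div]
          exact Nat.cast_div_le
  refine hcard.trans ?_
  calc ∑ s ∈ Finset.range (L + 3), ∑ d ∈ T s, (M:ℝ) * ((1:ℝ) / d)
      ≤ ∑ _s ∈ Finset.range (L + 3),
          (M:ℝ) * Real.exp (-((L:ℝ) ^ 3 / 2) + 15 * ((L:ℝ) + 4 + C)) := by
        refine Finset.sum_le_sum fun s hs ↦ ?_
        rw [← Finset.mul_sum]
        refine mul_le_mul_of_nonneg_left ?_ (Nat.cast_nonneg M)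
        have hs' : (s:ℝ) ≤ (L:ℝ) + 2 := by
          have : s ≤ L + 2 := by have := Finset.mem_range.mp hs; omega
          exact_mod_cast this
        refine (hC (2 * Real.exp s) ((L:ℝ) + 4) ((L:ℝ) ^ 3 * Real.exp s) (T s) ?_ (by positivity)
          ?_ fun d hd ↦ ?_).trans_eq ?_
        · linarith [Real.one_le_exp (Nat.cast_nonneg (α := ℝ) s)]
        · calc 2 * Real.exp (s:ℝ) ≤ Real.exp 2 * Real.exp ((L:ℝ) + 2) := by
                gcongr
                linarith [Real.add_one_le_exp (2:ℝ)]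
            _ = _ := by rw [← Real.exp_add]; ring_nf
        · obtain ⟨hdI, h1, h2⟩ := Finset.mem_filter.mp hd
          have hd1 := (Finset.mem_Icc.mp hdI).1
          refine ⟨by omega, fun l hl hld ↦ ?_, h2⟩
          have := sc_le_iff.mp (h1 l hl hld)
          linarith [Real.exp_pos (s:ℝ)]
        · congr 1
          field_simp
    _ = _ := by rw [Finset.sum_const, Finset.card_range, nsmul_eq_mul]; push_cast; ring

end Vale.Agent.P031
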