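import Mathlib
import Vale.Agent.P031.Branches

/-!
Totients violating a profile constraint are negligible.
-/

namespace Vale.Agent.P031

open Finset Real Filter Topology

/-- Scale below which profile weights are trivial. -/
noncomputable def sCut (L : ℕ) : ℕ := ⌈ee L⌉₊

/-- Error allowed in profile counts. -/
noncomputable def profErr (L : ℕ) : ℝ := ((kk L : ℝ) + 1) * ((sCut L : ℝ) + 2 * ee L) + 1

/-- Profile scales: padded by zeros beyond `kk L`. -/
noncomputable def padTau (L : ℕ) (g : ℕ → ℕ) (r : ℕ) : ℕ := if r < kk L then g (r + 1) else 0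

lemma omIoc_prodPred_ge {L : ℕ} (a b : ℕ) :
    ∀ l : List ℕ, (∀ q ∈ l, Normal L q) →
      ((l.map fun q ↦ ((min b (sc q) : ℕ) : ℝ)).sum) - (l.length : ℝ) * ((a:ℝ) + 2 * ee L)
        ≤ omIoc a b (prodPred l) := by
  intro l
  induction l with
  | nil => intro _; simp [prodPred, omIoc_one]
  | cons q t ih =>
    intro h
    have hq := h q List.mem_cons_self
    have ht := ih fun x hx ↦ h x (List.mem_cons_of_mem _ hx)
    have hq0 : q - 1 ≠ 0 := by have := hq.prime.two_le; omega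
    rw [prodPred_cons, omIoc_mul a b hq0
      (prodPred_ne_zero fun x hx ↦ (h x (List.mem_cons_of_mem _ hx)).prime)]
    have := hq.omIoc_ge a b
    simp only [List.map_cons, List.sum_cons, List.length_cons]
    push_cast at this ht ⊢
    linarith

/-- Lower bound for the profile of the value of a list of normal levels. -/
lemma omIoc_cval_ge {L b : ℕ} (a : ℕ) {q : ℕ} {rest : List ℕ} {w : ℕ} (hw : w ≠ 0)
    (h : ∀ x ∈ q :: rest, Normal L x) :
    ((min b (sc q) : ℕ) : ℝ)
        + ∑ i ∈ Finset.range (kk L), ((min b (sc (rest.getD i 0)) : ℕ) : ℝ)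
        - ((kk L : ℝ) + 1) * ((a:ℝ) + 2 * ee L)
      ≤ omIoc a b (cval (q :: rest) w) := by
  set l := q :: rest.take (kk L) with hl
  have hmem : ∀ x ∈ l, x ∈ q :: rest := by
    intro x hx
    rcases List.mem_cons.mp hx with rfl | hx
    · exact List.mem_cons_self
    · exact List.mem_cons_of_mem _ (List.mem_of_mem_take hx)
  have h1 := omIoc_prodPred_ge a b l fun x hx ↦ h x (hmem x hx)
  have hsum : ∑ i ∈ Finset.range (kk L), ((min b (sc (rest.getD i 0)) : ℕ) : ℝ)
      = ((rest.take (kk L)).map fun q ↦ ((min b (sc q) : ℕ) : ℝ)).sum :=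
    sum_getD_eq (fun x ↦ ((min b (sc x) : ℕ) : ℝ)) (by simp [sc_zero]) rest (kk L)
  rw [hl, List.map_cons, List.sum_cons, ← hsum, ← hl] at h1
  have hlen : (l.length : ℝ) ≤ (kk L : ℝ) + 1 := by
    have : l.length ≤ kk L + 1 := by simp [hl]
    exact_mod_cast this
  have hnn : (0:ℝ) ≤ (a:ℝ) + 2 * ee L := by unfold ee; positivity
  have h2 := mul_le_mul_of_nonneg_right hlen hnn
  have hsplit : omIoc a b (prodPred l) ≤ omIoc a b (cval (q :: rest) w) := by
    have hne1 : prodPred l ≠ 0 := prodPred_ne_zero fun x hx ↦ (h x (hmem x hx)).prime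
    have hne2 : prodPred (rest.drop (kk L)) ≠ 0 := prodPred_ne_zero fun x hx ↦
      (h x (List.mem_cons_of_mem _ (List.mem_of_mem_drop hx))).prime
    have hsp : prodPred (q :: rest) = prodPred l * prodPred (rest.drop (kk L)) := by
      rw [hl, ← prodPred_append, List.cons_append, List.take_append_drop]
    rw [cval, hsp, omIoc_mul a b (mul_ne_zero hne1 hne2) hw, omIoc_mul a b hne1 hne2]
    omega
  have h3 : (omIoc a b (prodPred l) : ℝ) ≤ omIoc a b (cval (q :: rest) w) := by
    exact_mod_cast hsplit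
  linarith

lemma sc_prime_dvd_cval {q : ℕ} {rest : List ℕ} {w s : ℕ}
    (hs : ∀ x ∈ q :: rest, x.Prime ∧ sc x ≤ s)
    (hw : ∀ l : ℕ, l.Prime → l ∣ w → sc l ≤ s) {l : ℕ} (hl : l.Prime)
    (hd : l ∣ cval (q :: rest) w) : sc l ≤ s := by
  rcases (Nat.Prime.dvd_mul hl).mp hd with h | h
  · obtain ⟨a, ha, hla⟩ := (Prime.dvd_prod_iff hl.prime).mp h
    obtain ⟨x, hx, rfl⟩ := List.mem_map.mp ha
    obtain ⟨hxp, hxs⟩ := hs x hx
    have h2 := hxp.two_le
    exact (sc_mono ((Nat.le_of_dvd (by omega) hla).trans (Nat.sub_le x 1))).trans hxs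
  · exact hw l hl h

lemma exp_sc_le_lpf {L N q0 : ℕ} (hL : 1 ≤ L) (hq : Normal L q0)
    (hhead : Real.exp (sc N) ≤ (L:ℝ) ^ 4 * Real.log q0) :
    Real.exp (sc N) / (L:ℝ) ^ 7 ≤ Real.log (lpf (q0 - 1) : ℕ) := by
  have hL' : (1:ℝ) ≤ L := by exact_mod_cast hL
  rw [div_le_iff₀ (by positivity)]
  calc Real.exp (sc N) ≤ (L:ℝ) ^ 4 * Real.log q0 := hhead
    _ ≤ (L:ℝ) ^ 4 * ((L:ℝ) ^ 3 * Real.log (lpf (q0 - 1) : ℕ)) :=
        mul_le_mul_of_nonneg_left ((log_le_exp_sc q0).trans hq.top) (by positivity)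
    _ = _ := by ring

/-- The numerical margin used for profile violations. -/
lemma ev_violation_margin (C : ℝ) : ∀ᶠ L : ℕ in atTop,
    C + (3 * (kk L : ℝ) + 30) * (Real.log L + C) + C * ((kk L : ℝ) + 1) ^ 2
      + profErr L * ((kk L : ℝ) + 1) + (L:ℝ) ^ (1/10:ℝ) ≤ KA L := by
  filter_upwards [ev_log_le_rpow (b := 1/100) (by norm_num) 1,
    ev_mul_rpow_le (a := 63/100) (b := 13/20) (by norm_num) (500 * (|C| + 1)),
    eventually_ge_atTop 1] with L hlog hdom hL
  have hL' : (1:ℝ) ≤ L := by exact_mod_cast hL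
  have hL0 : (0:ℝ) ≤ L := by linarith
  rw [one_mul] at hlog
  set x := (L:ℝ) ^ (1/100:ℝ) with hx
  have hx1 : 1 ≤ x := Real.one_le_rpow hL' (by norm_num)
  have hk : (kk L : ℝ) ≤ 2 * x := kk_le hL
  have hk0 : (0:ℝ) ≤ kk L := Nat.cast_nonneg _
  have he1 : 1 ≤ ee L := Real.one_le_rpow hL' (by norm_num)
  have hs : (sCut L : ℝ) ≤ 2 * ee L := by
    have := Nat.ceil_lt_add_one (a := ee L) (by linarith)
    unfold sCut
    linarith
  have hC : C ≤ |C| := le_abs_self C
  have hC0 : 0 ≤ |C| := abs_nonneg C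
  have hprof : profErr L ≤ 13 * (x * ee L) := by
    unfold profErr
    have h1 : ((kk L : ℝ) + 1) * ((sCut L : ℝ) + 2 * ee L) ≤ (3 * x) * (4 * ee L) := by
      gcongr
      · linarith
      · linarith
    have h2 : 1 ≤ x * ee L := one_le_mul_of_one_le_of_one_le hx1 he1
    linarith
  have hexE : x * x * ee L ≤ (L:ℝ) ^ (63/100:ℝ) := by
    unfold ee
    rw [hx, ← Real.rpow_add (by linarith), ← Real.rpow_add (by linarith)]
    exact Real.rpow_le_rpow_of_exponent_le hL' (by norm_num)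
  have hxxe : x * x ≤ x * x * ee L := le_mul_of_one_le_right (by positivity) he1
  have hxx : x ≤ x * x := le_mul_of_one_le_right (by linarith) hx1
  have h10 : (L:ℝ) ^ (1/10:ℝ) ≤ (L:ℝ) ^ (63/100:ℝ) :=
    Real.rpow_le_rpow_of_exponent_le hL' (by norm_num)
  have t1 : (3 * (kk L : ℝ) + 30) * (Real.log L + C) ≤ 36 * x * ((|C| + 1) * x) := by
    have hl : Real.log L + C ≤ (|C| + 1) * x := by
      have : |C| * 1 ≤ |C| * x := mul_le_mul_of_nonneg_left hx1 hC0
      linarith
    calc (3 * (kk L : ℝ) + 30) * (Real.log L + C)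
        ≤ (3 * (kk L : ℝ) + 30) * ((|C| + 1) * x) := by gcongr
      _ ≤ 36 * x * ((|C| + 1) * x) := by gcongr; linarith
  have t2 : C * ((kk L : ℝ) + 1) ^ 2 ≤ |C| * (3 * x) ^ 2 := by
    calc C * ((kk L : ℝ) + 1) ^ 2 ≤ |C| * ((kk L : ℝ) + 1) ^ 2 := by gcongr
      _ ≤ _ := by gcongr; linarith
  have t3 : profErr L * ((kk L : ℝ) + 1) ≤ (13 * (x * ee L)) * (3 * x) := by
    gcongr
    linarith
  have hrest : (|C| + 1) * (x * x) ≤ (|C| + 1) * (L:ℝ) ^ (63/100:ℝ) :=
    mul_le_mul_of_nonneg_left (hxxe.trans hexE) (by linarith)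
  have h63 : 1 ≤ (L:ℝ) ^ (63/100:ℝ) := Real.one_le_rpow hL' (by norm_num)
  have hC63 : |C| * 1 ≤ |C| * (L:ℝ) ^ (63/100:ℝ) := mul_le_mul_of_nonneg_left h63 hC0
  unfold KA
  linarith

/-- A witness of a violated constraint with `i` levels above the violated one. -/
def Violation (L N v : ℕ) : Prop :=
  ∃ a q rest w, v = cval (a ++ q :: rest) w ∧ w ≠ 0 ∧
    (∀ l : ℕ, l.Prime → l ∣ w → sc l ≤ K0 L) ∧
    (a ++ q :: rest).Pairwise (· > ·) ∧
    (∀ x ∈ a ++ q :: rest, Normal L x ∧ K0 L < sc x ∧ sc x ≤ L + 3) ∧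
    a.length < kk L ∧ Real.exp (sc N) ≤ (L:ℝ) ^ 4 * Real.log ((a ++ q :: rest).headD 0 : ℕ) ∧
    (sc q : ℝ) + KA L < PhiK (kk L) rest

/-- Totients violating a profile constraint are negligible. -/
theorem ev_violation_branch :
    ∀ᶠ L : ℕ in atTop, ∀ (N : ℕ) (S : Finset ℕ), sc N ≤ L + 1 →
      (∀ v ∈ S, 1 ≤ v ∧ v ≤ N ∧ Violation L N v) →
      (S.card : ℝ) ≤ (N:ℝ) / Real.exp (sc N) * Real.exp (-((L:ℝ) ^ (1/10 : ℝ))) := by
  obtain ⟨C1, hC11, hC1⟩ := exists_profile_rare
  obtain ⟨C2, hC21, hC2⟩ := exists_count_top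
  obtain ⟨C4, hC40, hC4⟩ := exists_abs_sum_primesSc
  filter_upwards [ev_violation_margin (C1 + 2 * C2 + 2 * C4 + 20), eventually_ge_atTop 8,
    ev_mul_rpow_le (a := 1/100) (b := 3/5) (by norm_num) 8]
    with L hmargin hL hk8 N S hscN hS
  classical
  have hL8 : (8:ℝ) ≤ L := by exact_mod_cast hL
  have hL1 : (1:ℝ) ≤ L := by linarith
  set E := profErr L with hE
  set s0 := sCut L with hs0
  have hE0 : 0 ≤ E := by rw [hE]; unfold profErr ee; positivity
  have hs0big : 2 * ((kk L : ℝ) + 1) ≤ Real.exp (Real.exp (s0:ℝ)) := by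
    have h1 : ee L ≤ (s0:ℝ) := Nat.le_ceil _
    have h2 : (kk L : ℝ) ≤ 2 * (L:ℝ) ^ (1/100:ℝ) := kk_le (by omega)
    have h3 : (1:ℝ) ≤ (L:ℝ) ^ (1/100:ℝ) := Real.one_le_rpow hL1 (by norm_num)
    have h4 := Real.add_one_le_exp (s0:ℝ)
    have h5 := Real.add_one_le_exp (Real.exp (s0:ℝ))
    have h6 : ee L = (L:ℝ) ^ (3/5:ℝ) := rfl
    linarith
  set U : ℝ := 2 * ((L:ℝ) + 3 + C4) with hU
  have hU1 : 1 ≤ U := by rw [hU]; linarith
  set D : Finset (Fin (kk L + 1) → ℕ) :=
    Fintype.piFinset fun _ ↦ Finset.range (L + 4) with hD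
  set ext : (Fin (kk L + 1) → ℕ) → ℕ → ℕ :=
    fun g r ↦ if h : r < kk L + 1 then g ⟨r, h⟩ else 0 with hext
  set P : ℕ → (Fin (kk L + 1) → ℕ) → Finset ℕ := fun i g ↦ S.filter fun v ↦
    ∃ a q rest w, v = cval (a ++ q :: rest) w ∧ w ≠ 0 ∧
      (∀ l : ℕ, l.Prime → l ∣ w → sc l ≤ K0 L) ∧
      (a ++ q :: rest).Pairwise (· > ·) ∧
      (∀ x ∈ a ++ q :: rest, Normal L x ∧ K0 L < sc x ∧ sc x ≤ L + 3) ∧
      a.length = i ∧ Real.exp (sc N) ≤ (L:ℝ) ^ 4 * Real.log ((a ++ q :: rest).headD 0 : ℕ) ∧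
      (sc q : ℝ) + KA L < PhiK (kk L) rest ∧
      ext g 0 = sc q ∧ ∀ r < kk L, ext g (r + 1) = sc (rest.getD r 0) with hP
  have hcover : S ⊆ (Finset.range (kk L)).biUnion fun i ↦ D.biUnion fun g ↦ P i g := by
    intro v hv
    obtain ⟨-, -, a, q, rest, w, h1, h2, h3, h4, h5, h6, h7, h8⟩ := hS v hv
    set g : Fin (kk L + 1) → ℕ :=
      fun r ↦ if (r:ℕ) = 0 then sc q else sc (rest.getD ((r:ℕ) - 1) 0) with hg
    have hg0 : ext g 0 = sc q := by simp [hext, hg]
    have hg1 : ∀ r < kk L, ext g (r + 1) = sc (rest.getD r 0) := by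
      intro r hr
      simp [hext, hg, hr]
    refine Finset.mem_biUnion.mpr ⟨a.length, Finset.mem_range.mpr h6,
      Finset.mem_biUnion.mpr ⟨g, Fintype.mem_piFinset.mpr fun r ↦ ?_,
        Finset.mem_filter.mpr ⟨hv, a, q, rest, w, h1, h2, h3, h4, h5, rfl, h7, h8, hg0, hg1⟩⟩⟩
    rw [Finset.mem_range]
    simp only [hg]
    split_ifs
    · have := (h5 q (by simp)).2.2
      omega
    · by_cases hlt : (r:ℕ) - 1 < rest.length
      · rw [List.getD_eq_getElem _ _ hlt]
        have := (h5 _ (List.mem_append_right a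
          (List.mem_cons_of_mem q (List.getElem_mem hlt)))).2.2
        omega
      · rw [List.getD_eq_default _ _ (not_lt.mp hlt), sc_zero]
        omega
  have hM : sc (2 * N) ≤ L + 4 := by
    rcases Nat.lt_or_ge N 2 with h | h
    · have h2 : Real.log ((2 * N : ℕ) : ℝ) ≤ ((2 * N : ℕ) : ℝ) :=
        Real.log_le_self (Nat.cast_nonneg _)
      rw [sc_le_iff]
      have h3 : ((2 * N : ℕ) : ℝ) ≤ 2 := by exact_mod_cast (by omega : 2 * N ≤ 2)
      have h4 := Real.add_one_le_exp ((L + 4 : ℕ) : ℝ)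
      push_cast at h4 ⊢
      push_cast at h2 h3
      linarith
    · exact (sc_two_mul_le h).trans (by omega)
  set BND : ℝ := ((2 * N : ℕ) : ℝ) * (C2 * (L:ℝ) ^ 13 / Real.exp (sc N)) * U ^ kk L
    * Real.exp (C1 * ((kk L : ℝ) + 1) ^ 2 + E * ((kk L : ℝ) + 1) - KA L) with hBND
  have hBND0 : 0 ≤ BND := by positivity
  have hPbound : ∀ i ∈ Finset.range (kk L), ∀ g ∈ D, ((P i g).card : ℝ) ≤ BND := by
    intro i hi g _
    rcases (P i g).eq_empty_or_nonempty with he | ⟨v₀, hv₀⟩
    · rw [he, Finset.card_empty, Nat.cast_zero]; exact hBND0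
    obtain ⟨-, a₀, q₀, rest₀, w₀, -, -, -, hsort₀, -, -, -, hΦ₀, hσ, hτ⟩ :=
      Finset.mem_filter.mp hv₀
    set σ0 := ext g 0 with hσ0
    set τ := padTau L (ext g) with hτdef
    have hτeq : ∀ r < kk L, τ r = sc (rest₀.getD r 0) := fun r hr ↦ by
      rw [hτdef, padTau, if_pos hr, hτ r hr]
    have hsortq : (q₀ :: rest₀).Pairwise (· > ·) := (List.pairwise_append.mp hsort₀).2.1
    have hanti : Antitone τ := by
      intro r r' hrr
      rcases Nat.lt_or_ge r' (kk L) with h | h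
      · rw [hτeq r (by omega), hτeq r' h]
        exact antitone_sc_getD (List.pairwise_cons.mp hsortq).2 hrr
      · rw [hτdef, padTau, padTau, if_neg (by omega : ¬ r' < kk L)]
        exact Nat.zero_le _
    have hτ0 : τ 0 ≤ σ0 := by
      rw [hτeq 0 (kk_pos L (by omega)), hσ]
      have := antitone_sc_getD hsortq (Nat.zero_le 1)
      simpa using this
    have hΦ : (σ0:ℝ) + KA L < ∑ r ∈ Finset.range (kk L), acoef r * τ r := by
      rw [hσ]
      refine lt_of_lt_of_le hΦ₀ (le_of_eq ?_)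
      unfold PhiK
      exact Finset.sum_congr rfl fun r hr ↦ by rw [hτeq r (Finset.mem_range.mp hr)]
    set Tw := (Icc 1 N).filter fun n ↦ (∀ l : ℕ, l.Prime → l ∣ n → sc l ≤ σ0) ∧
      ∀ r < kk L, ((min (τ r) σ0 : ℕ) : ℝ)
        + ∑ j ∈ Finset.range (kk L), ((min (τ r) (τ j) : ℕ) : ℝ) - E ≤ omIoc s0 (τ r) n with hTw
    have hTwsum : ∑ n ∈ Tw, (1:ℝ) / n
        ≤ Real.exp (C1 * ((kk L : ℝ) + 1) ^ 2 + E * ((kk L : ℝ) + 1) - KA L) := by
      refine (hC1 (kk L) σ0 s0 τ E Tw hanti hτ0 hE0 hs0big fun n hn ↦ ?_).trans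
        (Real.exp_le_exp.mpr (by linarith))
      obtain ⟨hnI, h1, h2⟩ := Finset.mem_filter.mp hn
      exact ⟨by have := (Finset.mem_Icc.mp hnI).1; omega, h1, h2⟩
    have hmemTw : ∀ q rest w n, n ≤ N → n ≠ 0 → w ≠ 0 →
        (∀ l : ℕ, l.Prime → l ∣ w → sc l ≤ K0 L) →
        (q :: rest).Pairwise (· > ·) →
        (∀ x ∈ q :: rest, Normal L x ∧ K0 L < sc x ∧ sc x ≤ L + 3) →
        σ0 = sc q → (∀ r < kk L, ext g (r + 1) = sc (rest.getD r 0)) →
        n ∣ cval (q :: rest) w →
        (∀ r, omIoc s0 (τ r) (cval (q :: rest) w) ≤ omIoc s0 (τ r) n + 1) → n ∈ Tw := by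
      intro q rest w n hnN hn0 hw0 hwK hsort hall hσq hτq hdvd hom
      refine Finset.mem_filter.mpr ⟨Finset.mem_Icc.mpr ⟨by omega, hnN⟩,
        fun l hl hld ↦ ?_, fun r hr ↦ ?_⟩
      · refine sc_prime_dvd_cval (fun x hx ↦ ⟨(hall x hx).1.prime, ?_⟩) (fun l hl hlw ↦ ?_) hl
          (hld.trans hdvd)
        · rcases List.mem_cons.mp hx with rfl | hx'
          · exact hσq.ge
          · rw [hσq]; exact sc_mono ((List.pairwise_cons.mp hsort).1 x hx').le
        · rw [hσq]; exact (hwK l hl hlw).trans (hall q List.mem_cons_self).2.1.le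
      · have h1 := omIoc_cval_ge (b := τ r) s0 hw0 fun x hx ↦ (hall x hx).1
        have h2 : (omIoc s0 (τ r) (cval (q :: rest) w) : ℝ) ≤ omIoc s0 (τ r) n + 1 := by
          exact_mod_cast hom r
        have heq : ∑ j ∈ Finset.range (kk L), ((min (τ r) (τ j) : ℕ) : ℝ)
            = ∑ j ∈ Finset.range (kk L), ((min (τ r) (sc (rest.getD j 0)) : ℕ) : ℝ) :=
          Finset.sum_congr rfl fun j hj ↦ by
            rw [show τ j = sc (rest.getD j 0) by
              rw [hτdef, padTau, if_pos (Finset.mem_range.mp hj), hτq j (Finset.mem_range.mp hj)]]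
        rw [hσq, heq, hE, profErr, ← hs0]
        linarith
    have hposL : 0 < Real.exp (sc N) / (L:ℝ) ^ 7 := by positivity
    set A : ℝ := Real.exp (sc N) / (L:ℝ) ^ 7 with hA
    have hfac : C2 * (L:ℝ) ^ 6 / A = C2 * (L:ℝ) ^ 13 / Real.exp (sc N) := by
      rw [hA]; field_simp
    rcases Nat.eq_zero_or_pos i with hi0 | hi0
    · have hcnt := hC2 L (2 * N) A Tw (P i g) (fun R m ↦ R * m) (by omega) hM hposL
        fun v hv ↦ by
        obtain ⟨hvS, a, q, rest, w, hval, hw0, hwK, hsort, hall, hlen, hhead, -, hσq, hτq⟩ :=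
          Finset.mem_filter.mp hv
        obtain ⟨hv1, hvN, -⟩ := hS v hvS
        have ha : a = [] := List.length_eq_zero_iff.mp (hlen.trans hi0)
        subst ha
        simp only [List.nil_append] at hval hsort hall hhead
        have hqn := (hall q List.mem_cons_self).1
        have hq2 := hqn.prime.two_le
        have hlog : A ≤ Real.log (lpf (q - 1) : ℕ) := exp_sc_le_lpf (by omega) hqn hhead
        have hq3 : 2 ≤ q - 1 := by
          by_contra h
          have h0 : lpf (q - 1) ≤ 1 := by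
            rw [show q - 1 = 1 by omega]; simp [lpf]
          have : Real.log (lpf (q - 1) : ℕ) ≤ 0 :=
            Real.log_nonpos (Nat.cast_nonneg _) (by exact_mod_cast h0)
          linarith
        obtain ⟨hR, hRd⟩ := lpf_prime hq3
        obtain ⟨A', hA'⟩ := hRd
        set R := lpf (q - 1)
        set m := A' * cval rest w with hm
        have hvm : v = R * m := by rw [hval, cval_cons, hA', hm]; ring
        have hm0 : 0 < m := Nat.pos_of_ne_zero fun h ↦ by rw [h, mul_zero] at hvm; omega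
        refine ⟨R, m, hR, hmemTw q rest w m ((Nat.le_mul_of_pos_left _ hR.pos).trans
          (hvm ▸ hvN)) hm0.ne' hw0 hwK hsort hall hσq hτq ?_ ?_, hm0, by omega, hlog, hvm.symm⟩
        · rw [← hval, hvm]; exact dvd_mul_left _ _
        · intro r
          rw [← hval, hvm, omIoc_mul _ _ hR.ne_zero hm0.ne']
          have := omIoc_prime_le s0 (τ r) hR
          omega
      rw [hfac] at hcnt
      refine hcnt.trans ?_
      rw [hBND]
      refine mul_le_mul (le_mul_of_one_le_right (by positivity) (one_le_pow₀ hU1)) hTwsum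
        (Finset.sum_nonneg fun n _ ↦ by positivity) (by positivity)
    · set Pref : Finset (Fin (i - 1) → ℕ) := Fintype.piFinset fun _ ↦ primesSc (L + 3) with hPref
      set T := (Pref ×ˢ Tw).image fun x ↦ (∏ j, (x.1 j - 1)) * x.2 with hT
      have hcnt := hC2 L (2 * N) A T (P i g) (fun R m ↦ (R - 1) * m) (by omega) hM hposL
        fun v hv ↦ by
        obtain ⟨hvS, a, q, rest, w, hval, hw0, hwK, hsort, hall, hlen, hhead, -, hσq, hτq⟩ :=
          Finset.mem_filter.mp hv
        obtain ⟨hv1, hvN, -⟩ := hS v hvS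
        obtain ⟨q1, mid, rfl⟩ : ∃ q1 mid, a = q1 :: mid := by
          rcases a with _ | ⟨x, y⟩
          · simp at hlen; omega
          · exact ⟨x, y, rfl⟩
        simp only [List.cons_append, List.headD_cons] at hval hsort hall hhead
        have hmidlen : mid.length = i - 1 := by simp at hlen; omega
        have hq1 := (hall q1 List.mem_cons_self).1
        set w' := cval (q :: rest) w with hw'
        set m := prodPred mid * w' with hm
        have hvm : v = (q1 - 1) * m := by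
          rw [hval, cval_cons, hm, hw', cval, prodPred_append, cval, mul_assoc]
        have hm0 : 0 < m := Nat.pos_of_ne_zero fun h ↦ by rw [h, mul_zero] at hvm; omega
        have hq12 := hq1.prime.two_le
        have hallq : ∀ x ∈ q :: rest, Normal L x ∧ K0 L < sc x ∧ sc x ≤ L + 3 :=
          fun x hx ↦ hall x (List.mem_cons_of_mem _ (List.mem_append_right _ hx))
        have hsortq' : (q :: rest).Pairwise (· > ·) :=
          (List.pairwise_append.mp (List.pairwise_cons.mp hsort).2).2.1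
        have hw'le : w' ≤ N := by
          refine le_trans ?_ (hvm ▸ hvN)
          calc w' ≤ prodPred mid * w' := Nat.le_mul_of_pos_left _ (Nat.pos_of_ne_zero
                  (prodPred_ne_zero fun x hx ↦
                    (hall x (List.mem_cons_of_mem _ (List.mem_append_left _ hx))).1.prime))
            _ ≤ _ := Nat.le_mul_of_pos_left _ (by omega)
        have hw'T : w' ∈ Tw := hmemTw q rest w w' hw'le
          (fun h ↦ by rw [hm, h, mul_zero] at hm0; omega) hw0 hwK hsortq' hallq hσq hτq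
          dvd_rfl (fun r ↦ Nat.le_succ _)
        refine ⟨q1, m, hq1.prime, Finset.mem_image.mpr
          ⟨(fun j ↦ mid[(j:ℕ)]'(by rw [hmidlen]; exact j.isLt), w'),
            Finset.mem_product.mpr ⟨Fintype.mem_piFinset.mpr fun j ↦ ?_, hw'T⟩, ?_⟩,
          hm0, ?_, ?_, hvm.symm⟩
        · have hx := hall _ (List.mem_cons_of_mem q1 (List.mem_append_left (q :: rest)
            (List.getElem_mem (l := mid) (n := (j:ℕ)) (by rw [hmidlen]; exact j.isLt))))
          exact mem_primesSc.mpr ⟨hx.1.prime, hx.2.2⟩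
        · rw [hm]
          congr 1
          unfold prodPred
          rw [← List.prod_ofFn]
          congr 1
          refine List.ext_getElem (by simp [hmidlen]) fun n h1 h2 ↦ by simp
        · calc q1 * m ≤ (2 * (q1 - 1)) * m := Nat.mul_le_mul_right _ (by omega)
            _ = 2 * v := by rw [hvm]; ring
            _ ≤ _ := by omega
        · calc A ≤ Real.exp (sc N) / (L:ℝ) ^ 4 := by
                rw [hA]
                refine div_le_div_of_nonneg_left (Real.exp_pos _).le (by positivity) ?_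
                exact pow_le_pow_right₀ hL1 (by norm_num)
            _ ≤ _ := by rw [div_le_iff₀ (by positivity)]; linarith
      rw [hfac] at hcnt
      refine hcnt.trans ?_
      rw [hBND, mul_assoc (((2 * N : ℕ) : ℝ) * _)]
      refine mul_le_mul_of_nonneg_left ?_ (by positivity)
      have hUb : ∑ p ∈ primesSc (L + 3), (1:ℝ) / ((p - 1 : ℕ) : ℝ) ≤ U := by
        calc ∑ p ∈ primesSc (L + 3), (1:ℝ) / ((p - 1 : ℕ) : ℝ)
            ≤ ∑ p ∈ primesSc (L + 3), 2 * ((1:ℝ) / p) := by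
              refine Finset.sum_le_sum fun p hp ↦ ?_
              have h2 : (2:ℝ) ≤ p := by exact_mod_cast (mem_primesSc.mp hp).1.two_le
              rw [Nat.cast_sub (mem_primesSc.mp hp).1.one_le, Nat.cast_one, mul_one_div,
                div_le_div_iff₀ (by linarith) (by linarith)]
              linarith
          _ ≤ _ := by
              rw [← Finset.mul_sum, hU]
              have := (abs_le.mp (hC4 (L + 3))).2
              push_cast at this
              linarith
      calc ∑ m ∈ T, (1:ℝ) / m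
          ≤ ∑ x ∈ Pref ×ˢ Tw, (1:ℝ) / (((∏ j, (x.1 j - 1)) * x.2 : ℕ) : ℝ) :=
            Finset.sum_image_le_of_nonneg fun x _ ↦ by positivity
        _ = (∑ f ∈ Pref, ∏ j, (1:ℝ) / ((f j - 1 : ℕ) : ℝ)) * ∑ n ∈ Tw, (1:ℝ) / n := by
            rw [Finset.sum_mul_sum, Finset.sum_product]
            refine Finset.sum_congr rfl fun f _ ↦ Finset.sum_congr rfl fun n _ ↦ ?_
            rw [Nat.cast_mul, Nat.cast_prod, Finset.prod_div_distrib, Finset.prod_const_one,
              div_mul_div_comm, one_mul]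
        _ = (∑ p ∈ primesSc (L + 3), (1:ℝ) / ((p - 1 : ℕ) : ℝ)) ^ (i - 1)
              * ∑ n ∈ Tw, (1:ℝ) / n := by
            rw [hPref]
            congr 1
            exact (Finset.sum_pow' _ (fun p : ℕ ↦ (1:ℝ) / ((p - 1 : ℕ) : ℝ)) _).symm
        _ ≤ _ := by
            refine mul_le_mul ?_ hTwsum (Finset.sum_nonneg fun n _ ↦ by positivity) (by positivity)
            calc _ ≤ U ^ (i - 1) := by gcongr
              _ ≤ U ^ kk L := pow_le_pow_right₀ hU1 (by have := Finset.mem_range.mp hi; omega)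
  have hcard : (S.card : ℝ) ≤ (kk L : ℝ) * ((L:ℝ) + 4) ^ (kk L + 1) * BND := by
    have h := (Finset.card_le_card hcover).trans (Finset.card_biUnion_le.trans
      (Finset.sum_le_sum fun i _ ↦ Finset.card_biUnion_le))
    calc (S.card : ℝ) ≤ ∑ i ∈ Finset.range (kk L), ∑ g ∈ D, ((P i g).card : ℝ) := by
          exact_mod_cast h
      _ ≤ ∑ _i ∈ Finset.range (kk L), ∑ _g ∈ D, BND :=
          Finset.sum_le_sum fun i hi ↦ Finset.sum_le_sum fun g hg ↦ hPbound i hi g hg
      _ = _ := by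
          rw [Finset.sum_const, Finset.sum_const, hD, Fintype.card_piFinset, Finset.prod_const,
            Finset.card_range, Finset.card_range, Finset.card_univ, Fintype.card_fin,
            nsmul_eq_mul, nsmul_eq_mul]
          push_cast
          ring
  refine hcard.trans ?_
  rw [hBND]
  have hlogs : 0 ≤ Real.log L := Real.log_nonneg hL1
  have hkk0 : (0:ℝ) ≤ kk L := Nat.cast_nonneg _
  set C := C1 + 2 * C2 + 2 * C4 + 20 with hCdef
  have hlL : Real.log ((L:ℝ) + 4) ≤ Real.log L + C := by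
    have h1 : Real.log ((L:ℝ) + 4) ≤ Real.log (2 * L) := Real.log_le_log (by linarith) (by linarith)
    rw [Real.log_mul (by norm_num) (by linarith)] at h1
    linarith [Real.log_two_lt_d9]
  have hlU : Real.log U ≤ Real.log L + C := by
    have h1 : U ≤ (2 * (4 + C4)) * L := by
      rw [hU]
      have : C4 * 1 ≤ C4 * L := mul_le_mul_of_nonneg_left hL1 hC40
      linarith
    have h2 := Real.log_le_log (by linarith) h1
    rw [Real.log_mul (show (2 * (4 + C4) : ℝ) ≠ 0 by positivity) (show (L:ℝ) ≠ 0 by linarith)] at h2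
    have := Real.log_le_sub_one_of_pos (show (0:ℝ) < 2 * (4 + C4) by positivity)
    linarith
  have hlk : (kk L : ℝ) ≤ Real.exp (kk L : ℝ) := by linarith [Real.add_one_le_exp (kk L : ℝ)]
  have hC2e : 2 * C2 ≤ Real.exp (2 * C2) := by linarith [Real.add_one_le_exp (2 * C2)]
  calc (kk L : ℝ) * ((L:ℝ) + 4) ^ (kk L + 1) * (((2 * N : ℕ) : ℝ)
        * (C2 * (L:ℝ) ^ 13 / Real.exp (sc N)) * U ^ kk L
        * Real.exp (C1 * ((kk L : ℝ) + 1) ^ 2 + E * ((kk L : ℝ) + 1) - KA L))
      = (N:ℝ) / Real.exp (sc N) * ((kk L : ℝ) * ((L:ℝ) + 4) ^ (kk L + 1) * (2 * C2)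
          * (L:ℝ) ^ 13 * U ^ kk L
          * Real.exp (C1 * ((kk L : ℝ) + 1) ^ 2 + E * ((kk L : ℝ) + 1) - KA L)) := by
        push_cast; ring
    _ ≤ (N:ℝ) / Real.exp (sc N) * (Real.exp (kk L : ℝ)
          * Real.exp (((kk L + 1 : ℕ) : ℝ) * Real.log ((L:ℝ) + 4)) * Real.exp (2 * C2)
          * Real.exp (((13:ℕ) : ℝ) * Real.log L) * Real.exp ((kk L : ℝ) * Real.log U)
          * Real.exp (C1 * ((kk L : ℝ) + 1) ^ 2 + E * ((kk L : ℝ) + 1) - KA L)) := by
        rw [Real.exp_nat_mul, Real.exp_log (by linarith), Real.exp_nat_mul,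
          Real.exp_log (by linarith), Real.exp_nat_mul, Real.exp_log (by linarith)]
        gcongr
    _ ≤ _ := by
        refine mul_le_mul_of_nonneg_left ?_ (by positivity)
        rw [← Real.exp_add, ← Real.exp_add, ← Real.exp_add, ← Real.exp_add, ← Real.exp_add,
          Real.exp_le_exp]
        push_cast
        have m1 := mul_le_mul_of_nonneg_left hlL (by linarith : (0:ℝ) ≤ (kk L : ℝ) + 1)
        have m2 := mul_le_mul_of_nonneg_left hlU hkk0
        have m3 : C1 * ((kk L : ℝ) + 1) ^ 2 ≤ C * ((kk L : ℝ) + 1) ^ 2 := by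
          gcongr; linarith
        have m4 : (kk L : ℝ) * 1 ≤ (kk L : ℝ) * (Real.log L + C) := by
          gcongr; linarith
        have m5 : 0 ≤ (16:ℝ) * (Real.log L + C) := by
          have : 0 ≤ Real.log L + C := by linarith
          positivity
        linarith

end Vale.Agent.P031
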