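import Mathlib
import Vale.Agent.P031.Violations

/-!
Almost every totient is the value of a chain with a large head.
-/

namespace Vale.Agent.P031

open Finset Real Filter Topology

/-- `v` is the value of a chain whose head has size comparable to `N`. -/
def HasDecomp (L N v : ℕ) : Prop :=
  ∃ q qs w, Chain L (q :: qs) w ∧ cval (q :: qs) w = v ∧ SqfBig L v ∧
    Real.exp (sc N) ≤ (L:ℝ) ^ 4 * Real.log q

/-- Conditions on a preimage `n` making it yield a decomposition. -/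
structure GoodPre (L N n : ℕ) : Prop where
  pos : 0 < n
  sc_le : sc n ≤ L + 2
  lower : Real.exp (sc N) ≤ 6 * Real.log n
  sqf : SqfBig L n
  sqfv : SqfBig L (Nat.totient n)
  smooth : ∀ s d, s ≤ L + 2 → d ∣ n → (∀ l : ℕ, l.Prime → l ∣ d → sc l ≤ s) →
    Real.log d < (L:ℝ) ^ 3 * Real.exp s
  normal : ∀ q, q.Prime → q ∣ n → K0 L < sc q → Normal L q

lemma ev_K0_small : ∀ᶠ L : ℕ in atTop, K0 L ≤ L + 2 ∧
    18 * (L:ℝ) ^ 3 * Real.exp (K0 L) < Real.exp ((L:ℝ) - 1) := by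
  filter_upwards [ev_mul_rpow_le (a := 7/10) (b := 1) (by norm_num) 8,
    ev_log_le_rpow (b := 1) (by norm_num) 40, eventually_ge_atTop 100] with L h1 h2 hL
  rw [Real.rpow_one] at h1 h2
  have hL' : (100:ℝ) ≤ L := by exact_mod_cast hL
  have hc := Nat.ceil_lt_add_one (a := (L:ℝ) ^ (7/10:ℝ)) (by positivity)
  have hK : (K0 L : ℝ) < (L:ℝ) ^ (7/10:ℝ) + 1 := hc
  refine ⟨?_, ?_⟩
  · have : (K0 L : ℝ) ≤ ((L + 2 : ℕ) : ℝ) := by push_cast; linarith
    exact_mod_cast this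
  · calc 18 * (L:ℝ) ^ 3 * Real.exp (K0 L)
        = Real.exp (Real.log 18 + ((3:ℕ):ℝ) * Real.log L + K0 L) := by
          rw [Real.exp_add, Real.exp_add, Real.exp_nat_mul, Real.exp_log (by norm_num),
            Real.exp_log (by linarith)]
      _ < _ := by
          refine Real.exp_lt_exp.mpr ?_
          have : Real.log 18 ≤ 17 := by
            have := Real.log_le_sub_one_of_pos (show (0:ℝ) < 18 by norm_num)
            linarith
          push_cast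
          linarith

lemma ev_goodPre_decomp :
    ∀ᶠ L : ℕ in atTop, ∀ N n : ℕ, L ≤ sc N + 1 → GoodPre L N n →
      ¬ Violation L N (Nat.totient n) → HasDecomp L N (Nat.totient n) := by
  filter_upwards [ev_length_le_kk, ev_K0_small, eventually_ge_atTop 20]
    with L hlen hK hL N n hLN hg hviol
  have hL20 : (20:ℝ) ≤ L := by exact_mod_cast hL
  obtain ⟨t, ht0, -, htd, htsmall, htot⟩ := exists_split hg.pos hg.sqf
  set l := bigList L n with hl
  have hEN : Real.exp ((L:ℝ) - 1) ≤ Real.exp (sc N) := by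
    refine Real.exp_le_exp.mpr ?_
    have : (L:ℝ) ≤ (sc N : ℝ) + 1 := by exact_mod_cast hLN
    linarith
  have hn2 : 2 ≤ n := by
    by_contra h
    have : n = 1 := by have := hg.pos; omega
    have h1 := hg.lower
    rw [this] at h1
    simp at h1
    linarith [Real.exp_pos (sc N : ℝ)]
  obtain ⟨hP, hPd⟩ := lpf_prime hn2
  set P := lpf n with hPdef
  have hscP : sc P ≤ L + 2 := (sc_mono (Nat.le_of_dvd hg.pos hPd)).trans hg.sc_le
  have hlogn : Real.log n < (L:ℝ) ^ 3 * Real.exp (sc P) :=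
    hg.smooth (sc P) n hscP dvd_rfl fun x hx hxd ↦ sc_mono (le_lpf hg.pos.ne' hx hxd)
  have hbound : Real.exp (sc N) < 6 * ((L:ℝ) ^ 3 * Real.exp (sc P)) := by
    linarith [hg.lower]
  have hPK : K0 L < sc P := by
    by_contra hcon
    rw [not_lt] at hcon
    have h1 : Real.exp (sc P : ℝ) ≤ Real.exp (K0 L) :=
      Real.exp_le_exp.mpr (by exact_mod_cast hcon)
    have h2 := mul_le_mul_of_nonneg_left h1 (by positivity : 0 ≤ (L:ℝ) ^ 3)
    have h3 : (0:ℝ) < (L:ℝ) ^ 3 * Real.exp (K0 L) := by positivity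
    linarith [hK.2]
  have hPmem : P ∈ l := mem_bigList.mpr ⟨Nat.mem_primeFactors.mpr ⟨hP, hPd, hg.pos.ne'⟩, hPK⟩
  have hfacts : ∀ x ∈ l, x.Prime ∧ x ∣ n ∧ K0 L < sc x ∧ sc x ≤ L + 3 ∧ Normal L x := by
    intro x hx
    obtain ⟨h1, h2⟩ := mem_bigList.mp hx
    have hxp := Nat.prime_of_mem_primeFactors h1
    have hxd := Nat.dvd_of_mem_primeFactors h1
    exact ⟨hxp, hxd, h2, ((sc_mono (Nat.le_of_dvd hg.pos hxd)).trans hg.sc_le).trans (by omega),
      hg.normal x hxp hxd h2⟩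
  obtain ⟨q, qs, hlq⟩ : ∃ q qs, l = q :: qs := by
    cases hcase : l with
    | nil => rw [hcase] at hPmem; simp at hPmem
    | cons a b => exact ⟨a, b, rfl⟩
  have hsorted : l.Pairwise (· > ·) := bigList_sorted L n
  have hPq : P ≤ q := by
    rw [hlq] at hPmem hsorted
    rcases List.mem_cons.mp hPmem with h | h
    · exact h.le
    · exact ((List.pairwise_cons.mp hsorted).1 P h).le
  have hhead : Real.exp (sc N) ≤ (L:ℝ) ^ 4 * Real.log q := by
    have hlogP : 1 ≤ Real.log P := by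
      refine le_trans (Real.one_le_exp ?_) (exp_sc_pred_lt (by omega)).le
      have : (1:ℝ) ≤ (sc P : ℝ) := by exact_mod_cast (by omega : 1 ≤ sc P)
      linarith
    have h1 := exp_sc_le_three_mul hlogP
    have h2 : Real.log P ≤ Real.log q :=
      Real.log_le_log (by exact_mod_cast hP.pos) (by exact_mod_cast hPq)
    have h3 := mul_le_mul_of_nonneg_left h1 (by positivity : 0 ≤ (L:ℝ) ^ 3)
    have h4 := mul_le_mul_of_nonneg_left h2 (by positivity : 0 ≤ (L:ℝ) ^ 3)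
    have h5 : 20 * ((L:ℝ) ^ 3 * Real.log q) ≤ (L:ℝ) * ((L:ℝ) ^ 3 * Real.log q) :=
      mul_le_mul_of_nonneg_right hL20 (mul_nonneg (by positivity) (Real.log_natCast_nonneg q))
    have h6 : 0 ≤ (L:ℝ) ^ 3 * Real.log q :=
      mul_nonneg (by positivity) (Real.log_natCast_nonneg q)
    have h7 : (L:ℝ) * ((L:ℝ) ^ 3 * Real.log q) = (L:ℝ) ^ 4 * Real.log q := by ring
    linarith
  have hnoviol : ∀ a x rest, l = a ++ x :: rest → a.length < kk L →
      PhiK (kk L) rest ≤ (sc x : ℝ) + KA L := by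
    intro a x rest he hlt
    by_contra hcon
    rw [not_le] at hcon
    refine hviol ⟨a, x, rest, Nat.totient t, ?_, (Nat.totient_pos.mpr ht0).ne',
      fun y hy hyd ↦ sc_prime_dvd_totient ht0.ne' hy hyd htsmall, he ▸ hsorted, ?_, hlt, ?_, hcon⟩
    · rw [← he, htot]
    · intro y hy
      rw [← he] at hy
      obtain ⟨-, -, h3, h4, h5⟩ := hfacts y hy
      exact ⟨h5, h3, h4⟩
    · rw [← he, hlq, List.headD_cons]
      exact hhead
  have hlen' : l.length ≤ kk L :=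
    hlen l hsorted (fun x hx ↦ ⟨(hfacts x hx).2.2.1, (hfacts x hx).2.2.2.1⟩) hnoviol
  have hchain : Chain L l (Nat.totient t) :=
    { sorted := hsorted
      normal := fun x hx ↦ (hfacts x hx).2.2.2.2
      scale := fun x hx ↦ ⟨(hfacts x hx).2.2.1, (hfacts x hx).2.2.2.1⟩
      len := hlen'
      step := fun a x rest he ↦ by
        have h2 : a.length + (rest.length + 1) ≤ kk L := by rw [he] at hlen'; simpa using hlen'
        rw [Phi_eq_PhiK (k := kk L) (by omega)]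
        exact hnoviol a x rest he (by omega)
      tail := ⟨t, ht0, rfl, htsmall, (hg.smooth (K0 L) t hK.1 htd htsmall).le⟩ }
  exact ⟨q, qs, Nat.totient t, hlq ▸ hchain, by rw [← hlq, htot], hg.sqfv, hhead⟩

lemma ev_error_small (C : ℝ) : ∀ᶠ L : ℕ in atTop,
    (C * (L:ℝ) ^ 2 * Real.exp (-Real.exp ((K0 L / 2 : ℕ) : ℝ))) * Real.exp ((L:ℝ) + 1)
        ≤ Real.exp (-((L:ℝ) ^ (1/12:ℝ))) / 5 ∧
    (C * (L:ℝ) ^ 3 * Real.exp (-((L:ℝ) ^ 3 / 2) + 15 * ((L:ℝ) + 4 + C))) * Real.exp ((L:ℝ) + 1)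
        ≤ Real.exp (-((L:ℝ) ^ (1/12:ℝ))) / 5 ∧
    Real.exp (-((L:ℝ) ^ (1/10:ℝ))) ≤ Real.exp (-((L:ℝ) ^ (1/12:ℝ))) / 5 ∧
    Real.exp (-((L:ℝ) ^ (1/11:ℝ))) ≤ Real.exp (-((L:ℝ) ^ (1/12:ℝ))) ∧
    Real.exp (2 * (L:ℝ) + 1 - Real.exp ((L:ℝ) - 2) / 2) ≤ Real.exp (-((L:ℝ) ^ (1/12:ℝ))) / 5 := by
  filter_upwards [ev_K0_bound, eventually_ge_atTop 100,
    ev_mul_rpow_le (a := 1/12) (b := 1/10) (by norm_num) 2,
    ev_const_le_rpow (b := 1/10) (by norm_num) 4,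
    ev_const_le_rpow (b := 1) (by norm_num) (15 * |C| + 30),
    ev_log_le_rpow (b := 1) (by norm_num) 20] with L hK hL h12 h10 hC hlog
  rw [Real.rpow_one] at hC hlog
  have hL' : (100:ℝ) ≤ L := by exact_mod_cast hL
  have hl0 : 0 ≤ Real.log L := Real.log_nonneg (by linarith)
  have ha : (L:ℝ) ^ (1/12:ℝ) ≤ (L:ℝ) := by
    simpa using Real.rpow_le_rpow_of_exponent_le (by linarith : (1:ℝ) ≤ L)
      (by norm_num : (1/12:ℝ) ≤ 1)
  have hb : (L:ℝ) ^ (1/12:ℝ) ≤ (L:ℝ) ^ (1/11:ℝ) :=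
    Real.rpow_le_rpow_of_exponent_le (by linarith) (by norm_num)
  have hCe : C ≤ Real.exp |C| := by
    linarith [Real.add_one_le_exp |C|, le_abs_self C]
  have hfive : ∀ x : ℝ, x ≤ -((L:ℝ) ^ (1/12:ℝ)) - 2 →
      Real.exp x ≤ Real.exp (-((L:ℝ) ^ (1/12:ℝ))) / 5 := by
    intro x hx
    refine (Real.exp_le_exp.mpr hx).trans ?_
    rw [Real.exp_sub]
    gcongr
    have := Real.quadratic_le_exp_of_nonneg (show (0:ℝ) ≤ 2 by norm_num)
    linarith
  have hpow : ∀ k : ℕ, (L:ℝ) ^ k = Real.exp ((k:ℝ) * Real.log L) := by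
    intro k
    rw [Real.exp_nat_mul, Real.exp_log (by linarith)]
  have hCabs : C ≤ |C| := le_abs_self C
  refine ⟨?_, ?_, hfive _ (by linarith), Real.exp_le_exp.mpr (by linarith), hfive _ ?_⟩
  · calc _ ≤ (Real.exp |C| * (L:ℝ) ^ 2 * Real.exp (-Real.exp ((K0 L / 2 : ℕ) : ℝ)))
          * Real.exp ((L:ℝ) + 1) := by gcongr
      _ = Real.exp (|C| + ((2:ℕ):ℝ) * Real.log L + -Real.exp ((K0 L / 2 : ℕ) : ℝ)
            + ((L:ℝ) + 1)) := by
          rw [hpow, ← Real.exp_add, ← Real.exp_add, ← Real.exp_add]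
      _ ≤ _ := by
          refine hfive _ ?_
          push_cast
          linarith [hK.2, abs_nonneg C]
  · calc _ ≤ (Real.exp |C| * (L:ℝ) ^ 3
          * Real.exp (-((L:ℝ) ^ 3 / 2) + 15 * ((L:ℝ) + 4 + C))) * Real.exp ((L:ℝ) + 1) := by
          gcongr
      _ = Real.exp (|C| + ((3:ℕ):ℝ) * Real.log L
            + (-((L:ℝ) ^ 3 / 2) + 15 * ((L:ℝ) + 4 + C)) + ((L:ℝ) + 1)) := by
          rw [hpow 3, ← Real.exp_add, ← Real.exp_add, ← Real.exp_add]
      _ ≤ _ := by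
          refine hfive _ ?_
          have h1 : 100 * (100:ℝ) * L ≤ (L:ℝ) ^ 3 := by
            rw [show (L:ℝ) ^ 3 = L * L * L by ring]
            gcongr
          push_cast
          linarith [abs_nonneg C]
  · have h1 := Real.quadratic_le_exp_of_nonneg (show (0:ℝ) ≤ (L:ℝ) - 2 by linarith)
    have h2 : 98 * ((L:ℝ) - 2) ≤ ((L:ℝ) - 2) ^ 2 := by
      rw [sq]
      exact mul_le_mul_of_nonneg_right (by linarith) (by linarith)
    linarith

/-- Almost every totient up to `N` has a decomposition. -/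
theorem ev_decomp :
    ∀ᶠ L : ℕ in atTop, ∀ (N : ℕ) (B : ℝ) (S : Finset ℕ), sc N ≤ L + 1 → L ≤ sc N + 1 → 0 ≤ B →
      (∀ z : ℕ, z ≤ N → (Vn z : ℝ) ≤ B * z / Real.log ((z:ℝ) + 3)) →
      (∀ v ∈ S, 1 ≤ v ∧ v ≤ N ∧ IsTot v ∧ ¬ HasDecomp L N v) →
      (S.card : ℝ) ≤ (1 + B) * N / Real.exp (sc N) * Real.exp (-((L:ℝ) ^ (1/12:ℝ))) := by
  obtain ⟨C0, hC01, hC0⟩ := exists_preimage_le
  obtain ⟨C1, hC10, hC1⟩ := exists_smooth_branch
  filter_upwards [ev_goodPre_decomp, ev_abnormal_branch, ev_violation_branch,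
    ev_error_small (8 * C0 + C1), ev_K0_bound, eventually_ge_atTop 100,
    ev_log_le_rpow (b := 1) (by norm_num) (4 * 1),
    ev_const_le_rpow (b := 1) (by norm_num) (2 * C0)]
    with L hdec hab hviol herr hK0 hL hlogL hC0L N B S hscN hLN hB hV hS
  classical
  rw [Real.rpow_one] at hlogL hC0L
  obtain ⟨herr1, herr2, herr3, herr4, herr5⟩ := herr
  have hL' : (100:ℝ) ≤ L := by exact_mod_cast hL
  set Z := Real.exp (-((L:ℝ) ^ (1/12:ℝ))) with hZ
  set E := Real.exp (sc N : ℝ) with hE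
  have hE0 : 0 < E := Real.exp_pos _
  have hscR : ((sc N : ℕ):ℝ) ≤ (L:ℝ) + 1 := by exact_mod_cast hscN
  have hscR' : (L:ℝ) ≤ ((sc N : ℕ):ℝ) + 1 := by exact_mod_cast hLN
  have hEle : E ≤ Real.exp ((L:ℝ) + 1) := Real.exp_le_exp.mpr hscR
  have hlogNlow : Real.exp ((L:ℝ) - 2) ≤ Real.log N := by
    refine le_trans (Real.exp_le_exp.mpr ?_) (exp_sc_pred_lt (n := N) (by omega)).le
    linarith
  have hlogN0 : 0 < Real.log N := lt_of_lt_of_le (Real.exp_pos _) hlogNlow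
  have hN0 : (0:ℝ) < N := by
    rcases Nat.eq_zero_or_pos N with h | h
    · rw [h] at hlogN0; simp at hlogN0
    · exact_mod_cast h
  set M := ⌊C0 * (L:ℝ) ^ 2 * N⌋₊ with hM
  have hMR : (M:ℝ) ≤ C0 * (L:ℝ) ^ 2 * N := Nat.floor_le (by positivity)
  have hscM : sc M ≤ L + 2 := by
    rw [sc_le_iff]
    rcases Nat.eq_zero_or_pos M with h | h
    · rw [h]; simp [(Real.exp_pos _).le]
    have h1 := Real.log_le_log (by exact_mod_cast h) hMR
    rw [Real.log_mul (by positivity) hN0.ne', Real.log_mul (by positivity) (by positivity),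
      Real.log_pow] at h1
    have h2 : Real.log C0 ≤ C0 := Real.log_le_self (by linarith)
    have h3 : Real.log N ≤ Real.exp ((L:ℝ) + 1) := (log_le_exp_sc N).trans hEle
    push_cast at h1 ⊢
    have h4 : 2 * Real.exp ((L:ℝ) + 1) ≤ Real.exp ((L:ℝ) + 2) := by
      rw [show (L:ℝ) + 2 = 1 + ((L:ℝ) + 1) by ring, Real.exp_add 1]
      gcongr
      linarith [Real.add_one_le_exp (1:ℝ)]
    linarith [Real.add_one_le_exp ((L:ℝ) + 1)]
  have hpre : ∀ v ∈ S, ∃ n, 0 < n ∧ Nat.totient n = v ∧ n ≤ M := by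
    intro v hv
    obtain ⟨-, hvN, ⟨n, hn, hnv⟩, -⟩ := hS v hv
    exact ⟨n, hn, hnv, Nat.le_floor (hC0 L N n (by omega) hscN hn (hnv ▸ hvN))⟩
  set S0 := S.filter fun v ↦ v ≤ Nat.sqrt N with hS0
  set S1 := S.filter fun v ↦ ¬ SqfBig L v with hS1
  set S2 := S.filter fun v ↦ ∃ n, 0 < n ∧ n ≤ M ∧ Nat.totient n = v ∧ ¬ SqfBig L n with hS2
  set S3 := S.filter fun v ↦ ∃ n s d, Nat.totient n = v ∧ 1 ≤ n ∧ n ≤ M ∧ s ≤ L + 2 ∧ d ∣ n ∧
    (∀ l : ℕ, l.Prime → l ∣ d → sc l ≤ s) ∧ (L:ℝ) ^ 3 * Real.exp s ≤ Real.log d with hS3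
  set S4 := S.filter fun v ↦ ∃ q m, q.Prime ∧ K0 L < sc q ∧ ¬ Normal L q ∧ IsTot m ∧
    v = (q - 1) * m with hS4
  set S5 := S.filter fun v ↦ Violation L N v with hS5
  have hcover : S ⊆ ((((S0 ∪ S1) ∪ S2) ∪ S3) ∪ S4) ∪ S5 := by
    intro v hv
    obtain ⟨hv1, hvN, -, hnd⟩ := hS v hv
    obtain ⟨n, hn, hnv, hnM⟩ := hpre v hv
    simp only [Finset.mem_union, hS0, hS1, hS2, hS3, hS4, hS5, Finset.mem_filter]
    by_cases c0 : v ≤ Nat.sqrt N
    · simp [hv, c0]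
    by_cases c1 : ¬ SqfBig L v
    · simp [hv, c1]
    rw [not_not] at c1
    by_cases c2 : ¬ SqfBig L n
    · exact Or.inl (Or.inl (Or.inl (Or.inr ⟨hv, n, hn, hnM, hnv, c2⟩)))
    rw [not_not] at c2
    by_cases c3 : ∃ s d, s ≤ L + 2 ∧ d ∣ n ∧ (∀ l : ℕ, l.Prime → l ∣ d → sc l ≤ s) ∧
        (L:ℝ) ^ 3 * Real.exp s ≤ Real.log d
    · obtain ⟨s, d, h1, h2, h3, h4⟩ := c3
      exact Or.inl (Or.inl (Or.inr ⟨hv, n, s, d, hnv, hn, hnM, h1, h2, h3, h4⟩))
    by_cases c4 : ∃ q, q.Prime ∧ q ∣ n ∧ K0 L < sc q ∧ ¬ Normal L q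
    · obtain ⟨q, hq, hqd, hqK, hqn⟩ := c4
      obtain ⟨m, hm⟩ := hqd
      refine Or.inl (Or.inr ⟨hv, q, Nat.totient m, hq, hqK, hqn, ⟨m, ?_, rfl⟩, ?_⟩)
      · exact Nat.pos_of_ne_zero fun h ↦ by rw [h, mul_zero] at hm; omega
      · rw [← hnv, hm, Nat.totient_mul, Nat.totient_prime hq]
        exact hq.coprime_iff_not_dvd.mpr fun hdm ↦
          c2 q hq (by omega) (by rw [sq, hm]; exact Nat.mul_dvd_mul_left q hdm)
    simp only [not_exists, not_and, not_le, not_not] at c3 c4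
    by_contra hnone
    simp only [not_or, not_and] at hnone
    have hnoviol : ¬ Violation L N v := hnone.2 hv
    refine hnd (hnv ▸ hdec N n hLN ⟨hn, (sc_mono hnM).trans hscM, ?_, c2, hnv.symm ▸ c1, c3, c4⟩
      (hnv.symm ▸ hnoviol))
    have hv2 : N < v * v := Nat.sqrt_lt.mp (not_le.mp c0)
    have hv' : (N:ℝ) ≤ (v:ℝ) * v := by exact_mod_cast hv2.le
    have h1 := Real.log_le_log hN0 hv'
    have hvpos : (0:ℝ) < v := by exact_mod_cast hv1
    rw [Real.log_mul hvpos.ne' hvpos.ne'] at h1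
    have h2 : Real.log v ≤ Real.log n :=
      Real.log_le_log hvpos (by exact_mod_cast hnv ▸ Nat.totient_le n)
    have h4 : E ≤ 3 * Real.log N := exp_sc_le_three_mul
      (le_trans (Real.one_le_exp (by linarith)) hlogNlow)
    linarith
  have hK : 4 ≤ Real.exp (Real.exp ((K0 L / 2 : ℕ) : ℝ)) := by
    linarith [hK0.2, Real.add_one_le_exp (Real.exp ((K0 L / 2 : ℕ) : ℝ))]
  have key : ∀ (X c : ℝ), c * E ≤ Z / 5 → X ≤ (N:ℝ) * c → X ≤ (N:ℝ) / E * (Z / 5) := by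
    intro X c hc hX
    refine hX.trans ?_
    rw [div_mul_eq_mul_div, le_div_iff₀ hE0, mul_assoc]
    exact mul_le_mul_of_nonneg_left hc hN0.le
  have b0 : (S0.card : ℝ) ≤ (N:ℝ) / E * (Z / 5) := by
    refine key _ (Real.exp (-(Real.log N) / 2)) ?_ ?_
    · refine le_trans ?_ herr5
      calc Real.exp (-(Real.log N) / 2) * E
          ≤ Real.exp (-(Real.log N) / 2) * Real.exp ((L:ℝ) + 1) := by gcongr
        _ = Real.exp (-(Real.log N) / 2 + ((L:ℝ) + 1)) := (Real.exp_add _ _).symm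
        _ ≤ _ := Real.exp_le_exp.mpr (by linarith)
    · have h1 : S0.card ≤ Nat.sqrt N := by
        refine (Finset.card_le_card (t := Icc 1 (Nat.sqrt N)) fun v hv ↦ ?_).trans_eq (by simp)
        obtain ⟨hvS, hle⟩ := Finset.mem_filter.mp hv
        exact Finset.mem_Icc.mpr ⟨(hS v hvS).1, hle⟩
      calc (S0.card : ℝ) ≤ (Nat.sqrt N : ℝ) := by exact_mod_cast h1
        _ ≤ Real.sqrt N := Real.nat_sqrt_le_real_sqrt
        _ = _ := by
            rw [Real.sqrt_eq_rpow, Real.rpow_def_of_pos hN0]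
            nth_rewrite 2 [← Real.exp_log hN0]
            rw [← Real.exp_add]
            ring_nf
  have hCC : (4:ℝ) * C0 ≤ 8 * C0 + C1 := by linarith
  have hL2 : (1:ℝ) ≤ (L:ℝ) ^ 2 := one_le_pow₀ (by linarith)
  have b1 : (S1.card : ℝ) ≤ (N:ℝ) / E * (Z / 5) := by
    refine key _ ((8 * C0 + C1) * (L:ℝ) ^ 2 * Real.exp (-Real.exp ((K0 L / 2 : ℕ) : ℝ)))
      (le_trans (mul_le_mul_of_nonneg_left hEle (by positivity)) herr1) ?_
    have hinj : S1.card = (S1.image fun v ↦ v + 1).card :=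
      (Finset.card_image_of_injective _ fun a b h ↦ by simpa using h).symm
    rw [hinj]
    refine (card_not_sqf_le L N _ (by exact_mod_cast hN0) hK fun q hq ↦ ?_).trans ?_
    · obtain ⟨v, hv, rfl⟩ := Finset.mem_image.mp hq
      obtain ⟨hvS, hns⟩ := Finset.mem_filter.mp hv
      obtain ⟨h1, h2, -⟩ := hS v hvS
      exact ⟨by omega, by omega, by simpa using hns⟩
    · have : (4:ℝ) * 1 ≤ (8 * C0 + C1) * (L:ℝ) ^ 2 := by
        gcongr; linarith
      calc 4 * (N:ℝ) * Real.exp (-Real.exp ((K0 L / 2 : ℕ) : ℝ))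
          = (N:ℝ) * (4 * 1 * Real.exp (-Real.exp ((K0 L / 2 : ℕ) : ℝ))) := by ring
        _ ≤ _ := by gcongr
  have b2 : (S2.card : ℝ) ≤ (N:ℝ) / E * (Z / 5) := by
    refine key _ ((8 * C0 + C1) * (L:ℝ) ^ 2 * Real.exp (-Real.exp ((K0 L / 2 : ℕ) : ℝ)))
      (le_trans (mul_le_mul_of_nonneg_left hEle (by positivity)) herr1) ?_
    rcases Nat.eq_zero_or_pos M with hM0 | hM0
    · have : S2 = ∅ := Finset.eq_empty_of_forall_notMem fun v hv ↦ by
        obtain ⟨-, n, h1, h2, -⟩ := Finset.mem_filter.mp hv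
        omega
      rw [this, Finset.card_empty, Nat.cast_zero]; positivity
    set T := ((Icc 1 M).filter fun n ↦ ¬ SqfBig L n).image fun n ↦ n + 1 with hT
    have hle : S2.card ≤ T.card := by
      refine (Finset.card_le_card (t := T.image fun k ↦ Nat.totient (k - 1)) fun v hv ↦ ?_).trans
        Finset.card_image_le
      obtain ⟨-, n, h1, h2, h3, h4⟩ := Finset.mem_filter.mp hv
      exact Finset.mem_image.mpr ⟨n + 1, Finset.mem_image.mpr
        ⟨n, Finset.mem_filter.mpr ⟨Finset.mem_Icc.mpr ⟨h1, h2⟩, h4⟩, rfl⟩, by simpa using h3⟩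
    refine (Nat.cast_le.mpr hle).trans
      ((card_not_sqf_le L M T hM0 hK fun q hq ↦ ?_).trans ?_)
    · obtain ⟨n, hn, rfl⟩ := Finset.mem_image.mp hq
      obtain ⟨hnI, hns⟩ := Finset.mem_filter.mp hn
      have := Finset.mem_Icc.mp hnI
      exact ⟨by omega, by omega, by simpa using hns⟩
    · calc 4 * (M:ℝ) * Real.exp (-Real.exp ((K0 L / 2 : ℕ) : ℝ))
          ≤ 4 * (C0 * (L:ℝ) ^ 2 * N) * Real.exp (-Real.exp ((K0 L / 2 : ℕ) : ℝ)) := by gcongr
        _ = (N:ℝ) * ((4 * C0) * (L:ℝ) ^ 2 * Real.exp (-Real.exp ((K0 L / 2 : ℕ) : ℝ))) := by ring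
        _ ≤ _ := by gcongr
  have b3 : (S3.card : ℝ) ≤ (N:ℝ) / E * (Z / 5) := by
    set C := 8 * C0 + C1 with hC
    refine key _ (C * ((L:ℝ) ^ 3 * (L:ℝ) ^ 0)
      * Real.exp (-((L:ℝ) ^ 3 / 2) + 15 * ((L:ℝ) + 4 + C))) ?_ ?_
    · rw [pow_zero, mul_one]
      exact le_trans (mul_le_mul_of_nonneg_left hEle (by positivity)) herr2
    · refine (hC1 L M S3 (by omega) fun v hv ↦ (Finset.mem_filter.mp hv).2).trans ?_
      have h1 : ((L:ℝ) + 3) * (C0 * (L:ℝ) ^ 2) ≤ C * ((L:ℝ) ^ 3 * (L:ℝ) ^ 0) := by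
        rw [pow_zero, mul_one]
        calc ((L:ℝ) + 3) * (C0 * (L:ℝ) ^ 2) ≤ (2 * (L:ℝ)) * (C0 * (L:ℝ) ^ 2) := by
              gcongr; linarith
          _ = (2 * C0) * (L:ℝ) ^ 3 := by ring
          _ ≤ _ := by gcongr; linarith
      calc ((L:ℝ) + 3) * ((M:ℝ) * Real.exp (-((L:ℝ) ^ 3 / 2) + 15 * ((L:ℝ) + 4 + C1)))
          ≤ ((L:ℝ) + 3) * ((C0 * (L:ℝ) ^ 2 * N)
              * Real.exp (-((L:ℝ) ^ 3 / 2) + 15 * ((L:ℝ) + 4 + C))) := by
            gcongr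
            linarith
        _ = (N:ℝ) * ((((L:ℝ) + 3) * (C0 * (L:ℝ) ^ 2))
              * Real.exp (-((L:ℝ) ^ 3 / 2) + 15 * ((L:ℝ) + 4 + C))) := by ring
        _ ≤ _ := by gcongr
  have b4 : (S4.card : ℝ) ≤ B * ((N:ℝ) / E * Z) := by
    refine (hab N B S4 hscN hLN hB hV fun v hv ↦ ?_).trans ?_
    · obtain ⟨hvS, h⟩ := Finset.mem_filter.mp hv
      exact ⟨(hS v hvS).1, (hS v hvS).2.1, h⟩
    · rw [← hE]
      calc B * (N:ℝ) / E * Real.exp (-((L:ℝ) ^ (1/11:ℝ))) ≤ B * (N:ℝ) / E * Z := by gcongr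
        _ = _ := by ring
  have b5 : (S5.card : ℝ) ≤ (N:ℝ) / E * (Z / 5) := by
    refine (hviol N S5 hscN fun v hv ↦ ?_).trans ?_
    · obtain ⟨hvS, h⟩ := Finset.mem_filter.mp hv
      exact ⟨(hS v hvS).1, (hS v hvS).2.1, h⟩
    · rw [← hE]
      gcongr
  have hcard : S.card ≤ S0.card + S1.card + S2.card + S3.card + S4.card + S5.card := by
    refine (Finset.card_le_card hcover).trans ?_
    have := Finset.card_union_le ((((S0 ∪ S1) ∪ S2) ∪ S3) ∪ S4) S5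
    have := Finset.card_union_le (((S0 ∪ S1) ∪ S2) ∪ S3) S4
    have := Finset.card_union_le ((S0 ∪ S1) ∪ S2) S3
    have := Finset.card_union_le (S0 ∪ S1) S2
    have := Finset.card_union_le S0 S1
    omega
  have hcardR : (S.card : ℝ)
      ≤ (S0.card : ℝ) + S1.card + S2.card + S3.card + S4.card + S5.card := by
    exact_mod_cast hcard
  have hfin : (1 + B) * (N:ℝ) / E * Z = (N:ℝ) / E * Z + B * ((N:ℝ) / E * Z) := by ring
  linarith

end Vale.Agent.P031
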