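import Mathlib
import Vale.Agent.P031.Decomp

/-!
A crude upper bound for the number of totients, by induction.
-/

namespace Vale.Agent.P031

open Finset Real Filter Topology

/-- The growth factor of the crude bound. -/
noncomputable def crudeG (s : ℕ) : ℝ := Real.exp (400 * Real.log ((s:ℝ) + 3) ^ 2)

lemma crudeG_one_le (s : ℕ) : 1 ≤ crudeG s := Real.one_le_exp (by positivity)

lemma crudeG_mono {s t : ℕ} (h : s ≤ t) : crudeG s ≤ crudeG t := by
  unfold crudeG
  have : 0 ≤ Real.log ((s:ℝ) + 3) := Real.log_nonneg (by linarith [Nat.cast_nonneg (α := ℝ) s])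
  gcongr

lemma Vn_le_self (N : ℕ) : Vn N ≤ N := by
  classical
  rw [(mem_Vn_filter (m := 0)).1]
  exact (Finset.card_filter_le _ _).trans (by simp)

lemma Vn_succ_le (N : ℕ) : Vn (N + 1) ≤ Vn N + 1 := by
  classical
  rw [(mem_Vn_filter (m := 0)).1, (mem_Vn_filter (m := 0)).1]
  refine (Finset.card_le_card (t := insert (N + 1) ((Icc 1 N).filter IsTot)) fun v hv ↦ ?_).trans
    (Finset.card_insert_le _ _)
  obtain ⟨hI, hT⟩ := Finset.mem_filter.mp hv
  have := Finset.mem_Icc.mp hI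
  rw [Finset.mem_insert, Finset.mem_filter, Finset.mem_Icc]
  rcases Nat.lt_or_ge v (N + 1) with h | h
  · exact Or.inr ⟨⟨this.1, by omega⟩, hT⟩
  · exact Or.inl (by omega)

/-- Totients in a dyadic decomposition: a reciprocal sum bound from a counting bound. -/
lemma sum_inv_tot_le (L' : ℕ) (B : ℝ) (T : Finset ℕ) (hB : 0 ≤ B)
    (hT : ∀ m ∈ T, 1 ≤ m ∧ IsTot m ∧ sc m ≤ L')
    (hV : ∀ z : ℕ, sc z ≤ L' + 1 → (∃ m ∈ T, z ≤ 2 * m) →
      (Vn z : ℝ) ≤ B * z / Real.log ((z:ℝ) + 3)) :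
    ∑ m ∈ T, (1:ℝ) / m ≤ 1 + 4 * B * ((L':ℝ) + 4) := by
  classical
  set T2 := T.filter fun m ↦ 2 ≤ m with hT2
  have hle : ∑ m ∈ T, (1:ℝ) / m ≤ 1 + ∑ m ∈ T2, (1:ℝ) / m := by
    rw [← Finset.sum_filter_add_sum_filter_not T (fun m ↦ 2 ≤ m), ← hT2, add_comm]
    gcongr
    refine (Finset.sum_le_sum_of_subset_of_nonneg (t := {1}) (fun m hm ↦ ?_)
      (fun i _ _ ↦ by positivity)).trans (by simp)
    obtain ⟨hmT, hm2⟩ := Finset.mem_filter.mp hm
    have := (hT m hmT).1
    simp only [Finset.mem_singleton]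
    omega
  set E := Real.exp (L':ℝ) with hE
  have hl2 := Real.log_two_gt_d9
  set K := ⌈2 * E⌉₊ with hK
  have hpow : ∀ m ∈ T2, 2 ≤ m ∧ m ≤ 2 ^ (K + 1) := by
    intro m hm
    obtain ⟨hmT, hm2⟩ := Finset.mem_filter.mp hm
    refine ⟨hm2, ?_⟩
    have h1 : Real.log m ≤ E := sc_le_iff.mp (hT m hmT).2.2
    have h2 : Real.log m ≤ Real.log ((2:ℝ) ^ (K + 1)) := by
      rw [Real.log_pow]
      have h3 : 2 * E ≤ (K:ℝ) := Nat.le_ceil _
      have := mul_le_mul_of_nonneg_left hl2.le (Nat.cast_nonneg (α := ℝ) (K + 1))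
      push_cast at this ⊢
      linarith
    have hm0 : (0:ℝ) < m := by exact_mod_cast (by omega : 0 < m)
    have := (Real.log_le_log_iff hm0 (by positivity)).mp h2
    exact_mod_cast this
  refine hle.trans (add_le_add le_rfl ?_)
  refine (sum_dyadic_le T2 (K + 1) _ (fun m _ ↦ by positivity) hpow).trans ?_
  have hterm : ∀ i ∈ Finset.range (K + 1),
      ∑ m ∈ T2.filter (fun m ↦ 2 ^ i < m ∧ m ≤ 2 ^ (i + 1)), (1:ℝ) / m
        ≤ 2 * B / Real.log 2 * (1 / ((i:ℝ) + 1)) := by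
    intro i _
    set Si := T2.filter fun m ↦ 2 ^ i < m ∧ m ≤ 2 ^ (i + 1) with hSi
    rcases Si.eq_empty_or_nonempty with he | ⟨m₀, hm₀⟩
    · rw [he, Finset.sum_empty]; positivity
    set z := 2 ^ (i + 1) with hz
    obtain ⟨hm₀T, hm₀1, -⟩ := Finset.mem_filter.mp hm₀
    have hz2 : z ≤ 2 * m₀ := by rw [hz, pow_succ]; omega
    have hm₀T' := (Finset.mem_filter.mp hm₀T).1
    have hscz : sc z ≤ L' + 1 :=
      (sc_mono hz2).trans ((sc_two_mul_le (Finset.mem_filter.mp hm₀T).2).trans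
        (by have := (hT m₀ hm₀T').2.2; omega))
    have hcard : (Si.card : ℝ) ≤ Vn z := by
      rw [(mem_Vn_filter (m := 0)).1]
      refine Nat.cast_le.mpr (Finset.card_le_card fun m hm ↦ ?_)
      obtain ⟨hm2, -, hmz⟩ := Finset.mem_filter.mp hm
      obtain ⟨h1, h2, -⟩ := hT m (Finset.mem_filter.mp hm2).1
      exact Finset.mem_filter.mpr ⟨Finset.mem_Icc.mpr ⟨h1, hmz⟩, h2⟩
    have hlogz : ((i:ℝ) + 1) * Real.log 2 ≤ Real.log ((z:ℝ) + 3) := by
      rw [show ((i:ℝ) + 1) * Real.log 2 = Real.log ((2:ℝ) ^ (i + 1)) by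
        rw [Real.log_pow]; push_cast; ring]
      refine Real.log_le_log (by positivity) ?_
      rw [hz]; push_cast
      linarith
    calc ∑ m ∈ Si, (1:ℝ) / m ≤ ∑ _m ∈ Si, (1:ℝ) / ((2:ℝ) ^ i) := by
          refine Finset.sum_le_sum fun m hm ↦ ?_
          obtain ⟨-, h1, -⟩ := Finset.mem_filter.mp hm
          gcongr
          exact_mod_cast h1.le
      _ = (Si.card : ℝ) / (2:ℝ) ^ i := by
          rw [Finset.sum_const, nsmul_eq_mul]; ring
      _ ≤ (B * z / Real.log ((z:ℝ) + 3)) / (2:ℝ) ^ i := by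
          gcongr
          exact hcard.trans (hV z hscz ⟨m₀, hm₀T', hz2⟩)
      _ = 2 * B * (1 / Real.log ((z:ℝ) + 3)) := by
          rw [hz, pow_succ]; push_cast; field_simp
      _ ≤ 2 * B * (1 / (((i:ℝ) + 1) * Real.log 2)) := by gcongr
      _ = _ := by field_simp
  refine (Finset.sum_le_sum hterm).trans ?_
  rw [← Finset.mul_sum]
  have hs := sum_range_inv_succ_le (K + 1) (by omega)
  have hKlog : Real.log ((K + 1 : ℕ) : ℝ) ≤ (L':ℝ) + 2 := by
    have hE1 : 1 ≤ E := Real.one_le_exp (Nat.cast_nonneg _)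
    have h1 : (K:ℝ) < 2 * E + 1 := Nat.ceil_lt_add_one (by positivity)
    have h2 : ((K + 1 : ℕ) : ℝ) ≤ Real.exp 2 * E := by
      have h3 := Real.quadratic_le_exp_of_nonneg (show (0:ℝ) ≤ 2 by norm_num)
      have : 5 * E ≤ Real.exp 2 * E := by gcongr; linarith
      push_cast
      linarith
    have := Real.log_le_log (by positivity) h2
    rw [Real.log_mul (by positivity) (by positivity), Real.log_exp, hE, Real.log_exp] at this
    linarith
  calc 2 * B / Real.log 2 * ∑ i ∈ Finset.range (K + 1), (1:ℝ) / ((i:ℝ) + 1)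
      ≤ 4 * B * ((L':ℝ) + 4) := by
        refine mul_le_mul ?_ (by linarith) (Finset.sum_nonneg fun i _ ↦ by positivity)
          (by positivity)
        rw [div_le_iff₀ (by positivity)]
        have := mul_le_mul_of_nonneg_left hl2.le (by positivity : 0 ≤ 4 * B)
        linarith
    _ = _ := rfl

/-- The first two levels of a chain force the rest to be small. -/
lemma ev_rest_small : ∀ᶠ L : ℕ in atTop, ∀ (q0 : ℕ) (qs : List ℕ) (w : ℕ),
    Chain L (q0 :: qs) w → sc q0 ≤ L + 3 →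
    sc (cval (qs.drop 1) w) ≤ 9 * L / 10 + 1 := by
  filter_upwards [ev_mul_rpow_le (a := 13/20) (b := 1) (by norm_num) 100,
    ev_mul_rpow_le (a := 7/10) (b := 1) (by norm_num) 100,
    ev_log_le_rpow (b := 1) (by norm_num) 400, eventually_ge_atTop 1000]
    with L hKA hK0 hlog hL q0 qs w hc hq0
  rw [Real.rpow_one] at hKA hK0 hlog
  have hL' : (1000:ℝ) ≤ L := by exact_mod_cast hL
  set σ : ℕ → ℕ := fun r ↦ sc (qs.getD r 0) with hσ
  have hanti : Antitone σ := antitone_sc_getD (List.pairwise_cons.mp hc.sorted).2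
  have hstep : Phi qs ≤ (sc q0 : ℝ) + KA L := hc.step [] q0 qs rfl
  have hlow : acoef 0 * σ 0 + acoef 1 * σ 1 ≤ Phi qs := by
    rw [Phi_eq_PhiK (k := max 2 qs.length) (le_max_right _ _)]
    unfold PhiK
    refine le_trans (le_of_eq ?_) (Finset.sum_le_sum_of_subset_of_nonneg
      (Finset.range_subset_range.mpr (le_max_left 2 qs.length))
      fun r _ _ ↦ mul_nonneg (acoef_nonneg r) (Nat.cast_nonneg _))
    rw [Finset.sum_range_succ, Finset.sum_range_one]
  have h10 : (σ 1 : ℝ) ≤ σ 0 := by exact_mod_cast hanti (Nat.zero_le 1)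
  have hm := mul_le_mul_of_nonneg_left h10 (acoef_nonneg 0)
  have h128 := mul_le_mul_of_nonneg_right acoef_zero_add_one (Nat.cast_nonneg (α := ℝ) (σ 1))
  have hq0' : (sc q0 : ℝ) ≤ (L:ℝ) + 3 := by exact_mod_cast hq0
  have hKA' : 100 * KA L ≤ (L:ℝ) := hKA
  have hs1 : (σ 1 : ℝ) ≤ 0.83 * L := by linarith
  have hw : 0 < cval (qs.drop 1) w := (hc.tail_of_cons.drop 1).cval_pos
  have hlogw : Real.log (cval (qs.drop 1) w) ≤
      (qs.drop 1).length * Real.exp (0.83 * (L:ℝ)) + (L:ℝ) ^ 3 * Real.exp (K0 L) := by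
    rw [cval, Nat.cast_mul, Real.log_mul
      (Nat.cast_ne_zero.mpr (fun h ↦ by rw [cval, h, zero_mul] at hw; omega))
      (Nat.cast_ne_zero.mpr hc.w_pos.ne')]
    refine add_le_add ?_ hc.log_w_le
    have key : ∀ l : List ℕ, (∀ x ∈ l, x.Prime ∧ Real.log x ≤ Real.exp (0.83 * (L:ℝ))) →
        Real.log (prodPred l : ℕ) ≤ (l.length : ℝ) * Real.exp (0.83 * (L:ℝ)) := by
      intro l
      induction l with
      | nil => intro _; simp [prodPred]
      | cons x t ih =>
        intro h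
        obtain ⟨hx, hxl⟩ := h x List.mem_cons_self
        have ht := ih fun y hy ↦ h y (List.mem_cons_of_mem _ hy)
        have h2 := hx.two_le
        have hne : prodPred t ≠ 0 :=
          prodPred_ne_zero fun y hy ↦ (h y (List.mem_cons_of_mem _ hy)).1
        rw [prodPred_cons, Nat.cast_mul, Real.log_mul (Nat.cast_ne_zero.mpr (by omega))
          (Nat.cast_ne_zero.mpr hne), List.length_cons]
        have : Real.log ((x - 1 : ℕ) : ℝ) ≤ Real.log x :=
          Real.log_le_log (by exact_mod_cast (by omega : 0 < x - 1))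
            (by exact_mod_cast Nat.sub_le x 1)
        push_cast
        linarith
    refine key _ fun x hx ↦ ⟨(hc.normal x (List.mem_cons_of_mem _ (List.mem_of_mem_drop hx))).prime,
      (log_le_exp_sc x).trans (Real.exp_le_exp.mpr (le_trans ?_ hs1))⟩
    obtain ⟨i, hi, rfl⟩ := List.getElem_of_mem hx
    rw [List.getElem_drop]
    have hlt : 1 + i < qs.length := by simp at hi; omega
    have := hanti (show 1 ≤ 1 + i by omega)
    simp only [hσ, List.getD_eq_getElem _ _ hlt] at this ⊢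
    exact_mod_cast this
  rw [sc_le_iff]
  refine hlogw.trans ?_
  have hlen : ((qs.drop 1).length : ℝ) ≤ (L:ℝ) ^ 3 := by
    have h1 : (qs.drop 1).length ≤ kk L := by
      have := hc.len
      simp at this ⊢
      omega
    have h2 : (kk L : ℝ) ≤ 2 * (L:ℝ) := by
      refine (kk_le (by omega)).trans ?_
      gcongr
      simpa using Real.rpow_le_rpow_of_exponent_le (show (1:ℝ) ≤ L by linarith)
        (by norm_num : (1/100:ℝ) ≤ 1)
    have h3 : ((qs.drop 1).length : ℝ) ≤ (kk L : ℝ) := by exact_mod_cast h1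
    have h4 : 2 * (L:ℝ) ≤ (L:ℝ) ^ 3 := by
      rw [show (L:ℝ) ^ 3 = (L * L) * L by ring]
      gcongr
      nlinarith
    linarith
  have hK : (K0 L : ℝ) ≤ 0.83 * L := by
    have hc := Nat.ceil_lt_add_one (a := (L:ℝ) ^ (7/10:ℝ)) (by positivity)
    have : (K0 L : ℝ) < (L:ℝ) ^ (7/10:ℝ) + 1 := hc
    linarith
  calc ((qs.drop 1).length : ℝ) * Real.exp (0.83 * (L:ℝ)) + (L:ℝ) ^ 3 * Real.exp (K0 L)
      ≤ (L:ℝ) ^ 3 * Real.exp (0.83 * (L:ℝ)) + (L:ℝ) ^ 3 * Real.exp (0.83 * (L:ℝ)) := by gcongr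
    _ = Real.exp (Real.log 2 + (((3:ℕ):ℝ) * Real.log L + 0.83 * (L:ℝ))) := by
        rw [Real.exp_add, Real.exp_add, Real.exp_nat_mul, Real.exp_log (by norm_num),
          Real.exp_log (by linarith)]
        ring
    _ ≤ _ := by
        refine Real.exp_le_exp.mpr ?_
        have h9 : 9 * L ≤ 10 * (9 * L / 10 + 1) := by omega
        have h9' : 9 * (L:ℝ) ≤ 10 * ((9 * L / 10 + 1 : ℕ) : ℝ) := by exact_mod_cast h9
        have := Real.log_two_lt_d9
        push_cast
        push_cast at h9'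
        linarith

lemma ev_induction_margin (C C4 : ℝ) : ∀ᶠ L : ℕ in atTop,
    (1 + 4 * ((L:ℝ) + 4)) * (C * (L:ℝ) ^ 10 * (2 * ((L:ℝ) + 3 + C4)))
        * crudeG (9 * L / 10 + 2) ≤ crudeG L / 8 ∧
    Real.exp (-((L:ℝ) ^ (1/12:ℝ))) ≤ 1 / 16 := by
  filter_upwards [eventually_ge_atTop 1000, ev_log_le_rpow (b := 1) (by norm_num) 1,
    ev_const_le_rpow (b := 1/12) (by norm_num) 16,
    ev_const_le_rpow (b := 1) (by norm_num) (|C| + |C4| + 10)] with L hL _ h12 hC
  rw [Real.rpow_one] at hC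
  have hL' : (1000:ℝ) ≤ L := by exact_mod_cast hL
  refine ⟨?_, ?_⟩
  swap
  · rw [Real.exp_neg, ← one_div]
    gcongr
    linarith [Real.add_one_le_exp ((L:ℝ) ^ (1/12:ℝ))]
  set s := 9 * L / 10 + 2 with hs
  set a := Real.log ((L:ℝ) + 3) with ha
  set b := Real.log ((s:ℝ) + 3) with hb
  have ha6 : (6:ℝ) ≤ a := by
    rw [ha, Real.le_log_iff_exp_le (by linarith), show (6:ℝ) = ((6:ℕ):ℝ) * 1 by norm_num,
      Real.exp_nat_mul]
    have := Real.exp_one_lt_d9
    calc Real.exp 1 ^ 6 ≤ (3:ℝ) ^ 6 := by gcongr; linarith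
      _ ≤ _ := by norm_num; linarith
  have hsL : (s:ℝ) + 3 ≤ 0.92 * ((L:ℝ) + 3) := by
    have : 10 * s ≤ 9 * L + 20 := by omega
    have : 10 * (s:ℝ) ≤ 9 * L + 20 := by exact_mod_cast this
    linarith
  have hb0 : 0 ≤ b := Real.log_nonneg (by linarith [Nat.cast_nonneg (α := ℝ) s])
  have hab : b + 0.08 ≤ a := by
    have h := Real.log_le_log (by positivity) hsL
    rw [Real.log_mul (by norm_num) (by linarith), ← hb, ← ha] at h
    have := Real.log_le_sub_one_of_pos (show (0:ℝ) < 0.92 by norm_num)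
    norm_num at this h ⊢
    linarith
  have hdiff : 32 * a ≤ 400 * a ^ 2 - 400 * b ^ 2 := by
    have h1 : (0.08:ℝ) * a ≤ (a - b) * (a + b) :=
      mul_le_mul (by linarith) (by linarith) (by linarith) (by linarith)
    linarith [show (a - b) * (a + b) = a ^ 2 - b ^ 2 by ring]
  have hP : (1 + 4 * ((L:ℝ) + 4)) * (C * (L:ℝ) ^ 10 * (2 * ((L:ℝ) + 3 + C4))) * 8
      ≤ ((L:ℝ) + 3) ^ 32 := by
    set x := (L:ℝ) + 3 with hx
    have hx1 : (1:ℝ) ≤ x := by linarith
    have e1 : 1 + 4 * ((L:ℝ) + 4) ≤ x ^ 2 := by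
      have : 8 * x ≤ x * x := by gcongr; linarith
      linarith [sq x]
    have e2 : C ≤ x := by linarith [le_abs_self C, abs_nonneg C4]
    have e2' : |C| ≤ x := by linarith [abs_nonneg C4]
    have e3 : |2 * ((L:ℝ) + 3 + C4)| ≤ x ^ 2 := by
      rw [abs_le]
      have : 8 * x ≤ x * x := by gcongr; linarith
      constructor <;> linarith [sq x, le_abs_self C4, neg_abs_le C4, abs_nonneg C]
    have e4 : (L:ℝ) ^ 10 ≤ x ^ 10 := by gcongr; linarith
    calc (1 + 4 * ((L:ℝ) + 4)) * (C * (L:ℝ) ^ 10 * (2 * ((L:ℝ) + 3 + C4))) * 8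
        ≤ (1 + 4 * ((L:ℝ) + 4)) * (|C| * (L:ℝ) ^ 10 * |2 * ((L:ℝ) + 3 + C4)|) * 8 := by
          refine mul_le_mul_of_nonneg_right (mul_le_mul_of_nonneg_left ?_ (by positivity))
            (by norm_num)
          refine le_trans (le_abs_self _) (le_of_eq ?_)
          rw [abs_mul, abs_mul C, abs_of_nonneg (show (0:ℝ) ≤ (L:ℝ) ^ 10 by positivity)]
      _ ≤ x ^ 2 * (x * x ^ 10 * x ^ 2) * x := by gcongr; linarith
      _ = x ^ 16 := by ring
      _ ≤ _ := pow_le_pow_right₀ hx1 (by norm_num)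
  rw [le_div_iff₀ (by norm_num : (0:ℝ) < 8), mul_right_comm]
  calc (1 + 4 * ((L:ℝ) + 4)) * (C * (L:ℝ) ^ 10 * (2 * ((L:ℝ) + 3 + C4))) * 8 * crudeG s
      ≤ ((L:ℝ) + 3) ^ 32 * crudeG s := by
        refine mul_le_mul_of_nonneg_right hP (Real.exp_pos _).le
    _ = Real.exp (((32:ℕ):ℝ) * a + 400 * b ^ 2) := by
        rw [Real.exp_add, Real.exp_nat_mul, ha, Real.exp_log (by linarith)]; rfl
    _ ≤ _ := by
        unfold crudeG
        refine Real.exp_le_exp.mpr ?_
        rw [← ha]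
        push_cast
        linarith

/-- The crude bound `V(N) ≪ N exp(O((log log log N)^2)) / log N`. -/
theorem exists_crude_bound :
    ∃ C, 1 ≤ C ∧ ∀ N : ℕ, (Vn N : ℝ) ≤ C * N * crudeG (sc N) / Real.log ((N:ℝ) + 3) := by
  obtain ⟨Ct, hCt1, hCt⟩ := exists_count_top
  obtain ⟨C4, hC40, hC4⟩ := exists_abs_sum_primesSc
  obtain ⟨L0, hL0⟩ := (Filter.eventually_atTop.mp
    (((ev_decomp.and ev_rest_small).and (ev_induction_margin (2 * (2 * Ct)) C4)).and
      (eventually_ge_atTop 1000)))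
  refine ⟨2 + Real.exp (L0:ℝ), by linarith [Real.exp_pos (L0:ℝ)], fun N ↦ ?_⟩
  set C := 2 + Real.exp (L0:ℝ) with hC
  have hC1 : 1 ≤ C := by linarith [Real.exp_pos (L0:ℝ)]
  induction N using Nat.strong_induction_on with
  | _ N ih =>
  have hN3 : 0 < Real.log ((N:ℝ) + 3) :=
    Real.log_pos (by linarith [Nat.cast_nonneg (α := ℝ) N])
  rcases Nat.lt_or_ge (sc N) L0 with hsmall | hbig
  · rw [le_div_iff₀ hN3]
    have h1 : (Vn N : ℝ) ≤ N := by exact_mod_cast Vn_le_self N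
    have h2 : Real.log ((N:ℝ) + 3) ≤ C := by
      rcases Nat.eq_zero_or_pos N with h | h
      · rw [h, Nat.cast_zero, zero_add]
        have := Real.log_le_sub_one_of_pos (show (0:ℝ) < 3 by norm_num)
        linarith [Real.exp_pos (L0:ℝ)]
      · have hN1 : (1:ℝ) ≤ N := by exact_mod_cast h
        have h4 : Real.log ((N:ℝ) + 3) ≤ Real.log (4 * N) :=
          Real.log_le_log (by linarith) (by linarith)
        rw [Real.log_mul (by norm_num) (by linarith), show (4:ℝ) = 2 ^ 2 by norm_num,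
          Real.log_pow] at h4
        have h5 : Real.log N ≤ Real.exp (L0:ℝ) := sc_le_iff.mp hsmall.le
        have := Real.log_two_lt_d9
        push_cast at h4
        linarith
    calc (Vn N : ℝ) * Real.log ((N:ℝ) + 3) ≤ (N:ℝ) * C := by gcongr
      _ ≤ C * N * crudeG (sc N) := by
          rw [mul_comm (N:ℝ) C]
          exact le_mul_of_one_le_right (by positivity) (crudeG_one_le _)
  obtain ⟨⟨⟨hdec, hrest⟩, hmarg, hZ⟩, hL1000⟩ := hL0 (sc N) hbig
  set L := sc N with hL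
  set G := crudeG L with hG
  have hG1 : 1 ≤ G := crudeG_one_le L
  have hL' : (1000:ℝ) ≤ L := by exact_mod_cast hL1000
  have hN1 : 1 ≤ N := by
    by_contra h
    have h0 : N = 0 := by omega
    rw [hL, h0, sc_zero] at hL1000
    omega
  have hlogN : Real.log ((N:ℝ) + 3) ≤ 3/2 * Real.exp (L:ℝ) := by
    have hN1' : (1:ℝ) ≤ N := by exact_mod_cast hN1
    have h4 : Real.log ((N:ℝ) + 3) ≤ Real.log (4 * N) :=
      Real.log_le_log (by linarith) (by linarith)
    rw [Real.log_mul (by norm_num) (by linarith), show (4:ℝ) = 2 ^ 2 by norm_num,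
      Real.log_pow] at h4
    have h5 : Real.log N ≤ Real.exp (L:ℝ) := log_le_exp_sc N
    have := Real.log_two_lt_d9
    have := Real.add_one_le_exp (L:ℝ)
    push_cast at h4
    linarith
  -- the hypothesis needed by the decomposition
  have hV : ∀ z : ℕ, z ≤ N → (Vn z : ℝ) ≤ (4 * C * G) * z / Real.log ((z:ℝ) + 3) := by
    intro z hz
    have hz3 : 0 < Real.log ((z:ℝ) + 3) :=
      Real.log_pos (by linarith [Nat.cast_nonneg (α := ℝ) z])
    have hlt : ∀ y : ℕ, y < N → (Vn y : ℝ) ≤ C * G * y / Real.log ((y:ℝ) + 3) := by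
      intro y hy
      refine (ih y hy).trans ?_
      rw [div_le_div_iff_of_pos_right (Real.log_pos (by linarith [Nat.cast_nonneg (α := ℝ) y]))]
      calc C * (y:ℝ) * crudeG (sc y) ≤ C * (y:ℝ) * G :=
            mul_le_mul_of_nonneg_left (crudeG_mono (sc_mono hy.le)) (by positivity)
        _ = _ := by ring
    rcases Nat.lt_or_ge z N with h | h
    · refine (hlt z h).trans ?_
      gcongr
      linarith
    · have hzN : z = N := le_antisymm hz h
      subst hzN
      obtain ⟨M, rfl⟩ : ∃ M, z = M + 1 := ⟨z - 1, by omega⟩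
      have hM := hlt M (by omega)
      have hM3 : 0 < Real.log ((M:ℝ) + 3) :=
        Real.log_pos (by linarith [Nat.cast_nonneg (α := ℝ) M])
      have hstep : (Vn (M + 1) : ℝ) ≤ Vn M + 1 := by exact_mod_cast Vn_succ_le M
      push_cast at hz3 ⊢
      refine hstep.trans ((add_le_add hM le_rfl).trans ?_)
      have hlog2 : Real.log ((M:ℝ) + 1 + 3) ≤ 2 * Real.log ((M:ℝ) + 3) := by
        have h9 : Real.log ((M:ℝ) + 1 + 3) ≤ Real.log (((M:ℝ) + 3) ^ 2) := by
          refine Real.log_le_log (by positivity) ?_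
          nlinarith [Nat.cast_nonneg (α := ℝ) M]
        rwa [Real.log_pow, Nat.cast_ofNat] at h9
      have hCG : (1:ℝ) ≤ C * G := one_le_mul_of_one_le_of_one_le hC1 hG1
      have e1 : C * G * (M:ℝ) / Real.log ((M:ℝ) + 3)
          ≤ 2 * C * G * ((M:ℝ) + 1) / Real.log ((M:ℝ) + 1 + 3) := by
        rw [div_le_div_iff₀ hM3 hz3]
        calc C * G * (M:ℝ) * Real.log ((M:ℝ) + 1 + 3)
            ≤ C * G * ((M:ℝ) + 1) * (2 * Real.log ((M:ℝ) + 3)) := by gcongr; linarith
          _ = _ := by ring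
      have e2 : (1:ℝ) ≤ 2 * C * G * ((M:ℝ) + 1) / Real.log ((M:ℝ) + 1 + 3) := by
        rw [le_div_iff₀ hz3, one_mul]
        have h6 := Real.log_le_sub_one_of_pos (show (0:ℝ) < ((M:ℝ) + 1 + 3) / 2 by positivity)
        rw [Real.log_div (by positivity) (by norm_num)] at h6
        have h7 : 2 * ((M:ℝ) + 1) * 1 ≤ 2 * ((M:ℝ) + 1) * (C * G) := by gcongr
        linarith [Real.log_two_lt_d9, Nat.cast_nonneg (α := ℝ) M]
      calc C * G * (M:ℝ) / Real.log ((M:ℝ) + 3) + 1
          ≤ 2 * (2 * C * G * ((M:ℝ) + 1) / Real.log ((M:ℝ) + 1 + 3)) := by linarith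
        _ = _ := by ring
  classical
  set Bad := (Icc 1 N).filter fun v ↦ IsTot v ∧ ¬ HasDecomp L N v with hBad
  set Dec := (Icc 1 N).filter fun v ↦ IsTot v ∧ HasDecomp L N v with hDec
  set L' := 9 * L / 10 + 1 with hL'def
  set B' := 4 * C * crudeG (L' + 1) with hB'
  have hB'0 : 1 ≤ 4 * C * crudeG (L' + 1) := by
    refine one_le_mul_of_one_le_of_one_le (by linarith) (crudeG_one_le _)
  have hbad : (Bad.card : ℝ) ≤ (1 + 4 * C * G) * N / Real.exp (L:ℝ) * (1/16) := by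
    refine (hdec N (4 * C * G) Bad (by omega) (by omega) (by positivity) hV fun v hv ↦ ?_).trans ?_
    · obtain ⟨hI, h1, h2⟩ := Finset.mem_filter.mp hv
      exact ⟨(Finset.mem_Icc.mp hI).1, (Finset.mem_Icc.mp hI).2, h1, h2⟩
    · rw [← hL]; gcongr
  set Tot' := (Icc 1 N).filter fun m ↦ IsTot m ∧ sc m ≤ L' with hTot'
  set T := (primesSc (L + 3) ×ˢ Tot').image fun x ↦ (x.1 - 1) * x.2 with hT
  have hscM : sc (2 * N) ≤ L + 4 := by
    rcases Nat.lt_or_ge N 2 with h | h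
    · have : N = 1 := by omega
      rw [hL, this] at hL1000
      simp [sc] at hL1000
    · exact (sc_two_mul_le h).trans (by omega)
  have hdecb := hCt L (2 * N) (Real.exp (L:ℝ) / (L:ℝ) ^ 4) T Dec (fun R m ↦ (R - 1) * m)
    (by omega) hscM (by positivity) fun v hv ↦ by
    obtain ⟨hI, -, q, qs, w, hc, hval, -, hhead⟩ := Finset.mem_filter.mp hv
    obtain ⟨hv1, hvN⟩ := Finset.mem_Icc.mp hI
    have hqp := (hc.normal q List.mem_cons_self).prime
    have h2 := hqp.two_le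
    have hscq := (hc.scale q List.mem_cons_self).2
    set m2 := cval (qs.drop 1) w with hm2
    have hm2pos : 0 < m2 := (hc.tail_of_cons.drop 1).cval_pos
    have hm2tot : IsTot m2 := (hc.tail_of_cons.drop 1).isTot
    have hm2sc : sc m2 ≤ L' := hrest q qs w hc hscq
    obtain ⟨p, hp, hpval⟩ : ∃ p, p ∈ primesSc (L + 3) ∧ cval qs w = (p - 1) * m2 := by
      cases qs with
      | nil =>
        refine ⟨2, mem_primesSc.mpr ⟨Nat.prime_two, ?_⟩, by simp [hm2]⟩
        exact (sc_mono h2).trans hscq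
      | cons x t =>
        exact ⟨x, mem_primesSc.mpr ⟨(hc.normal x (by simp)).prime, (hc.scale x (by simp)).2⟩,
          by simp [hm2, cval_cons]⟩
    have hvm : (q - 1) * ((p - 1) * m2) = v := by rw [← hpval, ← cval_cons, hval]
    have hp2 := (mem_primesSc.mp hp).1.two_le
    have hmpos : 0 < (p - 1) * m2 := Nat.mul_pos (by omega) hm2pos
    have hm2N : m2 ≤ N := by
      refine le_trans ?_ (hvm ▸ hvN)
      exact (Nat.le_mul_of_pos_left _ (by omega)).trans (Nat.le_mul_of_pos_left _ (by omega))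
    refine ⟨q, (p - 1) * m2, hqp, Finset.mem_image.mpr ⟨(p, m2), Finset.mem_product.mpr
      ⟨hp, Finset.mem_filter.mpr ⟨Finset.mem_Icc.mpr ⟨hm2pos, hm2N⟩, hm2tot, hm2sc⟩⟩, rfl⟩,
      hmpos, ?_, ?_, hvm⟩
    · calc q * ((p - 1) * m2) ≤ (2 * (q - 1)) * ((p - 1) * m2) :=
            Nat.mul_le_mul_right _ (by omega)
        _ = 2 * v := by rw [← hvm]; ring
        _ ≤ _ := by omega
    · rw [div_le_iff₀ (by positivity)]
      linarith
  have hsumTot : ∑ m ∈ Tot', (1:ℝ) / m ≤ 1 + 4 * B' * ((L':ℝ) + 4) := by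
    refine sum_inv_tot_le L' B' Tot' (by rw [hB']; linarith) (fun m hm ↦ ?_) fun z hz hzm ↦ ?_
    · obtain ⟨hI, h1, h2⟩ := Finset.mem_filter.mp hm
      exact ⟨(Finset.mem_Icc.mp hI).1, h1, h2⟩
    · have hzN : z < N := by
        by_contra h
        have h1 := sc_mono (not_lt.mp h)
        omega
      refine (ih z hzN).trans ?_
      rw [hB', div_le_div_iff_of_pos_right (Real.log_pos
        (by linarith [Nat.cast_nonneg (α := ℝ) z]))]
      calc C * (z:ℝ) * crudeG (sc z) ≤ C * (z:ℝ) * crudeG (L' + 1) :=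
            mul_le_mul_of_nonneg_left (crudeG_mono hz) (by positivity)
        _ ≤ _ := by
            have : 0 ≤ C * (z:ℝ) * crudeG (L' + 1) := by
              have := crudeG_one_le (L' + 1); positivity
            linarith
  have hsumT : ∑ m ∈ T, (1:ℝ) / m
      ≤ 2 * ((L:ℝ) + 3 + C4) * (1 + 4 * B' * ((L':ℝ) + 4)) := by
    calc ∑ m ∈ T, (1:ℝ) / m
        ≤ ∑ x ∈ primesSc (L + 3) ×ˢ Tot', (1:ℝ) / (((x.1 - 1) * x.2 : ℕ) : ℝ) :=
          Finset.sum_image_le_of_nonneg fun x _ ↦ by positivity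
      _ = (∑ p ∈ primesSc (L + 3), (1:ℝ) / ((p - 1 : ℕ) : ℝ)) * ∑ m ∈ Tot', (1:ℝ) / m := by
          rw [Finset.sum_mul_sum, Finset.sum_product]
          refine Finset.sum_congr rfl fun p _ ↦ Finset.sum_congr rfl fun n _ ↦ ?_
          rw [Nat.cast_mul, div_mul_div_comm, one_mul]
      _ ≤ _ := by
          refine mul_le_mul ?_ hsumTot (Finset.sum_nonneg fun n _ ↦ by positivity) (by positivity)
          calc ∑ p ∈ primesSc (L + 3), (1:ℝ) / ((p - 1 : ℕ) : ℝ)
              ≤ ∑ p ∈ primesSc (L + 3), 2 * ((1:ℝ) / p) := by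
                refine Finset.sum_le_sum fun p hp ↦ ?_
                have h2 : (2:ℝ) ≤ p := by exact_mod_cast (mem_primesSc.mp hp).1.two_le
                rw [Nat.cast_sub (mem_primesSc.mp hp).1.one_le, Nat.cast_one, mul_one_div,
                  div_le_div_iff₀ (by linarith) (by linarith)]
                linarith
            _ ≤ _ := by
                rw [← Finset.mul_sum]
                have := (abs_le.mp (hC4 (L + 3))).2
                push_cast at this
                linarith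
  have hdecfin : (Dec.card : ℝ) ≤ C * G / 4 * N / Real.exp (L:ℝ) := by
    refine hdecb.trans ?_
    have hL'le : (L':ℝ) + 4 ≤ (L:ℝ) + 4 := by
      have : L' ≤ L := by omega
      gcongr
    have hBS : 1 + 4 * B' * ((L':ℝ) + 4) ≤ B' * (1 + 4 * ((L:ℝ) + 4)) := by
      have h0 : 4 * B' * ((L':ℝ) + 4) ≤ 4 * B' * ((L:ℝ) + 4) := by
        rw [hB']; gcongr
      rw [hB'] at h0 ⊢
      linarith
    calc ((2 * N : ℕ) : ℝ) * (Ct * (L:ℝ) ^ 6 / (Real.exp (L:ℝ) / (L:ℝ) ^ 4)) * ∑ m ∈ T, (1:ℝ) / m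
        ≤ ((2 * N : ℕ) : ℝ) * (Ct * (L:ℝ) ^ 6 / (Real.exp (L:ℝ) / (L:ℝ) ^ 4))
            * (2 * ((L:ℝ) + 3 + C4) * (B' * (1 + 4 * ((L:ℝ) + 4)))) := by
          refine mul_le_mul_of_nonneg_left (hsumT.trans ?_) (by positivity)
          gcongr
      _ = (2 * C) * N / Real.exp (L:ℝ) * ((1 + 4 * ((L:ℝ) + 4))
            * (2 * (2 * Ct) * (L:ℝ) ^ 10 * (2 * ((L:ℝ) + 3 + C4))) * crudeG (L' + 1)) := by
          rw [hB']; push_cast; field_simp; ring
      _ ≤ (2 * C) * N / Real.exp (L:ℝ) * (G / 8) := by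
          gcongr
      _ = _ := by ring
  have hsplit : (Vn N : ℝ) ≤ Bad.card + Dec.card := by
    rw [(mem_Vn_filter (m := 0)).1]
    have : ((Icc 1 N).filter IsTot).card ≤ Bad.card + Dec.card := by
      refine (Finset.card_le_card fun v hv ↦ ?_).trans (Finset.card_union_le _ _)
      obtain ⟨hI, hT⟩ := Finset.mem_filter.mp hv
      simp only [Finset.mem_union, hBad, hDec, Finset.mem_filter]
      by_cases h : HasDecomp L N v
      · exact Or.inr ⟨hI, hT, h⟩
      · exact Or.inl ⟨hI, hT, h⟩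
    exact_mod_cast this
  have hCG : (1:ℝ) ≤ C * G := one_le_mul_of_one_le_of_one_le hC1 hG1
  calc (Vn N : ℝ) ≤ (1 + 4 * C * G) * N / Real.exp (L:ℝ) * (1/16)
        + C * G / 4 * N / Real.exp (L:ℝ) := by linarith
    _ = ((1 + 4 * C * G) / 16 + C * G / 4) * ((N:ℝ) / Real.exp (L:ℝ)) := by ring
    _ ≤ (9/16 * (C * G)) * ((N:ℝ) / Real.exp (L:ℝ)) := by gcongr; linarith
    _ ≤ (9/16 * (C * G)) * (3/2 * N / Real.log ((N:ℝ) + 3)) := by
        gcongr 9/16 * (C * G) * ?_
        rw [div_le_div_iff₀ (Real.exp_pos _) hN3]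
        have := mul_le_mul_of_nonneg_left hlogN (Nat.cast_nonneg (α := ℝ) N)
        linarith
    _ ≤ _ := by
        rw [hG]
        have hq : 0 ≤ C * N * crudeG L / Real.log ((N:ℝ) + 3) := by
          have := crudeG_one_le L; positivity
        calc 9/16 * (C * crudeG L) * (3/2 * (N:ℝ) / Real.log ((N:ℝ) + 3))
            = 27/32 * (C * N * crudeG L / Real.log ((N:ℝ) + 3)) := by ring
          _ ≤ _ := by linarith

end Vale.Agent.P031
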