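import Mathlib
import Vale.Agent.P031.Crude

/-!
The configurations used to parametrise totient values at the scale `L`, and the two statements
(`CollisionBound`, `BandNegligible`) from which the Erdős–Hall regularity follows.
-/

namespace Vale.Agent.P031

open Finset Real Filter Topology

/-- An interior configuration: all levels and the linear form stay below the boundary layer. -/
def InCfg (L : ℕ) (qs : List ℕ) (w : ℕ) : Prop :=
  Chain L qs w ∧ SqfBig L (cval qs w) ∧ (∀ q ∈ qs, (sc q : ℝ) + 2 * KK L ≤ L) ∧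
    Phi qs + 2 * KK L ≤ L

/-- A multiplier coming from an interior configuration. -/
def IsMin (L m : ℕ) : Prop := ∃ qs w, InCfg L qs w ∧ cval qs w = m

/-- A multiplier with a representation in the boundary layer. -/
def IsBand (L m : ℕ) : Prop :=
  ∃ qs w, qs ≠ [] ∧ Chain L qs w ∧ SqfBig L (cval qs w) ∧ (∀ q ∈ qs, sc q ≤ L + 2) ∧
    Phi qs ≤ (L:ℝ) + KK L ∧ ¬ InCfg L qs w ∧ cval qs w = m

/-- The value of a chain. -/
def IsTail (L t : ℕ) : Prop := ∃ qs w, Chain L qs w ∧ SqfBig L (cval qs w) ∧ cval qs w = t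

/-- An upper bound for all values of chains. -/
noncomputable def tailBound (L : ℕ) : ℕ := ⌈Real.exp (Real.exp (2 * (L:ℝ)))⌉₊

/-- The set of interior multipliers. -/
noncomputable def minSet (L : ℕ) : Finset ℕ := by
  classical exact (Icc 1 (tailBound L)).filter (IsMin L)

/-- The set of boundary multipliers. -/
noncomputable def bandSet (L : ℕ) : Finset ℕ := by
  classical exact (Icc 1 (tailBound L)).filter (IsBand L)

/-- The set of chain values. -/
noncomputable def tailSet (L : ℕ) : Finset ℕ := by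
  classical exact (Icc 1 (tailBound L)).filter (IsTail L)

lemma mem_minSet {L m : ℕ} : m ∈ minSet L ↔ (1 ≤ m ∧ m ≤ tailBound L) ∧ IsMin L m := by
  classical simp [minSet]

lemma mem_bandSet {L m : ℕ} : m ∈ bandSet L ↔ (1 ≤ m ∧ m ≤ tailBound L) ∧ IsBand L m := by
  classical simp [bandSet]

lemma mem_tailSet {L t : ℕ} : t ∈ tailSet L ↔ (1 ≤ t ∧ t ≤ tailBound L) ∧ IsTail L t := by
  classical simp [tailSet]

lemma IsMin.isTail {L m : ℕ} (h : IsMin L m) : IsTail L m := by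
  obtain ⟨qs, w, ⟨hc, hs, -⟩, he⟩ := h
  exact ⟨qs, w, hc, hs, he⟩

lemma IsBand.isTail {L m : ℕ} (h : IsBand L m) : IsTail L m := by
  obtain ⟨qs, w, -, hc, hs, -, -, -, he⟩ := h
  exact ⟨qs, w, hc, hs, he⟩

/-- Logarithm of the value of a chain. -/
lemma log_prodPred_le {qs : List ℕ} {s : ℕ} (hp : ∀ q ∈ qs, q.Prime ∧ sc q ≤ s) :
    Real.log (prodPred qs : ℕ) ≤ qs.length * Real.exp (s:ℝ) := by
  induction qs with
  | nil => simp [prodPred]
  | cons q t ih =>
    obtain ⟨hq, hqs⟩ := hp q List.mem_cons_self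
    have ht := fun x hx ↦ hp x (List.mem_cons_of_mem _ hx)
    have h2 := hq.two_le
    have hne := prodPred_ne_zero fun x hx ↦ (ht x hx).1
    rw [prodPred_cons, Nat.cast_mul, Real.log_mul (Nat.cast_ne_zero.mpr (by omega))
      (Nat.cast_ne_zero.mpr hne), List.length_cons]
    have hlog : Real.log ((q - 1 : ℕ) : ℝ) ≤ Real.exp (s:ℝ) := by
      refine le_trans (Real.log_le_log (by exact_mod_cast (by omega : 0 < q - 1)) ?_)
        (sc_le_iff.mp hqs)
      exact_mod_cast Nat.sub_le q 1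
    have := ih ht
    push_cast
    linarith

/-- The logarithm of a chain value, when all levels have scale at most `s`. -/
lemma Chain.log_cval_le {L : ℕ} {qs : List ℕ} {w : ℕ} (h : Chain L qs w) {s : ℕ}
    (hs : ∀ q ∈ qs, sc q ≤ s) :
    Real.log (cval qs w : ℕ) ≤ kk L * Real.exp (s:ℝ) + (L:ℝ) ^ 3 * Real.exp (K0 L) := by
  have hne := prodPred_ne_zero fun q hq ↦ (h.normal q hq).prime
  rw [cval, Nat.cast_mul, Real.log_mul (Nat.cast_ne_zero.mpr hne)
    (Nat.cast_ne_zero.mpr h.w_pos.ne')]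
  refine add_le_add ((log_prodPred_le fun q hq ↦ ⟨(h.normal q hq).prime, hs q hq⟩).trans ?_)
    h.log_w_le
  gcongr
  exact h.len

/-- Chain values are at most `tailBound L`. -/
lemma ev_cval_le_tailBound :
    ∀ᶠ L : ℕ in atTop, ∀ (qs : List ℕ) (w : ℕ), Chain L qs w →
      1 ≤ cval qs w ∧ cval qs w ≤ tailBound L := by
  filter_upwards [ev_K0_small, ev_log_le_rpow (b := 1) (by norm_num) 8,
    ev_const_le_rpow (b := 1) (by norm_num) 12, eventually_ge_atTop 1]
    with L hK0 hlog hL12 hL1 qs w hc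
  refine ⟨hc.cval_pos, ?_⟩
  rw [Real.rpow_one] at hlog hL12
  have hL : (1:ℝ) ≤ L := by exact_mod_cast hL1
  have hbd := hc.log_cval_le (s := L + 3) fun q hq ↦ (hc.scale q hq).2
  have hk : (kk L : ℝ) ≤ 2 * (L:ℝ) ^ 3 := by
    refine (kk_le hL1).trans ?_
    rw [← Real.rpow_natCast (L:ℝ) 3]
    gcongr
    norm_num
  have hK : (K0 L : ℝ) ≤ L + 3 := by
    have h : (K0 L : ℝ) ≤ L + 2 := by exact_mod_cast hK0.1
    linarith
  have h3 : (3:ℝ) * (L:ℝ) ^ 3 ≤ Real.exp (L - 3) := by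
    calc (3:ℝ) * (L:ℝ) ^ 3 ≤ Real.exp 2 * Real.exp ((3:ℕ) * Real.log L) := by
          rw [Real.exp_nat_mul, Real.exp_log (by linarith)]
          gcongr
          linarith [Real.add_one_le_exp (2:ℝ)]
      _ ≤ _ := by
          rw [← Real.exp_add]
          gcongr
          push_cast
          linarith
  have hlogv : Real.log (cval qs w : ℕ) ≤ Real.exp (2 * (L:ℝ)) := by
    push_cast at hbd
    calc Real.log (cval qs w : ℕ)
        ≤ kk L * Real.exp ((L:ℝ) + 3) + (L:ℝ) ^ 3 * Real.exp (K0 L) := hbd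
      _ ≤ 2 * (L:ℝ) ^ 3 * Real.exp ((L:ℝ) + 3) + (L:ℝ) ^ 3 * Real.exp ((L:ℝ) + 3) := by gcongr
      _ = 3 * (L:ℝ) ^ 3 * Real.exp ((L:ℝ) + 3) := by ring
      _ ≤ Real.exp ((L:ℝ) - 3) * Real.exp ((L:ℝ) + 3) := by gcongr
      _ = _ := by rw [← Real.exp_add]; ring_nf
  have hpos : (0:ℝ) < cval qs w := by exact_mod_cast hc.cval_pos
  have := (Real.log_le_iff_le_exp hpos).mp hlogv
  exact Nat.cast_le.mp (this.trans (Nat.le_ceil _))

/-- A configuration that may take part in a collision at height `y`. -/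
def CollCfg (L y : ℕ) (c : List ℕ × ℕ) : Prop :=
  ∃ q qs, c.1 = q :: qs ∧ c.1.Pairwise (· > ·) ∧ (∀ x ∈ c.1, Normal L x) ∧
    (∀ x ∈ c.1, K0 L < sc x ∧ sc x ≤ L + 3) ∧ c.1.length ≤ kk L + 1 ∧ 0 < c.2 ∧
    (∀ l : ℕ, l.Prime → l ∣ c.2 → sc l ≤ K0 L) ∧ SqfBig L (cval c.1 c.2) ∧ cval c.1 c.2 ≤ y ∧
    Real.exp (sc y) ≤ (L:ℝ) ^ 5 * Real.log q ∧
    (∀ x ∈ qs, (sc x : ℝ) + KK L / 2 ≤ sc y) ∧ Phi qs + KK L / 2 ≤ sc y

/-- Few totients have two such representations with different top levels. -/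
def CollisionBound : Prop :=
  ∀ᶠ L : ℕ in atTop, ∀ (y : ℕ) (S : Finset ((List ℕ × ℕ) × (List ℕ × ℕ))), sc y ≤ L + 3 →
    (∀ x ∈ S, CollCfg L y x.1 ∧ CollCfg L y x.2 ∧ cval x.1.1 x.1.2 = cval x.2.1 x.2.2 ∧
      x.1.1.head? ≠ x.2.1.head?) →
    (S.card : ℝ) ≤ (y:ℝ) / Real.exp (sc y) * Real.exp (-((L:ℝ) ^ (3/4 : ℝ)))

/-- The boundary layer carries a negligible part of the reciprocal sum. -/
def BandNegligible : Prop :=
  ∀ ε : ℝ, 0 < ε → ∀ᶠ L : ℕ in atTop,
    ∑ m ∈ bandSet L, (1:ℝ) / m ≤ ε * ∑ m ∈ minSet L, (1:ℝ) / m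

end Vale.Agent.P031
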