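import Mathlib
import Vale.Agent.P031.Cfg

/-!
Reciprocal sums over primes of given scales and over lists of primes, for the band lemma.
-/

namespace Vale.Agent.P031

open Finset Real Filter Topology

/-- Lists of length `k` with entries in `P`. -/
def plists (P : Finset ℕ) : ℕ → Finset (List ℕ)
  | 0 => {[]}
  | k + 1 => (P ×ˢ plists P k).image fun x ↦ x.1 :: x.2

lemma mem_plists {P : Finset ℕ} : ∀ {k : ℕ} {l : List ℕ},
    l ∈ plists P k ↔ l.length = k ∧ ∀ p ∈ l, p ∈ P := by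
  intro k
  induction k with
  | zero =>
    intro l
    simp only [plists, Finset.mem_singleton, List.length_eq_zero_iff]
    constructor
    · rintro rfl; simp
    · exact fun h ↦ h.1
  | succ k ih =>
    intro l
    simp only [plists, Finset.mem_image, Finset.mem_product, Prod.exists]
    constructor
    · rintro ⟨p, t, ⟨hp, ht⟩, rfl⟩
      obtain ⟨h1, h2⟩ := ih.mp ht
      refine ⟨by simp [h1], fun q hq ↦ ?_⟩
      rcases List.mem_cons.mp hq with rfl | h
      · exact hp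
      · exact h2 q h
    · rintro ⟨hlen, hmem⟩
      cases l with
      | nil => simp at hlen
      | cons p t =>
        exact ⟨p, t, ⟨hmem p List.mem_cons_self,
          ih.mpr ⟨by simpa using hlen, fun q hq ↦ hmem q (List.mem_cons_of_mem _ hq)⟩⟩, rfl⟩

lemma sum_plists (P : Finset ℕ) : ∀ k : ℕ,
    ∑ l ∈ plists P k, 1 / (prodPred l : ℝ) = (∑ p ∈ P, 1 / ((p - 1 : ℕ) : ℝ)) ^ k := by
  intro k
  induction k with
  | zero => simp [plists, prodPred]
  | succ k ih =>
    rw [plists, Finset.sum_image (fun x _ y _ h ↦ by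
      simp only [List.cons.injEq] at h
      exact Prod.ext h.1 h.2), pow_succ', ← ih, Finset.sum_mul, Finset.sum_product]
    refine Finset.sum_congr rfl fun p _ ↦ ?_
    rw [Finset.mul_sum]
    refine Finset.sum_congr rfl fun l _ ↦ ?_
    rw [prodPred_cons, Nat.cast_mul, one_div_mul_one_div]

lemma one_div_pred_le {p : ℕ} (hp : 2 ≤ p) : 1 / ((p - 1 : ℕ) : ℝ) ≤ 2 / (p:ℝ) := by
  have hp2 : (2:ℝ) ≤ p := by exact_mod_cast hp
  rw [Nat.cast_sub (by omega), Nat.cast_one, div_le_div_iff₀ (by linarith) (by linarith)]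
  linarith

/-- Reciprocal sums over primes up to a scale, and of one scale. -/
lemma exists_sum_pred_bounds :
    ∃ C, 1 ≤ C ∧ (∀ s : ℕ, 1 ≤ s → ∑ p ∈ primesSc s, 1 / ((p - 1 : ℕ) : ℝ) ≤ C * s) ∧
      ∀ u : ℕ, ∑ p ∈ (primesSc u).filter (fun p ↦ sc p = u), 1 / ((p - 1 : ℕ) : ℝ) ≤ C := by
  obtain ⟨C, hC0, hC⟩ := exists_abs_sum_primesSc
  refine ⟨2 * (1 + 2 * C), by linarith, fun s hs ↦ ?_, fun u ↦ ?_⟩
  · calc ∑ p ∈ primesSc s, 1 / ((p - 1 : ℕ) : ℝ) ≤ ∑ p ∈ primesSc s, 2 * ((1:ℝ) / p) :=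
        Finset.sum_le_sum fun p hp ↦ (one_div_pred_le (mem_primesSc.mp hp).1.two_le).trans_eq
          (by ring)
      _ ≤ _ := by
        rw [← Finset.mul_sum]
        have h := (abs_le.mp (hC s)).2
        have hs' : (1:ℝ) ≤ s := by exact_mod_cast hs
        nlinarith
  · rcases Nat.eq_zero_or_pos u with rfl | hu
    · calc _ ≤ ∑ p ∈ primesSc 0, 2 * ((1:ℝ) / p) :=
            (Finset.sum_le_sum fun p hp ↦
              (one_div_pred_le (mem_primesSc.mp (Finset.mem_filter.mp hp).1).1.two_le).trans_eq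
                (by ring)).trans (Finset.sum_le_sum_of_subset_of_nonneg (Finset.filter_subset _ _)
                  fun p _ _ ↦ by positivity)
        _ ≤ _ := by
          rw [← Finset.mul_sum]
          have h := (abs_le.mp (hC 0)).2
          push_cast at h
          linarith
    · have hsub : (primesSc u).filter (fun p ↦ sc p = u) = primesSc u \ primesSc (u - 1) := by
        ext p
        simp only [Finset.mem_filter, Finset.mem_sdiff, mem_primesSc]
        constructor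
        · rintro ⟨⟨hp, h1⟩, h2⟩
          exact ⟨⟨hp, h1⟩, fun h ↦ by omega⟩
        · rintro ⟨⟨hp, h1⟩, h2⟩
          refine ⟨⟨hp, h1⟩, ?_⟩
          by_contra hne
          exact h2 ⟨hp, by omega⟩
      rw [hsub]
      calc _ ≤ ∑ p ∈ primesSc u \ primesSc (u - 1), 2 * ((1:ℝ) / p) :=
            Finset.sum_le_sum fun p hp ↦
              (one_div_pred_le (mem_primesSc.mp (Finset.mem_sdiff.mp hp).1).1.two_le).trans_eq
                (by ring)
        _ ≤ _ := by
          rw [← Finset.mul_sum, Finset.sum_sdiff_eq_sub (primesSc_mono (by omega))]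
          have h1 := (abs_le.mp (hC u)).2
          have h2 := (abs_le.mp (hC (u - 1))).1
          rw [Nat.cast_sub (by omega : 1 ≤ u)] at h2
          push_cast at h2
          linarith

/-- The reciprocal sum of all chain values is small. -/
lemma ev_tail_sum_le :
    ∀ᶠ L : ℕ in atTop, ∑ t ∈ tailSet L, (1:ℝ) / t ≤ Real.exp (L:ℝ) := by
  obtain ⟨C, hC1, hC⟩ := exists_crude_bound
  filter_upwards [ev_log_le_rpow (b := 1/4) (by norm_num) 1,
    ev_mul_rpow_le (a := 1/2) (b := 1) (by norm_num) 8000,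
    ev_const_le_rpow (b := 1) (by norm_num) (80 * C + 2000), eventually_ge_atTop 10]
    with L hlog hsqrt hbig hL
  rw [Real.rpow_one] at hsqrt hbig
  rw [one_mul] at hlog
  have hL10 : (10:ℝ) ≤ L := by exact_mod_cast hL
  set B := C * crudeG (2 * L + 3) with hB
  have hB0 : 0 ≤ B := by
    have := crudeG_one_le (2 * L + 3)
    positivity
  have hsc : ∀ t ∈ tailSet L, sc t ≤ 2 * L + 1 := by
    intro t ht
    obtain ⟨⟨ht1, htb⟩, -⟩ := mem_tailSet.mp ht
    refine (sc_mono htb).trans (sc_le_iff.mpr ?_)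
    set E := Real.exp (2 * (L:ℝ)) with hE
    have hE1 : 1 ≤ E := Real.one_le_exp (by positivity)
    have h1 : ((tailBound L : ℕ) : ℝ) ≤ Real.exp (E + 1) := by
      have h := (Nat.ceil_lt_add_one (Real.exp_pos E).le).le
      rw [Real.exp_add]
      have he1 : (2:ℝ) ≤ Real.exp 1 := by linarith [Real.add_one_le_exp (1:ℝ)]
      have := Real.one_le_exp (x := E) (by linarith)
      have := mul_le_mul_of_nonneg_left he1 (Real.exp_pos E).le
      unfold tailBound
      linarith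
    have h2 := Real.log_le_log (by exact_mod_cast (le_trans ht1 htb)) h1
    rw [Real.log_exp] at h2
    push_cast
    rw [Real.exp_add, ← hE]
    have he : (2:ℝ) ≤ Real.exp 1 := by linarith [Real.add_one_le_exp (1:ℝ)]
    have := mul_le_mul_of_nonneg_left he (by linarith : (0:ℝ) ≤ E)
    linarith
  refine (sum_inv_tot_le (2 * L + 1) B (tailSet L) hB0 (fun t ht ↦ ?_) fun z hz _ ↦ ?_).trans ?_
  · obtain ⟨⟨ht1, -⟩, qs, w, hc, -, rfl⟩ := mem_tailSet.mp ht
    exact ⟨ht1, hc.isTot, hsc _ ht⟩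
  · refine (hC z).trans ?_
    rw [hB]
    have hpos : 0 < Real.log ((z:ℝ) + 3) := Real.log_pos (by linarith [Nat.cast_nonneg (α := ℝ) z])
    rw [div_le_div_iff_of_pos_right hpos]
    calc C * (z:ℝ) * crudeG (sc z) ≤ C * (z:ℝ) * crudeG (2 * L + 3) := by
          gcongr
          exact crudeG_mono (by omega)
      _ = _ := by ring
  · have hl : Real.log (((2 * L + 3 : ℕ) : ℝ) + 3) ≤ 2 * Real.log L := by
      rw [show 2 * Real.log (L:ℝ) = Real.log ((L:ℝ) ^ 2) by rw [Real.log_pow]; push_cast; ring]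
      refine Real.log_le_log (by positivity) ?_
      push_cast
      nlinarith
    have hl0 : 0 ≤ Real.log (((2 * L + 3 : ℕ) : ℝ) + 3) :=
      Real.log_nonneg (by linarith [Nat.cast_nonneg (α := ℝ) (2 * L + 3)])
    have hL4 : Real.log L ^ 2 ≤ (L:ℝ) ^ (1/2 : ℝ) := by
      rw [show (L:ℝ) ^ (1/2 : ℝ) = ((L:ℝ) ^ (1/4:ℝ)) ^ 2 by
        rw [← Real.rpow_natCast ((L:ℝ) ^ (1/4:ℝ)), ← Real.rpow_mul (by linarith)]; norm_num]
      exact pow_le_pow_left₀ (Real.log_nonneg (by linarith)) hlog 2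
    have hG : crudeG (2 * L + 3) ≤ Real.exp ((L:ℝ) / 4) := by
      refine Real.exp_le_exp.mpr ?_
      have := pow_le_pow_left₀ hl0 hl 2
      rw [mul_pow] at this
      linarith
    have hexp : (L:ℝ) ^ 2 / 4 ≤ Real.exp (L:ℝ) := by
      have := Real.quadratic_le_exp_of_nonneg (by linarith : (0:ℝ) ≤ L)
      nlinarith
    have hc2 : 4 * C * (((2 * L + 1 : ℕ) : ℝ) + 4) ≤ 4 * Real.exp ((L:ℝ) / 2) * 1 := by
      push_cast
      have hq := Real.quadratic_le_exp_of_nonneg (show (0:ℝ) ≤ (L:ℝ) / 2 by positivity)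
      have h8 : 80 * C * L ≤ (L:ℝ) * L := by nlinarith
      nlinarith
    have hsum : 4 * B * (((2 * L + 1 : ℕ) : ℝ) + 4)
        ≤ Real.exp ((L:ℝ) / 4) * (4 * Real.exp ((L:ℝ) / 2)) := by
      rw [hB]
      calc 4 * (C * crudeG (2 * L + 3)) * (((2 * L + 1 : ℕ) : ℝ) + 4)
          = crudeG (2 * L + 3) * (4 * C * (((2 * L + 1 : ℕ) : ℝ) + 4)) := by ring
        _ ≤ _ := mul_le_mul hG (by linarith) (by positivity) (Real.exp_pos _).le
    have h34 : Real.exp ((L:ℝ) / 4) * Real.exp ((L:ℝ) / 2) * Real.exp ((L:ℝ) / 4)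
        = Real.exp (L:ℝ) := by rw [← Real.exp_add, ← Real.exp_add]; ring_nf
    have h8 : (8:ℝ) ≤ Real.exp ((L:ℝ) / 4) := by
      have := Real.add_one_le_exp ((L:ℝ) / 4)
      linarith
    have hx : 0 < Real.exp ((L:ℝ) / 4) * Real.exp ((L:ℝ) / 2) := by positivity
    have := mul_le_mul_of_nonneg_left h8 hx.le
    have hone : 1 ≤ Real.exp ((L:ℝ) / 4) * Real.exp ((L:ℝ) / 2) :=
      one_le_mul_of_one_le_of_one_le (Real.one_le_exp (by positivity))
        (Real.one_le_exp (by positivity))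
    linarith

/-- Abnormal primes of scale in `(K0 L, L]` have reciprocal sum at most `1`. -/
lemma ev_abnormal_sum_le :
    ∀ᶠ L : ℕ in atTop, ∀ S : Finset ℕ,
      (∀ q ∈ S, q.Prime ∧ ¬ Normal L q ∧ K0 L < sc q ∧ sc q ≤ L) →
      ∑ q ∈ S, (1:ℝ) / q ≤ 1 := by
  filter_upwards [ev_abnormal_count,
    ev_poly_mul_exp (a := 1/20) (b := 1/10) (by norm_num) (by norm_num) 50 1 1 (by norm_num),
    ev_const_le_rpow (b := 1/20) (by norm_num) 1, eventually_ge_atTop 1] with L hab hpoly h20 hL S hS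
  have hL1 : (1:ℝ) ≤ L := by exact_mod_cast hL
  set E := Real.exp (L:ℝ) with hE
  set K := ⌈2 * E⌉₊ with hK
  have hl2 := Real.log_two_gt_d9
  have hrange : ∀ q ∈ S, 2 ≤ q ∧ q ≤ 2 ^ (K + 1) := by
    intro q hq
    obtain ⟨hp, -, -, hsc⟩ := hS q hq
    refine ⟨hp.two_le, ?_⟩
    have h1 : Real.log q ≤ E := sc_le_iff.mp hsc
    have h2 : Real.log q ≤ Real.log ((2:ℝ) ^ (K + 1)) := by
      rw [Real.log_pow]
      have h3 : 2 * E ≤ (K:ℝ) := Nat.le_ceil _
      have := mul_le_mul_of_nonneg_left hl2.le (Nat.cast_nonneg (α := ℝ) (K + 1))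
      push_cast at this ⊢
      linarith
    have hq0 : (0:ℝ) < q := by exact_mod_cast hp.pos
    exact_mod_cast (Real.log_le_log_iff hq0 (by positivity)).mp h2
  set ε := Real.exp (-((L:ℝ) ^ (1/10 : ℝ))) with hε
  refine (sum_dyadic_le S (K + 1) _ (fun q _ ↦ by positivity) hrange).trans ?_
  have hterm : ∀ i ∈ Finset.range (K + 1),
      ∑ q ∈ S.filter (fun n ↦ 2 ^ i < n ∧ n ≤ 2 ^ (i + 1)), (1:ℝ) / q
        ≤ 2 * ε * (1 / ((i:ℝ) + 1)) := by
    intro i _
    set Si := S.filter fun n ↦ 2 ^ i < n ∧ n ≤ 2 ^ (i + 1) with hSi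
    rcases Si.eq_empty_or_nonempty with he | ⟨q, hq⟩
    · rw [he, Finset.sum_empty]; positivity
    obtain ⟨hqS, hq1, hq2⟩ := Finset.mem_filter.mp hq
    obtain ⟨hp, -, hlo, hhi⟩ := hS q hqS
    have e2 : 2 * 2 ^ i = 2 ^ (i + 1) := by rw [pow_succ]; ring
    have hlo' : K0 L ≤ sc (2 * 2 ^ i) := le_trans hlo.le (sc_mono (by omega))
    have hhi' : sc (2 * 2 ^ i) ≤ L + 3 :=
      (sc_mono (by omega : 2 * 2 ^ i ≤ 2 * q)).trans ((sc_two_mul_le hp.two_le).trans (by omega))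
    have hcard := hab (2 ^ i) Si hhi' hlo' fun x hx ↦ by
      obtain ⟨hxS, h1, h2⟩ := Finset.mem_filter.mp hx
      exact ⟨(hS x hxS).1, h1, by omega, (hS x hxS).2.1⟩
    have hlog : Real.log ((2 * 2 ^ i : ℕ) : ℝ) = ((i:ℝ) + 1) * Real.log 2 := by
      rw [e2]; push_cast; rw [Real.log_pow]; push_cast; ring
    rw [hlog] at hcard
    push_cast at hcard
    calc ∑ x ∈ Si, (1:ℝ) / x ≤ ∑ _x ∈ Si, (1:ℝ) / (2:ℝ) ^ i := by
          refine Finset.sum_le_sum fun x hx ↦ ?_
          obtain ⟨-, h1, -⟩ := Finset.mem_filter.mp hx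
          gcongr
          exact_mod_cast h1.le
      _ = (Si.card : ℝ) / (2:ℝ) ^ i := by rw [Finset.sum_const, nsmul_eq_mul]; ring
      _ ≤ ((2:ℝ) ^ i / (((i:ℝ) + 1) * Real.log 2) * ε) / (2:ℝ) ^ i := by gcongr
      _ = 1 / Real.log 2 * ε * (1 / ((i:ℝ) + 1)) := by field_simp
      _ ≤ 2 * ε * (1 / ((i:ℝ) + 1)) := by
          gcongr
          rw [div_le_iff₀ (by linarith)]
          linarith
  refine (Finset.sum_le_sum hterm).trans ?_
  rw [← Finset.mul_sum]
  have hlogK : 1 + Real.log ((K + 1 : ℕ) : ℝ) ≤ 9 * (L:ℝ) := by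
    have h1 : (K:ℝ) < 2 * E + 1 := Nat.ceil_lt_add_one (by positivity)
    have hE1 : 1 ≤ E := Real.one_le_exp (by linarith)
    have h2 : ((K + 1 : ℕ) : ℝ) ≤ 4 * E := by push_cast; linarith
    have h3 := Real.log_le_log (by positivity) h2
    rw [Real.log_mul (by norm_num) (by positivity), hE, Real.log_exp,
      show (4:ℝ) = 2 ^ 2 by norm_num, Real.log_pow] at h3
    have := Real.log_two_lt_d9
    push_cast at h3 ⊢
    linarith
  have hharm : ∑ i ∈ Finset.range (K + 1), (1:ℝ) / ((i:ℝ) + 1) ≤ 9 * (L:ℝ) := by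
    refine le_trans ?_ hlogK
    have h : (harmonic (K + 1) : ℝ) = ∑ i ∈ Finset.range (K + 1), (1:ℝ) / ((i:ℝ) + 1) := by
      simp [harmonic, one_div]
    rw [← h]
    exact harmonic_le_one_add_log _
  calc 2 * ε * ∑ i ∈ Finset.range (K + 1), (1:ℝ) / ((i:ℝ) + 1) ≤ 2 * ε * (9 * (L:ℝ)) := by gcongr
    _ ≤ 50 * (L:ℝ) ^ 1 * ε := by
        have : 0 ≤ (L:ℝ) * ε := by positivity
        linarith
    _ ≤ Real.exp (-((L:ℝ) ^ (1/20 : ℝ))) := by rw [hε]; simpa using hpoly
    _ ≤ 1 := Real.exp_le_one_iff.mpr (by linarith)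

/-- A window of scales contains normal primes of total weight comparable to its width. -/
lemma ev_window_sum_ge :
    ∃ C, 1 ≤ C ∧ ∀ᶠ L : ℕ in atTop, ∀ a b : ℕ, K0 L ≤ a → b ≤ L → (a:ℝ) + C ≤ b →
      ∀ P : Finset ℕ, (∀ p, p.Prime → Normal L p → a < sc p → sc p ≤ b → p ∈ P) →
        ((b:ℝ) - a) / 2 ≤ ∑ p ∈ P, 1 / ((p - 1 : ℕ) : ℝ) := by
  classical
  obtain ⟨C, hC0, hC⟩ := exists_abs_sum_primesSc
  refine ⟨4 * C + 2, by linarith, ?_⟩
  filter_upwards [ev_abnormal_sum_le] with L hab a b ha hb hab' P hP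
  have hab'' : a ≤ b := by
    have : (a:ℝ) ≤ b := by linarith
    exact_mod_cast this
  set W := primesSc b \ primesSc a with hW
  have hsum : (b:ℝ) - a - 2 * C ≤ ∑ p ∈ W, (1:ℝ) / p := by
    rw [hW, Finset.sum_sdiff_eq_sub (primesSc_mono hab'')]
    have h1 := (abs_le.mp (hC b)).1
    have h2 := (abs_le.mp (hC a)).2
    linarith
  have hWmem : ∀ p ∈ W, p.Prime ∧ a < sc p ∧ sc p ≤ b := by
    intro p hp
    obtain ⟨h1, h2⟩ := Finset.mem_sdiff.mp hp
    rw [mem_primesSc] at h1 h2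
    refine ⟨h1.1, ?_, h1.2⟩
    by_contra h
    exact h2 ⟨h1.1, by omega⟩
  have hbad := hab (W.filter fun p ↦ ¬ Normal L p) fun q hq ↦ by
    obtain ⟨hqW, hqn⟩ := Finset.mem_filter.mp hq
    obtain ⟨h1, h2, h3⟩ := hWmem q hqW
    exact ⟨h1, hqn, by omega, by omega⟩
  have hgood : ∑ p ∈ W.filter (fun p ↦ Normal L p), (1:ℝ) / p
      ≤ ∑ p ∈ P, 1 / ((p - 1 : ℕ) : ℝ) := by
    refine le_trans (Finset.sum_le_sum fun p hp ↦ ?_)
      (Finset.sum_le_sum_of_subset_of_nonneg (fun p hp ↦ ?_) fun p _ _ ↦ by positivity)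
    · have := (hWmem p (Finset.mem_filter.mp hp).1).1.two_le
      gcongr
      · exact_mod_cast (by omega : 0 < p - 1)
      · exact Nat.sub_le p 1
    · obtain ⟨hpW, hpn⟩ := Finset.mem_filter.mp hp
      obtain ⟨h1, h2, h3⟩ := hWmem p hpW
      exact hP p h1 hpn h2 h3
  rw [← Finset.sum_filter_add_sum_filter_not W (fun p ↦ Normal L p)] at hsum
  linarith

/-- Primes `q` with `q - 1` sharing a large prime with a given `n` are negligible. -/
lemma ev_share_sum_le :
    ∀ᶠ L : ℕ in atTop, ∀ (n : ℕ) (S : Finset ℕ), 1 ≤ n → Real.log n ≤ Real.exp (3 * (L:ℝ)) →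
      (∀ q ∈ S, q.Prime ∧ sc q ≤ L + 3 ∧
        ∃ l : ℕ, l.Prime ∧ K0 L < 2 * sc l ∧ l ∣ n ∧ l ∣ q - 1) →
      ∑ q ∈ S, 1 / ((q - 1 : ℕ) : ℝ) ≤ Real.exp (-(3 * (L:ℝ))) := by
  classical
  filter_upwards [ev_const_le_rpow (b := 7/10) (by norm_num) 40,
    ev_log_le_rpow (b := 7/10) (by norm_num) 12, eventually_ge_atTop 3] with L h40 hlog hL n S hn hlogn hS
  have hL2 : (3:ℝ) ≤ L := by exact_mod_cast hL
  have hK : (L:ℝ) ^ (7/10 : ℝ) ≤ K0 L := Nat.le_ceil _
  set D := n.primeFactors.filter fun l ↦ K0 L < 2 * sc l with hD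
  have hl2 := Real.log_two_gt_d9
  have hcardD : (D.card : ℝ) ≤ 2 * Real.exp (3 * (L:ℝ)) := by
    have h2 : 2 ^ D.card ≤ n := by
      calc 2 ^ D.card ≤ ∏ l ∈ D, l := by
            rw [← Finset.prod_const]
            exact Finset.prod_le_prod' fun l hl ↦
              (Nat.prime_of_mem_primeFactors (Finset.mem_filter.mp hl).1).two_le
        _ ≤ n := Nat.le_of_dvd hn ((Finset.prod_dvd_prod_of_subset _ _ _
            (Finset.filter_subset _ _)).trans (Nat.prod_primeFactors_dvd n))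
    have h3 : (D.card : ℝ) * Real.log 2 ≤ Real.log n := by
      rw [← Real.log_pow]
      exact Real.log_le_log (by positivity) (by exact_mod_cast h2)
    nlinarith [Nat.cast_nonneg (α := ℝ) D.card]
  set Q : ℕ := ⌊Real.exp (Real.exp ((L:ℝ) + 3))⌋₊ with hQ
  have hlogQ : Real.log Q ≤ Real.exp ((L:ℝ) + 3) := by
    rcases Nat.eq_zero_or_pos Q with h | h
    · rw [h, Nat.cast_zero, Real.log_zero]; positivity
    · have := Nat.floor_le (Real.exp_pos (Real.exp ((L:ℝ) + 3))).le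
      have h' := Real.log_le_log (Nat.cast_pos.mpr h) this
      rwa [Real.log_exp] at h'
  have hharm : ∀ M : ℕ, M ≤ Q → ∑ i ∈ Finset.Icc 1 M, (1:ℝ) / i ≤ 1 + Real.exp ((L:ℝ) + 3) := by
    intro M hM
    rcases Nat.eq_zero_or_pos M with rfl | hM0
    · simp; positivity
    have h : (harmonic M : ℝ) = ∑ i ∈ Finset.Icc 1 M, (1:ℝ) / i := by
      simp [harmonic_eq_sum_Icc, one_div]
    rw [← h]
    refine (harmonic_le_one_add_log M).trans ?_
    have : Real.log M ≤ Real.log Q :=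
      Real.log_le_log (by exact_mod_cast hM0) (by exact_mod_cast hM)
    linarith
  have hper : ∀ l ∈ D, ∑ q ∈ S.filter (fun q ↦ l ∣ q - 1), 1 / ((q - 1 : ℕ) : ℝ)
      ≤ (1 + Real.exp ((L:ℝ) + 3)) * Real.exp (-(9 * (L:ℝ))) := by
    intro l hl
    obtain ⟨hln, hlbig⟩ := Finset.mem_filter.mp hl
    have hlp := Nat.prime_of_mem_primeFactors hln
    have hlR : Real.exp (9 * (L:ℝ)) ≤ l := by
      have hsc1 : 0 < sc l := by omega
      have h := exp_sc_pred_lt hsc1
      have hb : (K0 L : ℝ) < 2 * sc l := by exact_mod_cast hlbig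
      have h2 : 9 * (L:ℝ) ≤ Real.exp ((sc l : ℝ) - 1) := by
        have e : Real.exp (Real.log (9 * (L:ℝ))) = 9 * L := Real.exp_log (by linarith)
        rw [← e]
        refine Real.exp_le_exp.mpr ?_
        rw [Real.log_mul (by norm_num) (by linarith)]
        have : Real.log 9 ≤ 8 := by
          have := Real.log_le_sub_one_of_pos (show (0:ℝ) < 9 by norm_num)
          linarith
        linarith
      have h3 : 9 * (L:ℝ) ≤ Real.log l := by linarith
      have := Real.exp_le_exp.mpr h3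
      rwa [Real.exp_log (by exact_mod_cast hlp.pos)] at this
    have hmap : ∑ q ∈ S.filter (fun q ↦ l ∣ q - 1), 1 / ((q - 1 : ℕ) : ℝ)
        ≤ ∑ i ∈ Finset.Icc 1 Q, (1 / (l:ℝ)) * (1 / i) := by
      have hinj : Set.InjOn (fun q ↦ (q - 1) / l) (S.filter fun q ↦ l ∣ q - 1 : Finset ℕ) := by
        intro x hx y hy hxy
        rw [Finset.mem_coe, Finset.mem_filter] at hx hy
        have := (hS x hx.1).1.two_le
        have := (hS y hy.1).1.two_le
        have h1 := Nat.div_mul_cancel hx.2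
        have h2 := Nat.div_mul_cancel hy.2
        simp only at hxy
        rw [hxy] at h1
        omega
      calc ∑ q ∈ S.filter (fun q ↦ l ∣ q - 1), 1 / ((q - 1 : ℕ) : ℝ)
          = ∑ q ∈ S.filter (fun q ↦ l ∣ q - 1), (1 / (l:ℝ)) * (1 / (((q - 1) / l : ℕ) : ℝ)) := by
            refine Finset.sum_congr rfl fun q hq ↦ ?_
            have h1 := Nat.div_mul_cancel (Finset.mem_filter.mp hq).2
            rw [one_div_mul_one_div, ← Nat.cast_mul, mul_comm, h1]
        _ = ∑ i ∈ (S.filter fun q ↦ l ∣ q - 1).image (fun q ↦ (q - 1) / l),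
              (1 / (l:ℝ)) * (1 / i) :=
            (Finset.sum_image (f := fun i : ℕ ↦ (1 / (l:ℝ)) * (1 / i)) hinj).symm
        _ ≤ _ := by
          refine Finset.sum_le_sum_of_subset_of_nonneg (fun i hi ↦ ?_) fun i _ _ ↦ by positivity
          obtain ⟨q, hq, rfl⟩ := Finset.mem_image.mp hi
          obtain ⟨hqS, hd⟩ := Finset.mem_filter.mp hq
          obtain ⟨hqp, hsc, -⟩ := hS q hqS
          have := hqp.two_le
          refine Finset.mem_Icc.mpr ⟨Nat.div_pos (Nat.le_of_dvd (by omega) hd) hlp.pos,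
            (Nat.div_le_self _ _).trans ((Nat.sub_le q 1).trans (Nat.le_floor ?_))⟩
          have h1 := sc_le_iff.mp hsc
          push_cast at h1
          exact (Real.log_le_iff_le_exp (by exact_mod_cast hqp.pos)).mp h1
    refine hmap.trans ?_
    rw [← Finset.mul_sum, mul_comm (1 + Real.exp ((L:ℝ) + 3))]
    refine mul_le_mul ?_ (hharm Q le_rfl) (Finset.sum_nonneg fun i _ ↦ by positivity)
      (Real.exp_pos _).le
    rw [Real.exp_neg, one_div]
    exact inv_anti₀ (Real.exp_pos _) hlR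
  have hcover : S ⊆ D.biUnion fun l ↦ S.filter fun q ↦ l ∣ q - 1 := by
    intro q hq
    obtain ⟨-, -, l, hlp, hlb, hln, hlq⟩ := hS q hq
    exact Finset.mem_biUnion.mpr ⟨l, Finset.mem_filter.mpr
      ⟨Nat.mem_primeFactors.mpr ⟨hlp, hln, by omega⟩, hlb⟩, Finset.mem_filter.mpr ⟨hq, hlq⟩⟩
  have hbu : ∑ q ∈ D.biUnion (fun l ↦ S.filter fun q ↦ l ∣ q - 1), 1 / ((q - 1 : ℕ) : ℝ)
      ≤ ∑ l ∈ D, ∑ q ∈ S.filter (fun q ↦ l ∣ q - 1), 1 / ((q - 1 : ℕ) : ℝ) := by
    clear hcover hper hcardD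
    induction D using Finset.induction_on with
    | empty => simp
    | insert l D hl ih =>
      rw [Finset.biUnion_insert, Finset.sum_insert hl]
      refine le_trans ?_ (add_le_add le_rfl ih)
      rw [← Finset.sum_union_inter]
      exact le_add_of_nonneg_right (Finset.sum_nonneg fun q _ ↦ by positivity)
  calc ∑ q ∈ S, 1 / ((q - 1 : ℕ) : ℝ)
      ≤ ∑ l ∈ D, ∑ q ∈ S.filter (fun q ↦ l ∣ q - 1), 1 / ((q - 1 : ℕ) : ℝ) :=
        le_trans (Finset.sum_le_sum_of_subset_of_nonneg hcover fun q _ _ ↦ by positivity) hbu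
    _ ≤ (D.card : ℝ) * ((1 + Real.exp ((L:ℝ) + 3)) * Real.exp (-(9 * (L:ℝ)))) := by
        refine (Finset.sum_le_card_nsmul _ _ _ hper).trans (le_of_eq ?_)
        rw [nsmul_eq_mul]
    _ ≤ (2 * Real.exp (3 * (L:ℝ))) * ((2 * Real.exp ((L:ℝ) + 3))
          * Real.exp (-(9 * (L:ℝ)))) := by
        gcongr
        linarith [Real.one_le_exp (show (0:ℝ) ≤ (L:ℝ) + 3 by linarith)]
    _ ≤ _ := by
        have h2 : (2:ℝ) ≤ Real.exp 1 := by linarith [Real.add_one_le_exp (1:ℝ)]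
        calc _ ≤ (Real.exp 1 * Real.exp (3 * (L:ℝ))) * ((Real.exp 1 * Real.exp ((L:ℝ) + 3))
              * Real.exp (-(9 * (L:ℝ)))) := by gcongr
          _ = Real.exp (5 - 5 * (L:ℝ)) := by
              simp only [← Real.exp_add]; ring_nf
          _ ≤ _ := Real.exp_le_exp.mpr (by linarith)

end Vale.Agent.P031
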