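import Mathlib
import Vale.Agent.P031.Cfg

/-!
Two chains with the same value have nearly the same levels.
-/

namespace Vale.Agent.P031

open Finset Real Filter Topology

/-- The error allowed between two representations of the same value. -/
noncomputable def dd (L : ℕ) : ℝ := (L:ℝ) ^ (3/4 : ℝ)

lemma omIoc_cval_bound {L : ℕ} {qs : List ℕ} {w : ℕ} (s : ℕ) (hn : ∀ q ∈ qs, Normal L q)
    (hw : 0 < w) (hw' : ∀ l : ℕ, l.Prime → l ∣ w → sc l ≤ K0 L) :
    |(omIoc (K0 L) s (cval qs w) : ℝ) - (qs.map fun q ↦ ((min s (sc q) : ℕ) : ℝ)).sum|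
      ≤ qs.length * ((K0 L : ℝ) + 2 * ee L) := by
  induction qs with
  | nil =>
    have h0 : omIoc (K0 L) s w = 0 := by
      unfold omIoc
      rw [List.length_eq_zero_iff, List.filter_eq_nil_iff]
      intro l hl
      have := hw' l (Nat.prime_of_mem_primeFactorsList hl) (Nat.dvd_of_mem_primeFactorsList hl)
      simp only [decide_eq_true_eq]
      omega
    simp [cval, prodPred, h0]
  | cons q t ih =>
    have hq := hn q List.mem_cons_self
    have h2 := hq.prime.two_le
    have ht := fun x hx ↦ hn x (List.mem_cons_of_mem _ hx)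
    have hne : cval t w ≠ 0 :=
      Nat.mul_ne_zero (prodPred_ne_zero fun x hx ↦ (ht x hx).prime) hw.ne'
    rw [cval_cons, omIoc_mul _ _ (by omega) hne, List.map_cons, List.sum_cons, List.length_cons,
      abs_le]
    have hge := hq.omIoc_ge (K0 L) s
    have hle := hq.omIoc_le (K0 L) s
    have hrec := abs_le.mp (ih ht)
    have hee : 0 ≤ ee L := by unfold ee; positivity
    push_cast at hge hle hrec ⊢
    constructor <;> nlinarith [Nat.cast_nonneg (α := ℝ) (K0 L)]

/-- A monotone family whose truncated sums agree up to `η` agrees up to `2η` termwise. -/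
lemma le_add_of_minsum {K : ℕ} {τ τ' : ℕ → ℕ} (hτ : Antitone τ) (hτ' : Antitone τ') {η : ℝ}
    (h : ∀ s : ℕ, |(∑ i ∈ Finset.range K, ((min s (τ i) : ℕ) : ℝ))
      - ∑ i ∈ Finset.range K, ((min s (τ' i) : ℕ) : ℝ)| ≤ η)
    {r : ℕ} (hr : r < K) : (τ r : ℝ) ≤ τ' r + 2 * η := by
  rcases Nat.le_total (τ r) (τ' r) with hle | hle
  · have h0 := abs_le.mp (h 0)
    have : (τ r : ℝ) ≤ τ' r := by exact_mod_cast hle
    linarith
  set s := τ' r with hs
  set h' : ℝ := (τ r : ℝ) - τ' r with hh'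
  have hh0 : 0 ≤ h' := by
    have : (τ' r : ℝ) ≤ τ r := by exact_mod_cast hle
    linarith
  have h1 : ((r:ℝ) + 1) * h' ≤ ∑ i ∈ Finset.range K, ((min (τ r) (τ i) : ℕ) : ℝ)
      - ∑ i ∈ Finset.range K, ((min s (τ i) : ℕ) : ℝ) := by
    rw [← Finset.sum_sub_distrib]
    calc ((r:ℝ) + 1) * h' = ∑ i ∈ Finset.range K, (if i ≤ r then h' else 0) := by
          rw [← Finset.sum_filter, Finset.sum_const, nsmul_eq_mul]
          have : (Finset.range K).filter (fun i ↦ i ≤ r) = Finset.range (r + 1) := by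
            ext i
            simp only [Finset.mem_filter, Finset.mem_range]
            omega
          rw [this, Finset.card_range]
          push_cast
          ring
      _ ≤ _ := by
          refine Finset.sum_le_sum fun i _ ↦ ?_
          split_ifs with hi
          · have := hτ hi
            rw [min_eq_left this, min_eq_left (by omega)]
          · have : min s (τ i) ≤ min (τ r) (τ i) := by omega
            have : ((min s (τ i) : ℕ) : ℝ) ≤ ((min (τ r) (τ i) : ℕ) : ℝ) := by exact_mod_cast this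
            linarith
  have h2 : ∑ i ∈ Finset.range K, ((min (τ r) (τ' i) : ℕ) : ℝ)
      - ∑ i ∈ Finset.range K, ((min s (τ' i) : ℕ) : ℝ) ≤ (r:ℝ) * h' := by
    rw [← Finset.sum_sub_distrib]
    calc ∑ i ∈ Finset.range K, (((min (τ r) (τ' i) : ℕ) : ℝ) - ((min s (τ' i) : ℕ) : ℝ))
        ≤ ∑ i ∈ Finset.range K, (if i < r then h' else 0) := by
          refine Finset.sum_le_sum fun i _ ↦ ?_
          split_ifs with hi
          · have e1 : ((min (τ r) (τ' i) : ℕ) : ℝ) ≤ τ r := by exact_mod_cast min_le_left _ _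
            have : min s (τ' i) = s := min_eq_left (hτ' hi.le)
            rw [this, hs]
            linarith
          · have := hτ' (not_lt.mp hi)
            rw [min_eq_right (by omega), min_eq_right (by omega), sub_self]
      _ = (r:ℝ) * h' := by
          rw [← Finset.sum_filter, Finset.sum_const, nsmul_eq_mul]
          have : (Finset.range K).filter (fun i ↦ i < r) = Finset.range r := by
            ext i
            simp only [Finset.mem_filter, Finset.mem_range]
            omega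
          rw [this, Finset.card_range]
  have ha := abs_le.mp (h (τ r))
  have hb := abs_le.mp (h s)
  linarith

/-- Shifted linear forms of two chains with the same value are close. -/
theorem ev_close (j : ℕ) :
    ∀ᶠ L : ℕ in atTop, ∀ (qs qs' : List ℕ) (w w' : ℕ), Chain L qs w → Chain L qs' w' →
      cval qs w = cval qs' w' →
      (∀ d ≤ j, |Phid d (scs qs) - Phid d (scs qs')| ≤ dd L) ∧
        |(sc (qs.getD 0 0) : ℝ) - sc (qs'.getD 0 0)| ≤ dd L := by
  filter_upwards [ev_mul_rpow_le (a := 73/100) (b := 3/4) (by norm_num) (4 * 40 * ((j:ℝ) + 2)),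
    eventually_ge_atTop 1] with L hbig hL qs qs' w w' hc hc' heq
  have hL1 : (1:ℝ) ≤ L := by exact_mod_cast hL
  have hL0 : (0:ℝ) < L := by linarith
  set η : ℝ := 2 * kk L * ((K0 L : ℝ) + 2 * ee L) with hη
  have hmin : ∀ s : ℕ, |(∑ i ∈ Finset.range (kk L), ((min s (sc (qs.getD i 0)) : ℕ) : ℝ))
      - ∑ i ∈ Finset.range (kk L), ((min s (sc (qs'.getD i 0)) : ℕ) : ℝ)| ≤ η := by
    intro s
    rw [sum_getD_eq (fun q ↦ ((min s (sc q) : ℕ) : ℝ)) (by simp [sc_zero]),
      sum_getD_eq (fun q ↦ ((min s (sc q) : ℕ) : ℝ)) (by simp [sc_zero]),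
      List.take_of_length_le hc.len, List.take_of_length_le hc'.len]
    have h1 := abs_le.mp
      (omIoc_cval_bound s hc.normal hc.w_pos fun l hl hd ↦ hc.w_prime_sc hl hd)
    have h2 := abs_le.mp
      (omIoc_cval_bound s hc'.normal hc'.w_pos fun l hl hd ↦ hc'.w_prime_sc hl hd)
    rw [heq] at h1
    have hl1 : (qs.length : ℝ) ≤ kk L := by exact_mod_cast hc.len
    have hl2 : (qs'.length : ℝ) ≤ kk L := by exact_mod_cast hc'.len
    have hK : 0 ≤ (K0 L : ℝ) + 2 * ee L := by unfold ee; positivity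
    have := mul_le_mul_of_nonneg_right hl1 hK
    have := mul_le_mul_of_nonneg_right hl2 hK
    rw [abs_le, hη]
    constructor <;> linarith
  have hτ := antitone_sc_getD hc.sorted
  have hτ' := antitone_sc_getD hc'.sorted
  have hterm : ∀ r < kk L,
      |(sc (qs.getD r 0) : ℝ) - sc (qs'.getD r 0)| ≤ 2 * η := by
    intro r hr
    rw [abs_le]
    have h1 := le_add_of_minsum hτ hτ' hmin hr
    have h2 := le_add_of_minsum hτ' hτ (fun s ↦ by rw [abs_sub_comm]; exact hmin s) hr
    constructor <;> linarith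
  -- the size of the error
  set p := (L:ℝ) ^ (1/100 : ℝ) with hp
  have hp1 : 1 ≤ p := Real.one_le_rpow hL1 (by norm_num)
  have hkk : (kk L : ℝ) ≤ 2 * p := kk_le hL
  have hK0 : (K0 L : ℝ) + 2 * ee L ≤ 4 * (L:ℝ) ^ (7/10 : ℝ) := by
    have h := Nat.ceil_lt_add_one (a := (L:ℝ) ^ (7/10:ℝ)) (by positivity)
    have : (1:ℝ) ≤ (L:ℝ) ^ (7/10 : ℝ) := Real.one_le_rpow hL1 (by norm_num)
    have : ee L ≤ (L:ℝ) ^ (7/10 : ℝ) := Real.rpow_le_rpow_of_exponent_le hL1 (by norm_num)
    unfold K0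
    linarith
  have hη2 : 2 * η ≤ 32 * (p * (L:ℝ) ^ (7/10:ℝ)) := by
    have hnn : 0 ≤ (K0 L : ℝ) + 2 * ee L := by unfold ee; positivity
    rw [hη]
    calc 2 * (2 * (kk L : ℝ) * ((K0 L : ℝ) + 2 * ee L))
        ≤ 2 * (2 * (2 * p) * (4 * (L:ℝ) ^ (7/10:ℝ))) := by gcongr
      _ = _ := by ring
  have hpow : p * (L:ℝ) ^ (7/10:ℝ) ≤ (L:ℝ) ^ (73/100:ℝ) ∧
      p * p * (p * (L:ℝ) ^ (7/10:ℝ)) ≤ (L:ℝ) ^ (73/100:ℝ) := by
    rw [hp, ← Real.rpow_add hL0, ← Real.rpow_add hL0, ← Real.rpow_add hL0]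
    exact ⟨Real.rpow_le_rpow_of_exponent_le hL1 (by norm_num),
      Real.rpow_le_rpow_of_exponent_le hL1 (by norm_num)⟩
  refine ⟨fun d hd ↦ ?_, ?_⟩
  · rw [Phid_scs_eq qs d (kk L) hc.len, Phid_scs_eq qs' d (kk L) hc'.len,
      ← Finset.sum_sub_distrib]
    refine (Finset.abs_sum_le_sum_abs _ _).trans ?_
    have hb : ∀ r ∈ Finset.range (kk L),
        |acoef (d + r) * (sc (qs.getD r 0) : ℝ) - acoef (d + r) * (sc (qs'.getD r 0) : ℝ)|
          ≤ ((j:ℝ) + 2) * (2 * p) * (32 * (p * (L:ℝ) ^ (7/10:ℝ))) := by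
      intro r hr
      rw [← mul_sub, abs_mul, abs_of_nonneg (acoef_nonneg _)]
      refine mul_le_mul ?_ ((hterm r (Finset.mem_range.mp hr)).trans hη2) (abs_nonneg _)
        (by positivity)
      have h1 := acoef_le_log (d + r)
      have h2 := Real.log_le_sub_one_of_pos (show (0:ℝ) < ((d + r : ℕ) : ℝ) + 2 by positivity)
      have h3 : ((d + r : ℕ) : ℝ) + 1 ≤ (j:ℝ) + kk L + 1 := by
        have : d + r + 1 ≤ j + kk L + 1 := by have := Finset.mem_range.mp hr; omega
        exact_mod_cast this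
      have hj : (0:ℝ) ≤ j := Nat.cast_nonneg j
      nlinarith
    refine (Finset.sum_le_card_nsmul _ _ _ hb).trans ?_
    rw [Finset.card_range, nsmul_eq_mul]
    unfold dd
    refine le_trans ?_ hbig
    calc (kk L : ℝ) * (((j:ℝ) + 2) * (2 * p) * (32 * (p * (L:ℝ) ^ (7/10:ℝ))))
        ≤ (2 * p) * (((j:ℝ) + 2) * (2 * p) * (32 * (p * (L:ℝ) ^ (7/10:ℝ)))) := by gcongr
      _ = 128 * ((j:ℝ) + 2) * (p * p * (p * (L:ℝ) ^ (7/10:ℝ))) := by ring
      _ ≤ 128 * ((j:ℝ) + 2) * (L:ℝ) ^ (73/100:ℝ) := by gcongr; exact hpow.2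
      _ ≤ _ := by
          have : (0:ℝ) ≤ (L:ℝ) ^ (73/100:ℝ) := by positivity
          nlinarith
  · refine ((hterm 0 (kk_pos L hL)).trans hη2).trans ?_
    unfold dd
    refine le_trans ?_ hbig
    have hj : (0:ℝ) ≤ j := Nat.cast_nonneg j
    have : (0:ℝ) ≤ (L:ℝ) ^ (73/100:ℝ) := by positivity
    nlinarith [hpow.1]

end Vale.Agent.P031
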