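import Mathlib
import Vale.Agent.P031.BandLinear
import Vale.Agent.P031.BandSums
import Vale.Agent.P031.Closeness

/-!
Canonical representations of chain values, the room `Xof` above their minimal levels, and the
statement of the box bound.
-/

namespace Vale.Agent.P031

open Finset Real Filter Topology

/-- A chosen representation of a chain value. -/
noncomputable def canon (L t : ℕ) : List ℕ × ℕ := by
  classical exact if h : IsTail L t then (h.choose, h.choose_spec.choose) else ([], 1)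

lemma canon_spec {L t : ℕ} (h : IsTail L t) :
    Chain L (canon L t).1 (canon L t).2 ∧ SqfBig L t ∧
      cval (canon L t).1 (canon L t).2 = t := by
  classical
  obtain ⟨h1, h2, h3⟩ := h.choose_spec.choose_spec
  have e : canon L t = (h.choose, h.choose_spec.choose) := by rw [canon, dif_pos h]
  rw [e]
  exact ⟨h1, h3 ▸ h2, h3⟩

/-- The scales of the chosen representation. -/
noncomputable def tauC (L t : ℕ) : List ℝ := scs (canon L t).1

lemma tauC_nonneg (L t : ℕ) : ∀ x ∈ tauC L t, (0:ℝ) ≤ x := scs_nonneg _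

/-- The room left above the minimal `k` levels over the tail value `t`. -/
noncomputable def Xof (L k t : ℕ) : ℝ :=
  (L:ℝ) - Phid 0 (bld 0 k (tauC L t) ++ tauC L t)

lemma Xof_le (L k t : ℕ) : Xof L k t ≤ L := by
  have := Phid_nonneg _ (bld_nonneg (le_refl (0:ℝ)) (tauC_nonneg L t) k) 0
  unfold Xof
  linarith

lemma one_mem_minSet {L : ℕ} (h : 2 * KK L ≤ L) : 1 ∈ minSet L := by
  refine mem_minSet.mpr ⟨⟨le_rfl, Nat.one_le_iff_ne_zero.mpr ?_⟩, [], 1, ⟨?_, ?_, ?_, ?_⟩, ?_⟩
  · exact (Nat.ceil_pos.mpr (Real.exp_pos _)).ne'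
  · refine ⟨List.Pairwise.nil, by simp, by simp, by simp, ?_, 1, one_pos, Nat.totient_one, ?_, ?_⟩
    · intro a q rest hq; simp at hq
    · intro l hl hd; exact absurd (Nat.dvd_one.mp hd) hl.one_lt.ne'
    · simp; positivity
  · intro l hl _ hd
    rw [cval, prodPred] at hd
    simp at hd
    exact absurd hd (hl.one_lt.ne')
  · simp
  · simpa [Phi, scs, Phid_nil] using h
  · simp [cval, prodPred]

/-- Tail values with much room give a proportional part of the interior sum. -/
def BoxBound (j : ℕ) : Prop :=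
  ∀ k : ℕ, 1 ≤ k → k ≤ j → ∃ C : ℝ, 1 ≤ C ∧ ∀ᶠ L : ℕ in atTop, ∀ T : Finset ℕ,
    T ⊆ tailSet L → (∀ t ∈ T, (L:ℝ) ^ (9/10 : ℝ) ≤ Xof L k t) →
    ∑ t ∈ T, Xof L k t ^ k / (t:ℝ) ≤ C * ∑ m ∈ minSet L, (1:ℝ) / m

end Vale.Agent.P031
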