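import Mathlib
import Vale.Agent.P031.BandDefs

/-!
Boundary multipliers as a top part of bounded length over a chain value.
-/

namespace Vale.Agent.P031

open Finset Real Filter Topology

/-- Top parts that reach the boundary layer over the levels `τ`. -/
def TopOK (L : ℕ) (τ : List ℝ) (us : List ℕ) : Prop :=
  Adm (3 * KK L) (scs us) τ ∧ Phid 0 (scs us ++ τ) ≤ (L:ℝ) + 3 * KK L ∧
    ((L:ℝ) ≤ hd (scs us) + 3 * KK L ∨ (L:ℝ) ≤ Phid 0 (scs us ++ τ) + 3 * KK L)

/-- The possible top parts of length `k` over the chain value `t`. -/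
noncomputable def bandTops (L k t : ℕ) : Finset (List ℕ) := by
  classical exact (plists (primesSc (L + 2)) k).filter (TopOK L (tauC L t))

/-- Their reciprocal sum. -/
noncomputable def bandTopSum (L k t : ℕ) : ℝ := ∑ us ∈ bandTops L k t, 1 / (prodPred us : ℝ)

/-- Chain values that can lie below a top part of length `k ≤ j`. -/
noncomputable def tailAt (L j k : ℕ) : Finset ℕ := by
  classical exact (tailSet L).filter fun t ↦ k < j → Phid 0 (tauC L t) ≤ dd L

lemma mem_bandTops {L k t : ℕ} {us : List ℕ} :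
    us ∈ bandTops L k t ↔ us ∈ plists (primesSc (L + 2)) k ∧ TopOK L (tauC L t) us := by
  classical simp [bandTops]

lemma mem_tailAt {L j k t : ℕ} :
    t ∈ tailAt L j k ↔ t ∈ tailSet L ∧ (k < j → Phid 0 (tauC L t) ≤ dd L) := by
  classical simp [tailAt]

lemma scs_nil : scs [] = [] := rfl

lemma scs_cons (q : ℕ) (l : List ℕ) : scs (q :: l) = (sc q : ℝ) :: scs l := rfl

lemma scs_append (a b : List ℕ) : scs (a ++ b) = scs a ++ scs b := by simp [scs]

lemma scs_length (a : List ℕ) : (scs a).length = a.length := by simp [scs]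

lemma hd_scs (l : List ℕ) : hd (scs l) = (sc (l.getD 0 0) : ℝ) := by
  cases l with
  | nil => simp [scs, hd, sc_zero]
  | cons q t => simp [scs, hd]

lemma scs_eq_append {us : List ℕ} {a r : List ℝ} {u : ℝ} (h : scs us = a ++ u :: r) :
    ∃ a' q r', us = a' ++ q :: r' ∧ u = (sc q : ℝ) ∧ r = scs r' := by
  obtain ⟨a', b', rfl, -, hb⟩ := List.map_eq_append_iff.mp h
  obtain ⟨q, r', rfl, hq, hr⟩ := List.map_eq_cons_iff.mp hb
  exact ⟨a', q, r', rfl, hq.symm, hr.symm⟩

lemma ev_dd_KA_le : ∀ᶠ L : ℕ in atTop, KA L + dd L ≤ KK L := by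
  filter_upwards [ev_mul_rpow_le (a := 13/20) (b := 4/5) (by norm_num) 2,
    ev_mul_rpow_le (a := 3/4) (b := 4/5) (by norm_num) 2] with L h1 h2
  unfold KA dd KK
  linarith

/-- A boundary multiplier splits into a top part and a chain value. -/
lemma ev_band_split (j : ℕ) (hj : 1 ≤ j) :
    ∀ᶠ L : ℕ in atTop, ∀ m ∈ bandSet L, ∃ k us t, 1 ≤ k ∧ k ≤ j ∧ t ∈ tailAt L j k ∧
      us ∈ bandTops L k t ∧ prodPred us * t = m := by
  filter_upwards [ev_close j, ev_cval_le_tailBound, ev_dd_KA_le] with L hclose htb hsmall m hm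
  obtain ⟨-, qs, w, hne, hc, hsq, hle2, hphi, hnin, rfl⟩ := mem_bandSet.mp hm
  have hKA : 0 ≤ KA L := Real.rpow_nonneg (Nat.cast_nonneg _) _
  have hdd : 0 ≤ dd L := Real.rpow_nonneg (Nat.cast_nonneg _) _
  set k := min qs.length j with hk
  have hpos := List.length_pos_iff.mpr hne
  set us := qs.take k with hus
  set rest := qs.drop k with hrest
  have hcat : us ++ rest = qs := List.take_append_drop k qs
  have hlen : us.length = k := by rw [hus, List.length_take]; omega
  have hcr : Chain L rest w := hc.drop k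
  set t := cval rest w with ht
  have hval : prodPred us * t = cval qs w := by
    rw [ht, cval, cval, ← mul_assoc, ← prodPred_append, hcat]
  have hsqt : SqfBig L t := hsq.of_dvd (hval ▸ dvd_mul_left _ _)
  have hTail : IsTail L t := ⟨rest, w, hcr, hsqt, rfl⟩
  obtain ⟨hcc, -, hcv⟩ := canon_spec hTail
  obtain ⟨hcl, hhd⟩ := hclose rest (canon L t).1 w (canon L t).2 hcr hcc hcv.symm
  set τ := tauC L t with hτ
  have hτ' : τ = scs (canon L t).1 := rfl
  rw [← hd_scs, ← hd_scs, ← hτ'] at hhd
  rw [← hτ'] at hcl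
  have hfull : |Phid 0 (scs us ++ τ) - Phi qs| ≤ dd L := by
    rw [Phi, ← hcat, scs_append, Phid_append, Phid_append, scs_length, Nat.zero_add,
      abs_sub_comm]
    simpa using hcl us.length (by omega)
  obtain ⟨hfull1, hfull2⟩ := abs_le.mp hfull
  refine ⟨k, us, t, le_min hpos hj, min_le_right _ _, mem_tailAt.mpr
    ⟨mem_tailSet.mpr ⟨htb rest w hcr, hTail⟩, fun hkj ↦ ?_⟩, mem_bandTops.mpr
    ⟨mem_plists.mpr ⟨hlen, fun p hp ↦ ?_⟩, ?_, by linarith, ?_⟩, hval⟩
  · have hnil : rest = [] := List.drop_eq_nil_iff.mpr (by omega)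
    have := (abs_le.mp (hcl 0 (Nat.zero_le _))).1
    rw [hnil, scs_nil, Phid_nil] at this
    linarith
  · have hpq : p ∈ qs := List.mem_of_mem_take hp
    exact mem_primesSc.mpr ⟨(hc.normal p hpq).prime, hle2 p hpq⟩
  · intro a u r he
    obtain ⟨a', q, r', hus', rfl, rfl⟩ := scs_eq_append he
    have hqs : qs = a' ++ q :: (r' ++ rest) := by
      rw [← hcat, hus', List.append_assoc, List.cons_append]
    have hsorted : (q :: (r' ++ rest)).Pairwise (· > ·) :=
      (List.pairwise_append.mp (hqs ▸ hc.sorted)).2.1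
    have hlt := (List.pairwise_cons.mp hsorted).1
    constructor
    · cases r' with
      | nil =>
        rw [scs_nil, List.nil_append]
        have h1 : hd (scs rest) ≤ (sc q : ℝ) := by
          rw [hd_scs]
          cases hre : rest with
          | nil => simp [sc_zero]
          | cons x l =>
            simp only [List.getD_cons_zero]
            exact_mod_cast sc_mono (hlt x (by rw [hre]; simp)).le
        linarith [(abs_le.mp hhd).1]
      | cons x l =>
        rw [scs_cons, List.cons_append, hd_cons]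
        have : (sc x : ℝ) ≤ sc q := by exact_mod_cast sc_mono (hlt x (by simp)).le
        linarith
    · have hstep := hc.step a' q (r' ++ rest) hqs
      rw [Phi, scs_append, Phid_append, scs_length, Nat.zero_add] at hstep
      rw [Phid_append, scs_length, Nat.zero_add]
      have h := (abs_le.mp (hcl r'.length (by
        have : r'.length < us.length := by rw [hus']; simp; omega
        omega))).1
      linarith
  · have hhead : hd (scs us) = hd (scs qs) := by
      obtain ⟨q, t', hqs⟩ : ∃ q t', us = q :: t' := by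
        cases hu : us with
        | nil => rw [hu, List.length_nil] at hlen; omega
        | cons q t' => exact ⟨q, t', rfl⟩
      rw [← hcat, hqs, scs_cons, hd_cons, List.cons_append, scs_cons, hd_cons]
    rw [hhead]
    by_contra hcon
    rw [not_or, not_le, not_le] at hcon
    refine hnin ⟨hc, hsq, fun q hq ↦ ?_, by linarith⟩
    have hq' : (sc q : ℝ) ≤ hd (scs qs) := by
      rw [hd_scs]
      obtain ⟨i, hi, rfl⟩ := List.getElem_of_mem hq
      have := antitone_sc_getD hc.sorted (Nat.zero_le i)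
      simp only [List.getD_eq_getElem _ _ hi] at this
      exact_mod_cast this
    linarith

/-- The band sum in terms of the top sums. -/
lemma ev_band_le (j : ℕ) (hj : 1 ≤ j) :
    ∀ᶠ L : ℕ in atTop, ∑ m ∈ bandSet L, (1:ℝ) / m
      ≤ ∑ k ∈ Finset.Icc 1 j, ∑ t ∈ tailAt L j k, bandTopSum L k t / (t:ℝ) := by
  filter_upwards [ev_band_split j hj] with L h
  classical
  set A := (Finset.Icc 1 j).sigma fun k ↦ (tailAt L j k).sigma fun t ↦ bandTops L k t with hA
  have hsub : bandSet L ⊆ A.image fun x ↦ prodPred x.2.2 * x.2.1 := by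
    intro m hm
    obtain ⟨k, us, t, h1, h2, h3, h4, rfl⟩ := h m hm
    exact Finset.mem_image.mpr ⟨⟨k, t, us⟩, Finset.mem_sigma.mpr ⟨Finset.mem_Icc.mpr ⟨h1, h2⟩,
      Finset.mem_sigma.mpr ⟨h3, h4⟩⟩, rfl⟩
  refine (Finset.sum_le_sum_of_subset_of_nonneg hsub fun m _ _ ↦ by positivity).trans
    ((Finset.sum_image_le_of_nonneg fun x _ ↦ by positivity).trans (le_of_eq ?_))
  rw [hA, Finset.sum_sigma]
  refine Finset.sum_congr rfl fun k _ ↦ ?_
  rw [Finset.sum_sigma]
  refine Finset.sum_congr rfl fun t _ ↦ ?_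
  rw [bandTopSum, Finset.sum_div]
  refine Finset.sum_congr rfl fun us _ ↦ ?_
  push_cast
  rw [div_div]

end Vale.Agent.P031
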