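import Mathlib
import Vale.Agent.P031.BandRep

/-!
The weight of the top parts over a fixed chain value.
-/

namespace Vale.Agent.P031

open Finset Real Filter Topology

/-- Primes with scale in `[lo, hi]` and at most `L + 2`. -/
noncomputable def scWin (L : ℕ) (lo hi : ℝ) : Finset ℕ := by
  classical exact (primesSc (L + 2)).filter fun p ↦ lo ≤ sc p ∧ (sc p : ℝ) ≤ hi

lemma mem_scWin {L p : ℕ} {lo hi : ℝ} :
    p ∈ scWin L lo hi ↔ p ∈ primesSc (L + 2) ∧ lo ≤ sc p ∧ (sc p : ℝ) ≤ hi := by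
  classical simp [scWin]

/-- Lists with entries in prescribed sets. -/
def boxes : List (Finset ℕ) → Finset (List ℕ)
  | [] => {[]}
  | P :: Ps => (P ×ˢ boxes Ps).image fun x ↦ x.1 :: x.2

lemma mem_boxes {Ps : List (Finset ℕ)} {l : List ℕ}
    (h : List.Forall₂ (fun p P ↦ p ∈ P) l Ps) : l ∈ boxes Ps := by
  induction h with
  | nil => simp [boxes]
  | @cons a b l Ps hab _ ih =>
    exact Finset.mem_image.mpr ⟨(a, l), Finset.mem_product.mpr ⟨hab, ih⟩, rfl⟩

lemma sum_boxes_le {B : ℝ} (hB : 0 ≤ B) : ∀ Ps : List (Finset ℕ),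
    (∀ P ∈ Ps, ∑ p ∈ P, 1 / ((p - 1 : ℕ) : ℝ) ≤ B) →
      ∑ l ∈ boxes Ps, 1 / (prodPred l : ℝ) ≤ B ^ Ps.length := by
  intro Ps
  induction Ps with
  | nil => intro _; simp [boxes, prodPred]
  | cons P Ps ih =>
    intro h
    rw [boxes, Finset.sum_image (fun x _ y _ hxy ↦ by
      simp only [List.cons.injEq] at hxy
      exact Prod.ext hxy.1 hxy.2), Finset.sum_product, List.length_cons, pow_succ']
    calc ∑ p ∈ P, ∑ l ∈ boxes Ps, 1 / (prodPred (p :: l) : ℝ)
        = (∑ p ∈ P, 1 / ((p - 1 : ℕ) : ℝ)) * ∑ l ∈ boxes Ps, 1 / (prodPred l : ℝ) := by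
          rw [Finset.sum_mul_sum]
          refine Finset.sum_congr rfl fun p _ ↦ Finset.sum_congr rfl fun l _ ↦ ?_
          rw [prodPred_cons, Nat.cast_mul, one_div_mul_one_div]
      _ ≤ B * B ^ Ps.length := by
          refine mul_le_mul (h P List.mem_cons_self)
            (ih fun Q hQ ↦ h Q (List.mem_cons_of_mem _ hQ)) (Finset.sum_nonneg fun l _ ↦ ?_) hB
          positivity

/-- A window of scales has weight at most its width. -/
lemma sum_scWin_le {C : ℝ} (hC0 : 0 ≤ C)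
    (hC : ∀ u : ℕ, ∑ p ∈ (primesSc u).filter (fun p ↦ sc p = u), 1 / ((p - 1 : ℕ) : ℝ) ≤ C)
    (L : ℕ) {lo hi : ℝ} (hlh : lo ≤ hi + 1) :
    ∑ p ∈ scWin L lo hi, 1 / ((p - 1 : ℕ) : ℝ) ≤ C * (hi - lo + 1) := by
  classical
  set U := (Finset.range (L + 3)).filter fun u : ℕ ↦ lo ≤ (u:ℝ) ∧ (u:ℝ) ≤ hi with hU
  have hcard : (U.card : ℝ) ≤ hi - lo + 1 := by
    rcases U.eq_empty_or_nonempty with he | ⟨u, hu⟩
    · rw [he, Finset.card_empty, Nat.cast_zero]; linarith
    obtain ⟨-, hu1, hu2⟩ := Finset.mem_filter.mp hu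
    have hhi : 0 ≤ hi := le_trans (Nat.cast_nonneg u) hu2
    have hsub : U ⊆ Finset.Icc ⌈lo⌉₊ ⌊hi⌋₊ := fun v hv ↦ by
      obtain ⟨-, h1, h2⟩ := Finset.mem_filter.mp hv
      exact Finset.mem_Icc.mpr ⟨Nat.ceil_le.mpr h1, Nat.le_floor h2⟩
    have h1 : ⌈lo⌉₊ ≤ ⌊hi⌋₊ + 1 :=
      (Nat.ceil_le.mpr hu1).trans ((Nat.le_floor hu2).trans (Nat.le_succ _))
    have h2 : (U.card : ℝ) ≤ ((⌊hi⌋₊ + 1 - ⌈lo⌉₊ : ℕ) : ℝ) := by
      rw [← Nat.card_Icc]; exact_mod_cast Finset.card_le_card hsub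
    rw [Nat.cast_sub h1] at h2
    push_cast at h2
    linarith [Nat.floor_le hhi, Nat.le_ceil lo]
  have hmaps : ∀ p ∈ scWin L lo hi, sc p ∈ U := fun p hp ↦ by
    obtain ⟨h1, h2, h3⟩ := mem_scWin.mp hp
    exact Finset.mem_filter.mpr
      ⟨Finset.mem_range.mpr (by have := (mem_primesSc.mp h1).2; omega), h2, h3⟩
  rw [← Finset.sum_fiberwise_of_maps_to hmaps]
  calc ∑ u ∈ U, ∑ p ∈ (scWin L lo hi).filter (fun p ↦ sc p = u), 1 / ((p - 1 : ℕ) : ℝ)
      ≤ ∑ _u ∈ U, C := by
        refine Finset.sum_le_sum fun u _ ↦ le_trans ?_ (hC u)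
        refine Finset.sum_le_sum_of_subset_of_nonneg (fun p hp ↦ ?_) fun p _ _ ↦ by positivity
        obtain ⟨h1, h2⟩ := Finset.mem_filter.mp hp
        exact Finset.mem_filter.mpr ⟨mem_primesSc.mpr
          ⟨(mem_primesSc.mp (mem_scWin.mp h1).1).1, h2.le⟩, h2⟩
    _ = (U.card : ℝ) * C := by rw [Finset.sum_const, nsmul_eq_mul]
    _ ≤ (hi - lo + 1) * C := by gcongr
    _ = _ := mul_comm _ _

lemma forall₂_mem_map {β : Type*} {win : β → Finset ℕ} :
    ∀ (l : List ℕ) (V : List β) (d : β), l.length = V.length →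
      (∀ i < l.length, l.getD i 0 ∈ win (V.getD i d)) →
      List.Forall₂ (fun p P ↦ p ∈ P) l (V.map win) := by
  intro l
  induction l with
  | nil =>
    intro V d hlen _
    rw [List.length_eq_zero_iff.mp hlen.symm, List.map_nil]
    exact List.Forall₂.nil
  | cons a l ih =>
    intro V d hlen h
    cases V with
    | nil => simp at hlen
    | cons b V =>
      rw [List.map_cons]
      refine List.Forall₂.cons ?_ (ih V d (by simpa using hlen) fun i hi ↦ ?_)
      · simpa using h 0 (by simp)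
      · simpa using h (i + 1) (by simpa using hi)

lemma getD_scs (l : List ℕ) (i : ℕ) : (scs l).getD i 0 = (sc (l.getD i 0) : ℝ) := by
  induction l generalizing i with
  | nil => simp [scs, sc_zero]
  | cons q t ih =>
    cases i with
    | zero => simp [scs]
    | succ i => simpa [scs] using ih i

/-- All entries of an admissible top part lie in short windows above the minimal levels. -/
lemma topOK_bounds {L k t j : ℕ} (hKK : 0 ≤ KK L) (hkj : k ≤ j) {us : List ℕ}
    (hlen : us.length = k) (h : TopOK L (tauC L t) us) :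
    -((3 + 3 * errFac j j * ((j:ℝ) + 1) ^ 2) * KK L) ≤ Xof L k t ∧ ∀ i < k,
      (bld 0 k (tauC L t)).getD i 0 - 3 * errFac j j * KK L ≤ sc (us.getD i 0) ∧
      (sc (us.getD i 0) : ℝ) ≤ (bld 0 k (tauC L t)).getD i 0 - 3 * errFac j j * KK L
        + 3 * (Xof L k t + (3 + 3 * errFac j j * ((j:ℝ) + 1) ^ 2) * KK L) := by
  set e := 3 * errFac j j * KK L with hedef
  set A := (3 + 3 * errFac j j * ((j:ℝ) + 1) ^ 2) * KK L with hAdef
  obtain ⟨hadm, htot, -⟩ := h
  set τ := tauC L t with hτ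
  set U := scs us with hU
  have hUlen : U.length = k := by rw [hU, scs_length, hlen]
  have h0 := adm_ge_bld (j := j) (δ := 3 * KK L) (by linarith) τ U (by omega) hadm
  rw [hUlen] at h0
  have he : errFac j k * (3 * KK L) ≤ e := by
    have := mul_le_mul_of_nonneg_right (errFac_mono j hkj) (by linarith : 0 ≤ 3 * KK L)
    rw [hedef]
    linarith
  have he0 : 0 ≤ e := mul_nonneg (by linarith [one_le_errFac j j]) hKK
  have h1 : List.Forall₂ (fun x y ↦ x ≤ y + e) (bld 0 k τ) U := h0.imp fun x y hxy ↦ by linarith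
  have h2 : List.Forall₂ (fun x y ↦ y ≤ x + e) U (bld 0 k τ) := h1.flip
  have hlow := Phid_le_add h1 0 τ
  rw [bld_length] at hlow
  have hsum := mul_le_mul_of_nonneg_left (asum_zero_le_sq hkj) he0
  have hX : Xof L k t = (L:ℝ) - Phid 0 (bld 0 k τ ++ τ) := rfl
  have hA : A = 3 * KK L + e * ((j:ℝ) + 1) ^ 2 := by rw [hAdef, hedef]; ring
  refine ⟨by rw [hX, hA]; linarith, fun i hi ↦ ?_⟩
  have hel := elem_le_Phid h2 0 i (by omega)
  rw [hUlen] at hel
  have hdiff : Phid 0 U - Phid 0 (bld 0 k τ)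
      = Phid 0 (U ++ τ) - Phid 0 (bld 0 k τ ++ τ) := by
    rw [Phid_append, Phid_append, hUlen, bld_length]; ring
  have hge : (bld 0 k τ).getD i 0 ≤ U.getD i 0 + e := by
    have hib : i < (bld 0 k τ).length := by rw [bld_length]; exact hi
    have hiU : i < U.length := by omega
    rw [List.getD_eq_getElem _ _ hib, List.getD_eq_getElem _ _ hiU]
    exact (List.forall₂_iff_get.mp h1).2 i hib hiU
  rw [hU, getD_scs] at hge hel
  refine ⟨by linarith, ?_⟩
  rw [hdiff] at hel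
  have : 0 ≤ A := mul_nonneg (by
    nlinarith [one_le_errFac j j, sq_nonneg ((j:ℝ) + 1)]) hKK
  rw [hX, hA]
  linarith

/-- The weight of top parts over a chain value. -/
theorem exists_topSum_le (j : ℕ) :
    ∃ A, 1 ≤ A ∧ ∀ᶠ L : ℕ in atTop, ∀ k : ℕ, 1 ≤ k → k ≤ j → ∀ t : ℕ,
      (bandTopSum L k t ≠ 0 → -(A * KK L) ≤ Xof L k t) ∧
      bandTopSum L k t ≤ A * KK L * (A * (max (Xof L k t) 0 + KK L)) ^ (k - 1) := by
  obtain ⟨C, hC1, -, hC⟩ := exists_sum_pred_bounds
  set A0 := 3 + 3 * errFac j j * ((j:ℝ) + 1) ^ 2 with hA0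
  have hA03 : 3 ≤ A0 := by
    have h1 := one_le_errFac j j
    have : 0 ≤ 3 * errFac j j * ((j:ℝ) + 1) ^ 2 := by positivity
    linarith
  refine ⟨31 * C * A0, by
    have := one_le_mul_of_one_le_of_one_le hC1 (by linarith : (1:ℝ) ≤ A0)
    linarith, ?_⟩
  filter_upwards [ev_const_le_rpow (b := 4/5) (by norm_num) 1] with L hKK1 k hk1 hkj t
  change 1 ≤ KK L at hKK1
  classical
  have hKK : 0 ≤ KK L := by linarith
  set A := 31 * C * A0 with hA
  set X := Xof L k t with hX
  set τ := tauC L t with hτ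
  set e := 3 * errFac j j * KK L with he
  set W := 3 * (X + A0 * KK L) with hW
  have hA0le : A0 ≤ A := by
    rw [hA]
    exact le_mul_of_one_le_left (by linarith) (by linarith)
  by_cases hemp : bandTops L k t = ∅
  · have h0 : bandTopSum L k t = 0 := by rw [bandTopSum, hemp, Finset.sum_empty]
    refine ⟨fun h ↦ absurd h0 h, ?_⟩
    rw [h0]
    have : 0 ≤ A := by linarith
    positivity
  obtain ⟨us0, hus0⟩ := Finset.nonempty_iff_ne_empty.mpr hemp
  have hbounds : ∀ us ∈ bandTops L k t, us.length = k ∧ -(A0 * KK L) ≤ X ∧ ∀ i < k,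
      (bld 0 k τ).getD i 0 - e ≤ sc (us.getD i 0) ∧
      (sc (us.getD i 0) : ℝ) ≤ (bld 0 k τ).getD i 0 - e + W := by
    intro us hus
    obtain ⟨h1, h2⟩ := mem_bandTops.mp hus
    exact ⟨(mem_plists.mp h1).1, topOK_bounds hKK hkj (mem_plists.mp h1).1 h2⟩
  have hXlow := (hbounds us0 hus0).2.1
  refine ⟨fun _ ↦ le_trans (neg_le_neg (mul_le_mul_of_nonneg_right hA0le hKK)) hXlow, ?_⟩
  have hW0 : 0 ≤ W := by rw [hW]; linarith
  obtain ⟨k', rfl⟩ : ∃ k', k = k' + 1 := ⟨k - 1, by omega⟩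
  set win := fun v : ℝ ↦ scWin L (v - e) (v - e + W) with hwin
  set Box := boxes ((bld 0 k' τ).map win) with hBox
  set first := fun us' : List ℕ ↦
    scWin L ((L:ℝ) - 3 * KK L) ((L:ℝ) + 2)
      ∪ scWin L (((L:ℝ) - 3 * KK L - Phid 1 (scs us' ++ τ)) / acoef 0)
          (((L:ℝ) + 3 * KK L - Phid 1 (scs us' ++ τ)) / acoef 0) with hfirst
  set All := Box.sigma first with hAll
  have hsub : bandTops L (k' + 1) t ⊆ All.image fun x ↦ x.2 :: x.1 := by
    intro us hus
    obtain ⟨hlen, -, hwins⟩ := hbounds us hus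
    obtain ⟨hpl, -, htot, hor⟩ := mem_bandTops.mp hus
    obtain ⟨q, us', rfl⟩ : ∃ q us', us = q :: us' := by
      cases us with
      | nil => simp at hlen
      | cons a b => exact ⟨a, b, rfl⟩
    have hmem := (mem_plists.mp hpl).2
    refine Finset.mem_image.mpr ⟨⟨us', q⟩, Finset.mem_sigma.mpr ⟨?_, ?_⟩, rfl⟩
    · refine mem_boxes (forall₂_mem_map us' _ 0 ?_ fun i hi ↦ ?_)
      · rw [bld_length]; simpa using hlen
      · have h := hwins (i + 1) (by simp at hlen; omega)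
        simp only [bld, List.getD_cons_succ] at h
        refine mem_scWin.mpr ⟨hmem _ (List.mem_cons_of_mem _ ?_), h.1, h.2⟩
        rw [List.getD_eq_getElem _ _ hi]
        exact List.getElem_mem _
    · have hq := hmem q List.mem_cons_self
      have hq2 : (sc q : ℝ) ≤ (L:ℝ) + 2 := by exact_mod_cast (mem_primesSc.mp hq).2
      have ha := acoef_pos 0
      rw [scs_cons, List.cons_append, Phid_cons, Nat.zero_add] at htot
      rw [scs_cons, hd_cons, List.cons_append, Phid_cons, Nat.zero_add] at hor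
      rcases hor with h | h
      · exact Finset.mem_union_left _ (mem_scWin.mpr ⟨hq, by linarith, hq2⟩)
      · refine Finset.mem_union_right _ (mem_scWin.mpr ⟨hq, ?_, ?_⟩)
        · rw [div_le_iff₀ ha]; linarith
        · rw [le_div_iff₀ ha]; linarith
  have hfirstle : ∀ us' : List ℕ,
      ∑ q ∈ first us', 1 / ((q - 1 : ℕ) : ℝ) ≤ C * (25 * KK L) := by
    intro us'
    refine le_trans (le_of_le_of_eq (le_add_of_nonneg_right
      (Finset.sum_nonneg fun q _ ↦ by positivity)) Finset.sum_union_inter) ?_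
    have h1 := sum_scWin_le (by linarith : 0 ≤ C) hC L
      (lo := (L:ℝ) - 3 * KK L) (hi := (L:ℝ) + 2) (by linarith)
    have h2 := sum_scWin_le (by linarith : 0 ≤ C) hC L
      (lo := ((L:ℝ) - 3 * KK L - Phid 1 (scs us' ++ τ)) / acoef 0)
      (hi := ((L:ℝ) + 3 * KK L - Phid 1 (scs us' ++ τ)) / acoef 0) (by
        have : ((L:ℝ) - 3 * KK L - Phid 1 (scs us' ++ τ)) / acoef 0
            ≤ ((L:ℝ) + 3 * KK L - Phid 1 (scs us' ++ τ)) / acoef 0 := by
          have := acoef_pos 0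
          gcongr
          linarith
        linarith)
    have h3 : ((L:ℝ) + 3 * KK L - Phid 1 (scs us' ++ τ)) / acoef 0
        - ((L:ℝ) - 3 * KK L - Phid 1 (scs us' ++ τ)) / acoef 0 ≤ 16 * KK L := by
      rw [← sub_div, div_le_iff₀ (acoef_pos 0)]
      have := mul_le_mul_of_nonneg_left (acoef_ge 0) (by linarith : 0 ≤ 16 * KK L)
      linarith
    have h4 := mul_le_mul_of_nonneg_left
      (show ((L:ℝ) + 2 - ((L:ℝ) - 3 * KK L) + 1)
        + ((((L:ℝ) + 3 * KK L - Phid 1 (scs us' ++ τ)) / acoef 0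
          - ((L:ℝ) - 3 * KK L - Phid 1 (scs us' ++ τ)) / acoef 0) + 1) ≤ 25 * KK L by linarith)
      (by linarith : 0 ≤ C)
    linarith
  have hbox : ∑ us' ∈ Box, 1 / (prodPred us' : ℝ) ≤ (C * (W + 1)) ^ k' := by
    refine (sum_boxes_le (B := C * (W + 1)) (mul_nonneg (by linarith) (by linarith)) _
      fun P hP ↦ ?_).trans_eq ?_
    · obtain ⟨v, -, rfl⟩ := List.mem_map.mp hP
      refine (sum_scWin_le (by linarith : 0 ≤ C) hC L (by linarith)).trans_eq ?_
      ring
    · rw [List.length_map, bld_length]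
  have hWA : C * (W + 1) ≤ A * (max X 0 + KK L) := by
    have h1 : W + 1 ≤ 4 * A0 * (max X 0 + KK L) := by
      have e1 : X ≤ A0 * max X 0 :=
        (le_max_left X 0).trans (le_mul_of_one_le_left (le_max_right X 0) (by linarith))
      have e2 : (1:ℝ) ≤ A0 * KK L := one_le_mul_of_one_le_of_one_le (by linarith) hKK1
      have e3 : 0 ≤ A0 * max X 0 := mul_nonneg (by linarith) (le_max_right X 0)
      rw [hW]
      linarith
    calc C * (W + 1) ≤ C * (4 * A0 * (max X 0 + KK L)) :=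
          mul_le_mul_of_nonneg_left h1 (by linarith)
      _ = (4 * C * A0) * (max X 0 + KK L) := by ring
      _ ≤ _ := by
          rw [hA]
          gcongr
          norm_num
  calc bandTopSum L (k' + 1) t
      ≤ ∑ us ∈ All.image (fun x ↦ x.2 :: x.1), 1 / (prodPred us : ℝ) :=
        Finset.sum_le_sum_of_subset_of_nonneg hsub fun us _ _ ↦ by positivity
    _ ≤ ∑ x ∈ All, 1 / (prodPred (x.2 :: x.1) : ℝ) :=
        Finset.sum_image_le_of_nonneg fun x _ ↦ by positivity
    _ = ∑ us' ∈ Box, (∑ q ∈ first us', 1 / ((q - 1 : ℕ) : ℝ)) * (1 / (prodPred us' : ℝ)) := by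
        rw [hAll, Finset.sum_sigma]
        refine Finset.sum_congr rfl fun us' _ ↦ ?_
        rw [Finset.sum_mul]
        refine Finset.sum_congr rfl fun q _ ↦ ?_
        rw [prodPred_cons, Nat.cast_mul, one_div_mul_one_div]
    _ ≤ ∑ us' ∈ Box, C * (25 * KK L) * (1 / (prodPred us' : ℝ)) :=
        Finset.sum_le_sum fun us' _ ↦
          mul_le_mul_of_nonneg_right (hfirstle us') (by positivity)
    _ = C * (25 * KK L) * ∑ us' ∈ Box, 1 / (prodPred us' : ℝ) := (Finset.mul_sum _ _ _).symm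
    _ ≤ C * (25 * KK L) * (A * (max X 0 + KK L)) ^ k' :=
        mul_le_mul_of_nonneg_left (hbox.trans (pow_le_pow_left₀
          (mul_nonneg (by linarith) (by linarith)) hWA k')) (by positivity)
    _ ≤ _ := by
        rw [Nat.add_sub_cancel]
        refine mul_le_mul_of_nonneg_right ?_ (pow_nonneg
          (le_trans (mul_nonneg (by linarith) (by linarith)) hWA) _)
        have : 25 * C ≤ A := by
          rw [hA]
          have := mul_le_mul_of_nonneg_left hA03 (by linarith : 0 ≤ C)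
          linarith
        have := mul_le_mul_of_nonneg_right this hKK
        linarith

end Vale.Agent.P031
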