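import Mathlib
import Vale.Agent.P031.BandCount

/-!
The boundary layer is negligible: `BandNegligible` from the box bound.
-/

namespace Vale.Agent.P031

open Finset Real Filter Topology

/-- Removing the top level divides the linear form by at least `1.38`, up to `KA`. -/
lemma Chain.strip_le {L q : ℕ} {r : List ℕ} {w : ℕ} (h : Chain L (q :: r) w) :
    1.38 * Phi r ≤ Phi (q :: r) + KA L := by
  have hstep := h.step [] q r rfl
  have hP : 0 ≤ Phi r := Phid_nonneg _ (scs_nonneg r) 0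
  have hKA : 0 ≤ KA L := Real.rpow_nonneg (Nat.cast_nonneg _) _
  have h1 := Phid_mono_index (scs r) (scs_nonneg r) 0 1 (by omega)
  have h2 := mul_le_mul_of_nonneg_left hstep (acoef_nonneg 0)
  have ha0 : acoef 0 ≤ 1 := by
    rw [acoef_zero]; linarith [Real.log_two_lt_d9]
  have h3 := mul_le_mul_of_nonneg_right ha0 hKA
  have h4 := mul_le_mul_of_nonneg_right acoef_zero_gt.le hP
  unfold Phi at *
  rw [scs_cons, Phid_cons, Nat.zero_add]
  linarith

lemma Chain.drop_Phi_le {L : ℕ} {qs : List ℕ} {w : ℕ} (h : Chain L qs w) (s : ℕ) :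
    Phi (qs.drop s) + 3 * KA L / 1.38 ^ s ≤ Phi qs / 1.38 ^ s + 3 * KA L := by
  have hKA : 0 ≤ KA L := Real.rpow_nonneg (Nat.cast_nonneg _) _
  induction s generalizing qs with
  | zero => simp
  | succ s ih =>
    cases qs with
    | nil =>
      have hnil : Phi [] = 0 := by simp [Phi, scs, Phid_nil]
      rw [List.drop_nil, hnil, zero_div, zero_add, zero_add]
      exact div_le_self (by linarith) (one_le_pow₀ (by norm_num))
    | cons q r =>
      rw [List.drop_succ_cons]
      have h0 := h.strip_le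
      have hi := ih h.tail_of_cons
      have hp : (0:ℝ) < 1.38 ^ (s + 1) := by positivity
      have e1 : Phi r / 1.38 ^ s = 1.38 * Phi r / 1.38 ^ (s + 1) := by rw [pow_succ]; field_simp
      have e2 : 3 * KA L / 1.38 ^ s = 4.14 * KA L / 1.38 ^ (s + 1) := by
        rw [pow_succ]; field_simp; ring
      have e3 : 1.38 * Phi r / 1.38 ^ (s + 1) + 3 * KA L / 1.38 ^ (s + 1)
          ≤ Phi (q :: r) / 1.38 ^ (s + 1) + 4.14 * KA L / 1.38 ^ (s + 1) := by
        rw [← add_div, ← add_div]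
        exact div_le_div_of_nonneg_right (by linarith) hp.le
      linarith

/-- Chain values whose minimal levels leave much room. -/
noncomputable def roomy (L j : ℕ) : Finset ℕ := by
  classical exact (tailSet L).filter fun t ↦ (L:ℝ) / 2 ≤ Xof L j t

/-- Chain values with small linear form descend to roomy ones. -/
lemma ev_descend (j s : ℕ) (hjs : 56 * ((j:ℝ) + 1) ≤ 1.38 ^ s) :
    ∃ C, 1 ≤ C ∧ ∀ᶠ L : ℕ in atTop, ∀ T : Finset ℕ, T ⊆ tailSet L →
      (∀ t ∈ T, Phid 0 (tauC L t) ≤ 2 * (L:ℝ) / gG j) →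
      ∑ t ∈ T, (1:ℝ) / t ≤ C * (L:ℝ) ^ s * ∑ t ∈ roomy L j, (1:ℝ) / t := by
  obtain ⟨C, hC1, hC, -⟩ := exists_sum_pred_bounds
  refine ⟨((s:ℝ) + 1) * (2 * C) ^ s, one_le_mul_of_one_le_of_one_le
    (by linarith [Nat.cast_nonneg (α := ℝ) s]) (one_le_pow₀ (by linarith)), ?_⟩
  filter_upwards [ev_close j, ev_cval_le_tailBound, ev_dd_KA_le,
    ev_mul_rpow_le (a := 4/5) (b := 1) (by norm_num) (4 * (7 * ((j:ℝ) + 1) * gG j) * 3),
    eventually_ge_atTop 3] with L hclose htb hsmall hKK hL T hT hTsmall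
  classical
  rw [Real.rpow_one] at hKK
  change 4 * (7 * ((j:ℝ) + 1) * gG j) * 3 * KK L ≤ L at hKK
  have hG := one_le_gG j
  have hgj : 0 ≤ 7 * ((j:ℝ) + 1) * gG j := by positivity
  have hdd : 0 ≤ dd L := Real.rpow_nonneg (Nat.cast_nonneg _) _
  set P := primesSc (L + 3) with hP
  set All := (Finset.range (s + 1)).sigma fun i ↦ plists P i ×ˢ roomy L j with hAll
  have hsub : T ⊆ All.image fun x ↦ prodPred x.2.1 * x.2.2 := by
    intro t ht
    obtain ⟨-, htail⟩ := mem_tailSet.mp (hT ht)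
    obtain ⟨hc, hsq, hval⟩ := canon_spec htail
    set qs := (canon L t).1 with hqs
    set w := (canon L t).2 with hw
    set i := min s qs.length with hi
    set t' := cval (qs.drop i) w with ht'
    have hsplit : prodPred (qs.take i) * t' = t := by
      rw [ht', cval, ← mul_assoc, ← prodPred_append, List.take_append_drop]
      exact hval
    have htail' : IsTail L t' :=
      ⟨qs.drop i, w, hc.drop i, hsq.of_dvd (hsplit ▸ dvd_mul_left _ _), rfl⟩
    have hdrop : Phi (qs.drop i) ≤ 2 * (L:ℝ) / gG j / 1.38 ^ s + 3 * KA L := by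
      have he : qs.drop i = qs.drop s := by
        rcases Nat.le_total s qs.length with h | h
        · rw [hi, min_eq_left h]
        · rw [hi, min_eq_right h, List.drop_eq_nil_iff.mpr le_rfl, List.drop_eq_nil_iff.mpr h]
      have hKA : 0 ≤ 3 * KA L / 1.38 ^ s :=
        div_nonneg (mul_nonneg (by norm_num) (Real.rpow_nonneg (Nat.cast_nonneg _) _))
          (by positivity)
      have hp : Phi qs / 1.38 ^ s ≤ 2 * (L:ℝ) / gG j / 1.38 ^ s := by
        gcongr
        exact hTsmall t ht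
      rw [he]
      linarith [hc.drop_Phi_le s]
    obtain ⟨hcc, -, hcv⟩ := canon_spec htail'
    have hclose' := (abs_le.mp ((hclose (qs.drop i) (canon L t').1 w (canon L t').2 (hc.drop i)
      hcc hcv.symm).1 0 (Nat.zero_le _))).1
    have hroom : (L:ℝ) / 2 ≤ Xof L j t' := by
      have h := total_le (j := j) (k := j) le_rfl (tauC_nonneg L t')
      have hb : Phid 0 (tauC L t') ≤ 2 * (L:ℝ) / gG j / 1.38 ^ s + 3 * KK L := by
        have : Phid 0 (scs (qs.drop i)) = Phi (qs.drop i) := rfl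
        have : Phid 0 (tauC L t') = Phid 0 (scs (canon L t').1) := rfl
        linarith
      have e1 : 7 * ((j:ℝ) + 1) * gG j * (2 * (L:ℝ) / gG j / 1.38 ^ s) ≤ (L:ℝ) / 4 := by
        rw [div_div, mul_div_assoc', div_le_iff₀ (by positivity)]
        have hm := mul_le_mul_of_nonneg_left hjs (by positivity : 0 ≤ (L:ℝ) / 4 * gG j)
        linarith
      have e2 := mul_le_mul_of_nonneg_left hb hgj
      unfold Xof
      linarith
    refine Finset.mem_image.mpr ⟨⟨i, qs.take i, t'⟩, Finset.mem_sigma.mpr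
      ⟨Finset.mem_range.mpr (show i < s + 1 by omega), Finset.mem_product.mpr
        ⟨mem_plists.mpr ⟨show (qs.take i).length = i by rw [List.length_take]; omega,
          fun p hp ↦ ?_⟩, ?_⟩⟩, hsplit⟩
    · have hpq : p ∈ qs := List.mem_of_mem_take hp
      exact mem_primesSc.mpr ⟨(hc.normal p hpq).prime, (hc.scale p hpq).2⟩
    · exact Finset.mem_filter.mpr ⟨mem_tailSet.mpr ⟨htb _ w (hc.drop i), htail'⟩, hroom⟩
  have hsum : ∑ p ∈ P, 1 / ((p - 1 : ℕ) : ℝ) ≤ 2 * C * L := by
    refine (hC (L + 3) (by omega)).trans ?_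
    have hL3 : (3:ℝ) ≤ L := by exact_mod_cast hL
    have := mul_le_mul_of_nonneg_left hL3 (by linarith : 0 ≤ C)
    push_cast
    linarith
  have hS0 : 0 ≤ ∑ t ∈ roomy L j, (1:ℝ) / t := Finset.sum_nonneg fun t _ ↦ by positivity
  have hCL : 1 ≤ 2 * C * (L:ℝ) :=
    one_le_mul_of_one_le_of_one_le (by linarith) (by exact_mod_cast (by omega : 1 ≤ L))
  calc ∑ t ∈ T, (1:ℝ) / t
      ≤ ∑ t ∈ All.image (fun x ↦ prodPred x.2.1 * x.2.2), (1:ℝ) / t :=
        Finset.sum_le_sum_of_subset_of_nonneg hsub fun t _ _ ↦ by positivity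
    _ ≤ ∑ x ∈ All, (1:ℝ) / ((prodPred x.2.1 * x.2.2 : ℕ) : ℝ) :=
        Finset.sum_image_le_of_nonneg fun x _ ↦ by positivity
    _ = ∑ i ∈ Finset.range (s + 1),
          (∑ p ∈ P, 1 / ((p - 1 : ℕ) : ℝ)) ^ i * ∑ t ∈ roomy L j, (1:ℝ) / t := by
        rw [hAll, Finset.sum_sigma]
        refine Finset.sum_congr rfl fun i _ ↦ ?_
        rw [← sum_plists, Finset.sum_mul_sum, Finset.sum_product]
        refine Finset.sum_congr rfl fun us _ ↦ Finset.sum_congr rfl fun t _ ↦ ?_
        rw [Nat.cast_mul, one_div_mul_one_div]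
    _ ≤ ∑ _i ∈ Finset.range (s + 1), (2 * C * (L:ℝ)) ^ s * ∑ t ∈ roomy L j, (1:ℝ) / t := by
        refine Finset.sum_le_sum fun i hi ↦ mul_le_mul_of_nonneg_right ?_ hS0
        exact (pow_le_pow_left₀ (Finset.sum_nonneg fun p _ ↦ by positivity) hsum i).trans
          (pow_le_pow_right₀ hCL (by have := Finset.mem_range.mp hi; omega))
    _ = _ := by
        rw [Finset.sum_const, Finset.card_range, nsmul_eq_mul, mul_pow (2 * C) (L:ℝ) s]
        push_cast
        ring

/-- The asymptotic inequalities needed for the band. -/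
lemma ev_band_margins (j : ℕ) (A : ℝ) : ∀ᶠ L : ℕ in atTop,
    A * KK L ≤ (L:ℝ) ^ (9/10 : ℝ) ∧ (L:ℝ) ^ (9/10 : ℝ) ≤ (L:ℝ) / 2 ∧ 1 ≤ KK L ∧ A * KK L ≤ L ∧
      ∀ k ≤ j, 7 * ((j:ℝ) + 1) * dd L * gG k ≤ (L:ℝ) / 2 := by
  filter_upwards [ev_mul_rpow_le (a := 4/5) (b := 9/10) (by norm_num) A,
    ev_mul_rpow_le (a := 9/10) (b := 1) (by norm_num) 2,
    ev_mul_rpow_le (a := 4/5) (b := 1) (by norm_num) A,
    ev_const_le_rpow (b := 4/5) (by norm_num) 1,
    (Finset.range (j + 1)).eventually_all.mpr fun k _ ↦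
      ev_mul_rpow_le (a := 3/4) (b := 1) (by norm_num) (2 * (7 * ((j:ℝ) + 1) * gG k))]
    with L h1 h2 h3 h4 h5
  rw [Real.rpow_one] at h2 h3
  refine ⟨h1, by linarith, h4, h3, fun k hk ↦ ?_⟩
  have h := h5 k (Finset.mem_range.mpr (by omega))
  rw [Real.rpow_one] at h
  unfold dd
  linarith

lemma bandTopSum_nonneg (L k t : ℕ) : 0 ≤ bandTopSum L k t :=
  Finset.sum_nonneg fun us _ ↦ by positivity

/-- The top sums at one length are negligible. -/
lemma ev_layer_small (hbox : ∀ j, BoxBound j) {j s k : ℕ} (hs : 10 * (s + 2) + 1 ≤ j)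
    (hjs : 56 * ((j:ℝ) + 1) ≤ 1.38 ^ s) (hk1 : 1 ≤ k) (hkj : k ≤ j) {ε : ℝ} (hε : 0 < ε) :
    ∀ᶠ L : ℕ in atTop,
      ∑ t ∈ tailAt L j k, bandTopSum L k t / (t:ℝ) ≤ ε * ∑ m ∈ minSet L, (1:ℝ) / m := by
  obtain ⟨A, hA1, hA⟩ := exists_topSum_le j
  obtain ⟨Cd, hCd1, hCd⟩ := ev_descend j s hjs
  obtain ⟨Ck, hCk1, hCk⟩ := hbox j k hk1 hkj
  obtain ⟨Cj, hCj1, hCj⟩ := hbox j j (by omega) le_rfl
  set D1 := A * (2 * A) ^ (k - 1) * Ck with hD1
  set D2 := A * (2 * A) ^ (j - 1) * Cd * (2 ^ j * Cj) with hD2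
  filter_upwards [hA, hCd, hCk, hCj, ev_band_margins j A,
    ev_mul_rpow_le (a := 4/5) (b := 9/10) (by norm_num) (2 * D1 / ε),
    ev_const_le_rpow (b := 1) (by norm_num) (2 * D2 / ε), eventually_ge_atTop 1]
    with L hA hCd hCk hCj hmarg hD1' hD2' hL
  classical
  rw [Real.rpow_one] at hD2'
  obtain ⟨hm1, hm2, hKK1, hm4, hm5⟩ := hmarg
  have hL1 : (1:ℝ) ≤ L := by exact_mod_cast hL
  set M := (L:ℝ) ^ (9/10 : ℝ) with hM
  have hKKM : KK L ≤ M := le_trans (le_mul_of_one_le_left (by linarith) hA1) hm1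
  have hM0 : 0 < M := by linarith
  set S := ∑ m ∈ minSet L, (1:ℝ) / m with hS
  have hS0 : 0 ≤ S := Finset.sum_nonneg fun m _ ↦ by positivity
  set G := (tailAt L j k).filter fun t ↦ M ≤ Xof L k t with hG
  set B := (tailAt L j k).filter fun t ↦ ¬ M ≤ Xof L k t with hB
  have hgood : ∑ t ∈ G, bandTopSum L k t / (t:ℝ) ≤ ε / 2 * S := by
    have h1 : ∀ t ∈ G, bandTopSum L k t / (t:ℝ)
        ≤ A * (2 * A) ^ (k - 1) * KK L / M * (Xof L k t ^ k / (t:ℝ)) := by
      intro t ht
      have hX : M ≤ Xof L k t := (Finset.mem_filter.mp ht).2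
      rw [mul_div_assoc' _ (Xof L k t ^ k) (t:ℝ)]
      gcongr
      refine ((hA k hk1 hkj t).2).trans ?_
      rw [max_eq_left (by linarith : 0 ≤ Xof L k t)]
      have hb : A * (Xof L k t + KK L) ≤ 2 * A * Xof L k t := by
        have := mul_le_mul_of_nonneg_left (le_trans hKKM hX) (by linarith : 0 ≤ A)
        linarith
      calc A * KK L * (A * (Xof L k t + KK L)) ^ (k - 1)
          ≤ A * KK L * (2 * A * Xof L k t) ^ (k - 1) :=
            mul_le_mul_of_nonneg_left (pow_le_pow_left₀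
              (mul_nonneg (by linarith) (by linarith)) hb _) (mul_nonneg (by linarith) (by linarith))
        _ = A * (2 * A) ^ (k - 1) * KK L / M * (M * Xof L k t ^ (k - 1)) := by
            rw [mul_pow (2 * A)]; field_simp
        _ ≤ A * (2 * A) ^ (k - 1) * KK L / M * Xof L k t ^ k := by
            refine mul_le_mul_of_nonneg_left ?_ (div_nonneg (mul_nonneg
              (mul_nonneg (by linarith) (pow_nonneg (by linarith) _)) (by linarith)) hM0.le)
            exact (mul_le_mul_of_nonneg_right hX (pow_nonneg (by linarith) _)).trans_eq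
              (mul_pow_sub_one (by omega) _)
    refine (Finset.sum_le_sum h1).trans ?_
    rw [← Finset.mul_sum]
    have h2 := hCk G (fun t ht ↦ (mem_tailAt.mp (Finset.mem_filter.mp ht).1).1)
      (fun t ht ↦ (Finset.mem_filter.mp ht).2)
    have hnn : 0 ≤ A * (2 * A) ^ (k - 1) * KK L / M :=
      div_nonneg (mul_nonneg (mul_nonneg (by linarith) (pow_nonneg (by linarith) _))
        (by linarith)) hM0.le
    refine (mul_le_mul_of_nonneg_left h2 hnn).trans ?_
    calc A * (2 * A) ^ (k - 1) * KK L / M * (Ck * S) = D1 * KK L / M * S := by rw [hD1]; ring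
      _ ≤ ε / 2 * S := by
          refine mul_le_mul_of_nonneg_right ?_ hS0
          change 2 * D1 / ε * KK L ≤ M at hD1'
          rw [div_mul_eq_mul_div, div_le_iff₀ hε] at hD1'
          rw [div_le_iff₀ hM0]
          linarith
  have hbad : ∑ t ∈ B, bandTopSum L k t / (t:ℝ) ≤ ε / 2 * S := by
    rcases Nat.lt_or_ge k j with hlt | hge
    · have hBe : B = ∅ := by
        refine Finset.eq_empty_of_forall_notMem fun t ht ↦ ?_
        obtain ⟨ht1, ht2⟩ := Finset.mem_filter.mp ht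
        have hP := (mem_tailAt.mp ht1).2 hlt
        have htot := total_le hkj (tauC_nonneg L t)
        have h1 : 7 * ((j:ℝ) + 1) * Phid 0 (tauC L t) * gG k
            ≤ 7 * ((j:ℝ) + 1) * dd L * gG k :=
          mul_le_mul_of_nonneg_right (mul_le_mul_of_nonneg_left hP (by positivity))
            (le_trans zero_le_one (one_le_gG k))
        refine ht2 ?_
        unfold Xof
        linarith [hm5 k hkj]
      rw [hBe, Finset.sum_empty]
      positivity
    · obtain rfl : k = j := le_antisymm hkj hge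
      set c := A * KK L * (2 * A * M) ^ (k - 1) with hc
      have hc0 : 0 ≤ c := mul_nonneg (mul_nonneg (by linarith) (by linarith))
        (pow_nonneg (mul_nonneg (by linarith) hM0.le) _)
      set B' := B.filter fun t ↦ bandTopSum L k t ≠ 0 with hB'
      have h1 : ∑ t ∈ B, bandTopSum L k t / (t:ℝ) ≤ c * ∑ t ∈ B', (1:ℝ) / t := by
        rw [← Finset.sum_filter_of_ne (p := fun t ↦ bandTopSum L k t ≠ 0)
          (fun t _ hne h0 ↦ hne (by rw [h0, zero_div])), ← hB', Finset.mul_sum]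
        refine Finset.sum_le_sum fun t ht ↦ ?_
        obtain ⟨htB, -⟩ := Finset.mem_filter.mp ht
        have hX : Xof L k t < M := not_le.mp (Finset.mem_filter.mp htB).2
        rw [mul_one_div]
        gcongr
        refine ((hA k hk1 le_rfl t).2).trans (mul_le_mul_of_nonneg_left (pow_le_pow_left₀
          (mul_nonneg (by linarith) (add_nonneg (le_max_right _ _) (by linarith))) ?_ _)
          (mul_nonneg (by linarith) (by linarith)))
        have hmax : max (Xof L k t) 0 ≤ M := max_le hX.le hM0.le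
        calc A * (max (Xof L k t) 0 + KK L) ≤ A * (M + M) := by gcongr
          _ = _ := by ring
      have h2 := hCd B' (fun t ht ↦
          (mem_tailAt.mp (Finset.mem_filter.mp (Finset.mem_filter.mp ht).1).1).1) fun t ht ↦ by
        have hlow := (hA k hk1 le_rfl t).1 (Finset.mem_filter.mp ht).2
        have htot := total_ge (tauC_nonneg L t) k
        rw [le_div_iff₀ (lt_of_lt_of_le one_pos (one_le_gG k))]
        unfold Xof at hlow
        linarith
      have h3 : ((L:ℝ) / 2) ^ k * ∑ t ∈ roomy L k, (1:ℝ) / t ≤ Cj * S := by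
        have hroom : ∀ t ∈ roomy L k, (L:ℝ) / 2 ≤ Xof L k t := fun t ht ↦
          (Finset.mem_filter.mp ht).2
        refine le_trans ?_ (hCj (roomy L k) (fun t ht ↦ (Finset.mem_filter.mp ht).1)
          fun t ht ↦ le_trans hm2 (hroom t ht))
        rw [Finset.mul_sum]
        refine Finset.sum_le_sum fun t ht ↦ ?_
        rw [mul_one_div]
        gcongr
        exact hroom t ht
      have hpow : KK L * M ^ (k - 1) * (L:ℝ) ^ s * L ≤ (L:ℝ) ^ k := by
        have hL0 : (0:ℝ) < L := by linarith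
        unfold KK
        rw [hM, ← Real.rpow_natCast ((L:ℝ) ^ (9/10:ℝ)), ← Real.rpow_mul hL0.le,
          ← Real.rpow_natCast (L:ℝ) s, ← Real.rpow_natCast (L:ℝ) k, ← Real.rpow_add hL0,
          ← Real.rpow_add hL0, ← Real.rpow_add_one hL0.ne']
        refine Real.rpow_le_rpow_of_exponent_le hL1 ?_
        have h10 : 10 * ((s:ℝ) + 2) + 1 ≤ k := by exact_mod_cast hs
        rw [Nat.cast_sub hk1]
        push_cast
        linarith
      refine h1.trans ((mul_le_mul_of_nonneg_left h2 hc0).trans ?_)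
      set R := ∑ t ∈ roomy L k, (1:ℝ) / t with hR
      have hR0 : 0 ≤ R := Finset.sum_nonneg fun t _ ↦ by positivity
      set K := A * (2 * A) ^ (k - 1) * Cd with hK
      have hK0 : 0 ≤ K := by positivity
      have hLk : (0:ℝ) < (L:ℝ) ^ k := by positivity
      have hexp : c * (Cd * (L:ℝ) ^ s * R) = K * (KK L * M ^ (k - 1) * (L:ℝ) ^ s) * R := by
        rw [hc, hK, mul_pow (2 * A)]; ring
      have h4 : (L:ℝ) ^ k * R ≤ 2 ^ k * (Cj * S) := by
        have h := mul_le_mul_of_nonneg_left h3 (show (0:ℝ) ≤ 2 ^ k by positivity)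
        rw [← mul_assoc, div_pow, mul_div_cancel₀ _ (by positivity : (2:ℝ) ^ k ≠ 0)] at h
        exact h
      rw [hexp]
      refine le_of_mul_le_mul_left ?_ (show (0:ℝ) < L by linarith)
      calc (L:ℝ) * (K * (KK L * M ^ (k - 1) * (L:ℝ) ^ s) * R)
          = K * ((KK L * M ^ (k - 1) * (L:ℝ) ^ s * L) * R) := by ring
        _ ≤ K * ((L:ℝ) ^ k * R) :=
            mul_le_mul_of_nonneg_left (mul_le_mul_of_nonneg_right hpow hR0) hK0
        _ ≤ K * (2 ^ k * (Cj * S)) := mul_le_mul_of_nonneg_left h4 hK0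
        _ = D2 * S := by rw [hD2, hK]; ring
        _ ≤ (L:ℝ) * (ε / 2) * S := by
            refine mul_le_mul_of_nonneg_right ?_ hS0
            rw [div_le_iff₀ hε] at hD2'
            linarith
        _ = _ := by ring
  rw [← Finset.sum_filter_add_sum_filter_not (tailAt L j k) (fun t ↦ M ≤ Xof L k t), ← hG, ← hB]
  linarith

/-- The band estimate follows from the box bound. -/
theorem bandNegligible_of (hbox : ∀ j, BoxBound j) : BandNegligible := by
  intro ε hε
  obtain ⟨j, s, hs, hjs⟩ : ∃ j s : ℕ, 10 * (s + 2) + 1 ≤ j ∧ 56 * ((j:ℝ) + 1) ≤ 1.38 ^ s :=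
    ⟨500, 40, by norm_num, by norm_num⟩
  have hj : 1 ≤ j := by omega
  have hj0 : (0:ℝ) < j := by exact_mod_cast hj
  filter_upwards [ev_band_le j hj, (Finset.Icc 1 j).eventually_all.mpr fun k hk ↦
    ev_layer_small hbox hs hjs (Finset.mem_Icc.mp hk).1 (Finset.mem_Icc.mp hk).2
      (div_pos hε hj0)] with L h1 h2
  refine h1.trans ((Finset.sum_le_sum h2).trans (le_of_eq ?_))
  rw [Finset.sum_const, Nat.card_Icc, Nat.add_sub_cancel, nsmul_eq_mul, ← mul_assoc,
    mul_div_cancel₀ _ hj0.ne']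

end Vale.Agent.P031
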