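import Mathlib
import Vale.Agent.P031.BandDefs

/-!
The statement of the splitting of the boundary layer by tail values.
-/

namespace Vale.Agent.P031

open Finset Real Filter Topology

/-- The boundary layer, split by the number of top levels and the tail value below them. -/
def BandSplit (j : ℕ) : Prop :=
  ∃ C : ℝ, 1 ≤ C ∧ ∀ᶠ L : ℕ in atTop, ∃ T : ℕ → Finset ℕ,
    (∀ k, T k ⊆ tailSet L) ∧
    (∀ k ∈ Finset.Icc 1 j, ∀ t ∈ T k,
      -(C * KK L) ≤ Xof L k t ∧ (k < j → Phid 0 (tauC L t) ≤ dd L)) ∧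
    ∑ m ∈ bandSet L, (1:ℝ) / m ≤ ∑ k ∈ Finset.Icc 1 j, ∑ t ∈ T k,
      C * KK L * (max (Xof L k t) 0 + C * KK L) ^ (k - 1) / (t:ℝ)

end Vale.Agent.P031
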