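import Mathlib
import Vale.Agent.P031.DecompAux

/-!
Tools for counting totients with two representations: refinement of equal products, nested sums,
and the sieve sums over one distinguished prime.
-/

namespace Vale.Agent.P031

open Finset Real Filter Topology

lemma exists_split_dvd : ∀ (n : ℕ) (B : Fin n → ℕ) (x : ℕ), (∀ j, 0 < B j) → x ∣ ∏ j, B j →
    ∃ e : Fin n → ℕ, (∏ j, e j) = x ∧ ∀ j, e j ∣ B j := by
  intro n
  induction n with
  | zero =>
    intro B x _ hx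
    rw [Fin.prod_univ_zero, Nat.dvd_one] at hx
    exact ⟨fun j ↦ 1, by simp [hx], fun j ↦ j.elim0⟩
  | succ n ih =>
    intro B x hB hx
    rw [Fin.prod_univ_succ] at hx
    obtain ⟨y, z, hy, hz, rfl⟩ := Nat.dvd_mul.mp hx
    obtain ⟨e, he, hed⟩ := ih (fun j ↦ B j.succ) z (fun j ↦ hB _) hz
    refine ⟨Fin.cons y e, ?_, fun j ↦ ?_⟩
    · rw [Fin.prod_univ_succ]; simp [he]
    · refine Fin.cases ?_ (fun i ↦ ?_) j
      · simpa using hy
      · simpa using hed i

/-- Two factorisations of the same positive integer have a common refinement. -/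
lemma exists_refinement : ∀ (m n : ℕ) (A : Fin m → ℕ) (B : Fin n → ℕ),
    (∀ i, 0 < A i) → (∀ j, 0 < B j) → (∏ i, A i) = ∏ j, B j →
    ∃ d : Fin m → Fin n → ℕ, (∀ i, ∏ j, d i j = A i) ∧ ∀ j, ∏ i, d i j = B j := by
  intro m
  induction m with
  | zero =>
    intro n A B _ hB hAB
    refine ⟨fun i ↦ i.elim0, fun i ↦ i.elim0, fun j ↦ ?_⟩
    rw [Fin.prod_univ_zero] at hAB ⊢
    have : B j ∣ 1 := hAB ▸ Finset.dvd_prod_of_mem B (Finset.mem_univ j)
    exact (Nat.dvd_one.mp this).symm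
  | succ m ih =>
    intro n A B hA hB hAB
    rw [Fin.prod_univ_succ] at hAB
    obtain ⟨e, he, hed⟩ := exists_split_dvd n B (A 0) hB (hAB ▸ dvd_mul_right _ _)
    choose B' hB' using hed
    have hepos : ∀ j, 0 < e j := fun j ↦ Nat.pos_of_ne_zero fun h ↦ by
      have := hB' j
      rw [h, zero_mul] at this
      exact (hB j).ne' this
    have hB'pos : ∀ j, 0 < B' j := fun j ↦ Nat.pos_of_ne_zero fun h ↦ by
      have := hB' j
      rw [h, mul_zero] at this
      exact (hB j).ne' this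
    have heq : (∏ i : Fin m, A i.succ) = ∏ j, B' j := by
      rw [Finset.prod_congr rfl (fun j _ ↦ hB' j), Finset.prod_mul_distrib, he] at hAB
      exact Nat.eq_of_mul_eq_mul_left (hA 0) hAB
    obtain ⟨d, hd1, hd2⟩ := ih n (fun i ↦ A i.succ) B' (fun i ↦ hA _) hB'pos heq
    refine ⟨Fin.cons e d, fun i ↦ ?_, fun j ↦ ?_⟩
    · refine Fin.cases ?_ (fun k ↦ ?_) i
      · simpa using he
      · simpa using hd1 k
    · rw [Fin.prod_univ_succ]
      simp [hd2 j, hB' j]

/-- Nested sums: integrate out the last coordinate first. -/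
lemma nested_sum_le : ∀ (M : ℕ) (U : Fin M → Finset ℕ) (g : Fin M → (Fin M → ℕ) → ℝ)
    (B : Fin M → ℝ),
    (∀ c R, 0 ≤ g c R) →
    (∀ c R R', (∀ c', c' ≤ c → R c' = R' c') → g c R = g c R') →
    (∀ c R, ∑ x ∈ U c, g c (Function.update R c x) ≤ B c) →
    ∑ R ∈ Fintype.piFinset U, ∏ c, g c R ≤ ∏ c, B c := by
  intro M
  induction M with
  | zero => intro U g B _ _ _; simp
  | succ M ih =>
    intro U g B hg hdep hB
    set g' : Fin M → (Fin M → ℕ) → ℝ := fun c f ↦ g c.castSucc (Fin.snoc f 0) with hg'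
    set U' : Fin M → Finset ℕ := fun c ↦ U c.castSucc with hU'
    have hsplit : ∑ R ∈ Fintype.piFinset U, ∏ c, g c R
        = ∑ f ∈ Fintype.piFinset U', ∑ x ∈ U (Fin.last M), ∏ c, g c (Fin.snoc f x) := by
      rw [← Finset.sum_product']
      refine Finset.sum_nbij' (fun R ↦ (fun c ↦ R c.castSucc, R (Fin.last M)))
        (fun p ↦ Fin.snoc p.1 p.2) ?_ ?_ ?_ ?_ ?_
      · intro R hR
        rw [Fintype.mem_piFinset] at hR
        simp [hU', Fintype.mem_piFinset, hR]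
      · intro p hp
        simp [hU', Fintype.mem_piFinset] at hp
        rw [Fintype.mem_piFinset]
        intro c
        refine Fin.lastCases ?_ (fun i ↦ ?_) c
        · simpa using hp.2
        · simpa using hp.1 i
      · intro R _
        funext c
        refine Fin.lastCases ?_ (fun i ↦ ?_) c <;> simp
      · intro p _
        simp
      · intro R _
        refine Finset.prod_congr rfl fun c _ ↦ ?_
        congr 1
        funext d
        refine Fin.lastCases ?_ (fun i ↦ ?_) d <;> simp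
    have hlast : ∀ f : Fin M → ℕ,
        ∑ x ∈ U (Fin.last M), ∏ c, g c (Fin.snoc f x) ≤ (∏ c, g' c f) * B (Fin.last M) := by
      intro f
      have hc : ∀ (c : Fin M) (x : ℕ), g c.castSucc (Fin.snoc f x) = g' c f := by
        intro c x
        refine hdep _ _ _ fun c' hc' ↦ ?_
        have hlt : (c':ℕ) < M := lt_of_le_of_lt (Fin.le_def.mp hc') (by simp)
        rw [show c' = Fin.castSucc ⟨c', hlt⟩ from rfl, Fin.snoc_castSucc, Fin.snoc_castSucc]
      calc ∑ x ∈ U (Fin.last M), ∏ c, g c (Fin.snoc f x)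
          = ∑ x ∈ U (Fin.last M),
              (∏ c, g' c f) * g (Fin.last M) (Fin.snoc f x) := by
            refine Finset.sum_congr rfl fun x _ ↦ ?_
            rw [Fin.prod_univ_castSucc]
            simp [hc]
        _ ≤ _ := by
            rw [← Finset.mul_sum]
            refine mul_le_mul_of_nonneg_left ?_ (Finset.prod_nonneg fun c _ ↦ hg _ _)
            refine le_trans (le_of_eq (Finset.sum_congr rfl fun x _ ↦ ?_))
              (hB (Fin.last M) (Fin.snoc f 0))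
            rw [Fin.update_snoc_last]
    have hB0 : 0 ≤ B (Fin.last M) :=
      le_trans (Finset.sum_nonneg fun x _ ↦ hg _ _) (hB _ (fun _ ↦ 0))
    rw [hsplit, Fin.prod_univ_castSucc]
    refine (Finset.sum_le_sum fun f _ ↦ hlast f).trans ?_
    rw [← Finset.sum_mul]
    refine mul_le_mul_of_nonneg_right
      (ih U' g' (fun c ↦ B c.castSucc) (fun c f ↦ hg _ _) ?_ ?_) hB0
    · intro c f f' h
      refine hdep _ _ _ fun c' hc' ↦ ?_
      have hlt : (c':ℕ) < M := lt_of_le_of_lt (Fin.le_def.mp hc') (by simp)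
      rw [show c' = Fin.castSucc ⟨c', hlt⟩ from rfl, Fin.snoc_castSucc, Fin.snoc_castSucc]
      exact h _ hc'
    · intro c f
      refine le_trans (le_of_eq (Finset.sum_congr rfl fun x _ ↦ ?_))
        (hB c.castSucc (Fin.snoc f 0))
      simp [hg', Fin.snoc_update]

/-- Counting bound for a prime with up to two linked forms. -/
lemma exists_linked_count :
    ∃ C, 1 ≤ C ∧ ∀ (L Y : ℕ) (A U : Finset ℕ) (θ : ℝ) (m : ℕ), 1 ≤ L → sc Y ≤ L + 4 →
      A.card = m → m ≤ 2 → (∀ a ∈ A, 1 ≤ a ∧ Real.log a ≤ Real.exp ((L:ℝ) + 4)) → 0 < θ →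
      (∀ R ∈ U, R.Prime ∧ R ≤ Y ∧ θ ≤ Real.log R ∧ ∀ a ∈ A, (a * R + 1).Prime) →
      (U.card : ℝ) ≤ (Y:ℝ) * (C * (L:ℝ) ^ 6 / θ) ^ (m + 1) := by
  obtain ⟨C, hC1, hC⟩ := exists_prime_forms_count
  refine ⟨C * 5 ^ 6, by linarith, fun L Y A U θ m hL hsc hA hm hAb hθ hU ↦ ?_⟩
  have hL' : (1:ℝ) ≤ L := by exact_mod_cast hL
  rcases U.eq_empty_or_nonempty with h | ⟨R, hR⟩
  · rw [h, Finset.card_empty, Nat.cast_zero]; positivity
  obtain ⟨hRp, hRY, hRθ, -⟩ := hU R hR
  have hY2 : 2 ≤ Y := hRp.two_le.trans hRY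
  have hY2' : (2:ℝ) ≤ Y := by exact_mod_cast hY2
  have hlY : 0 < Real.log Y := Real.log_pos (by linarith)
  have hθY : θ ≤ Real.log Y := hRθ.trans
    (Real.log_le_log (by exact_mod_cast hRp.pos) (by exact_mod_cast hRY))
  have hloglog : Real.log (Real.log Y) ≤ (L:ℝ) + 4 := by
    rw [Real.log_le_iff_le_exp hlY]
    exact (log_le_exp_sc Y).trans (Real.exp_le_exp.mpr (by exact_mod_cast hsc))
  have hb := hC ((L:ℝ) + 4) Y A (by linarith) hY2 hloglog (hA ▸ hm) hAb
  rw [hA] at hb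
  calc (U.card : ℝ) ≤ (((Icc 1 Y).filter fun R ↦ R.Prime
        ∧ ∀ a ∈ A, (a * R + 1).Prime).card : ℝ) := by
        refine Nat.cast_le.mpr (Finset.card_le_card fun x hx ↦ ?_)
        obtain ⟨h1, h2, -, h3⟩ := hU x hx
        exact Finset.mem_filter.mpr ⟨Finset.mem_Icc.mpr ⟨h1.one_le, h2⟩, h1, h3⟩
    _ ≤ (Y:ℝ) * (C * ((L:ℝ) + 4) ^ 6 / Real.log Y) ^ (m + 1) := hb
    _ ≤ (Y:ℝ) * (C * (5 * (L:ℝ)) ^ 6 / θ) ^ (m + 1) := by
        refine mul_le_mul_of_nonneg_left (pow_le_pow_left₀ (by positivity) ?_ _) (Nat.cast_nonneg _)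
        refine div_le_div₀ (by positivity) ?_ hθ hθY
        gcongr
        linarith
    _ = _ := by ring_nf

/-- Reciprocal sum bound for a prime with up to two linked forms. -/
lemma exists_linked_sum :
    ∃ C, 1 ≤ C ∧ ∀ (L : ℕ) (A U : Finset ℕ) (θ : ℝ) (m : ℕ), 1 ≤ L →
      A.card = m → m ≤ 2 → (∀ a ∈ A, 1 ≤ a ∧ Real.log a ≤ Real.exp ((L:ℝ) + 4)) → 0 < θ →
      (∀ R ∈ U, R.Prime ∧ sc R ≤ L + 3 ∧ θ ≤ Real.log R ∧ ∀ a ∈ A, (a * R + 1).Prime) →
      ∑ R ∈ U, (1:ℝ) / R ≤ C * (L:ℝ) ^ 19 / θ ^ m := by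
  obtain ⟨C, hC1, hC⟩ := exists_linked_count
  refine ⟨2 * C ^ 3 * 2 ^ 3 * 9, ?_, fun L A U θ m hL hA hm hAb hθ hU ↦ ?_⟩
  · have : 1 ≤ C ^ 3 := one_le_pow₀ hC1
    linarith
  have hL' : (1:ℝ) ≤ L := by exact_mod_cast hL
  have hl2 := Real.log_two_gt_d9
  have hl2' := Real.log_two_lt_d9
  set E := Real.exp ((L:ℝ) + 3) with hE
  set K := ⌈2 * E⌉₊ with hK
  have hle : ∀ R ∈ U, 2 ≤ R ∧ R ≤ 2 ^ (K + 1) := by
    intro R hR
    obtain ⟨hRp, hsc, -⟩ := hU R hR
    refine ⟨hRp.two_le, ?_⟩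
    have h1 : Real.log R ≤ E := (log_le_exp_sc R).trans
      (Real.exp_le_exp.mpr (by exact_mod_cast hsc))
    have h2 : Real.log R ≤ Real.log ((2:ℝ) ^ (K + 1)) := by
      rw [Real.log_pow]
      have h3 : 2 * E ≤ (K:ℝ) := Nat.le_ceil _
      have := mul_le_mul_of_nonneg_left hl2.le (Nat.cast_nonneg (α := ℝ) (K + 1))
      push_cast at this ⊢
      linarith
    have hR0 : (0:ℝ) < R := by exact_mod_cast hRp.pos
    have := (Real.log_le_log_iff hR0 (by positivity)).mp h2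
    exact_mod_cast this
  refine (sum_dyadic_le U (K + 1) _ (fun m _ ↦ by positivity) hle).trans ?_
  set X := C * (L:ℝ) ^ 6 with hX
  have hX1 : 1 ≤ X := one_le_mul_of_one_le_of_one_le hC1 (one_le_pow₀ hL')
  have hterm : ∀ i ∈ Finset.range (K + 1),
      ∑ R ∈ U.filter (fun n ↦ 2 ^ i < n ∧ n ≤ 2 ^ (i + 1)), (1:ℝ) / R
        ≤ 2 * (2 * X) ^ 3 / θ ^ m * (1 / ((i:ℝ) + 1)) := by
    intro i _
    set Si := U.filter fun n ↦ 2 ^ i < n ∧ n ≤ 2 ^ (i + 1) with hSi
    rcases Si.eq_empty_or_nonempty with he | ⟨R₀, hR₀⟩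
    · rw [he, Finset.sum_empty]; positivity
    set a := ((i:ℝ) + 1) * Real.log 2 with ha
    have ha0 : 0 < a := by positivity
    have hloga : Real.log ((2 ^ (i + 1) : ℕ) : ℝ) = a := by
      push_cast; rw [Real.log_pow]; push_cast; ring
    obtain ⟨hR₀U, hR₀1, hR₀2⟩ := Finset.mem_filter.mp hR₀
    obtain ⟨hR₀p, hR₀sc, hR₀θ, -⟩ := hU R₀ hR₀U
    have hθa : θ ≤ a := hR₀θ.trans
      (hloga ▸ Real.log_le_log (by exact_mod_cast hR₀p.pos) (by exact_mod_cast hR₀2))
    have hscY : sc (2 ^ (i + 1)) ≤ L + 4 := by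
      have hle' : 2 ^ (i + 1) ≤ 2 * R₀ := by rw [pow_succ]; omega
      exact (sc_mono hle').trans ((sc_two_mul_le hR₀p.two_le).trans (by omega))
    have hmax : max θ (a / 2) ≤ a := max_le hθa (by linarith)
    have hcnt := hC L (2 ^ (i + 1)) A Si (max θ (a / 2)) m hL hscY hA hm hAb
      (lt_max_of_lt_left hθ) fun R hR ↦ by
      obtain ⟨hRU, hlo, hhi⟩ := Finset.mem_filter.mp hR
      obtain ⟨h1, -, h3, h4⟩ := hU R hRU
      refine ⟨h1, hhi, max_le h3 ?_, h4⟩
      -- `R > 2 ^ i`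
      rcases Nat.eq_zero_or_pos i with hi | hi
      · have h2R : Real.log 2 ≤ Real.log R :=
          Real.log_le_log (by norm_num) (by exact_mod_cast h1.two_le)
        rw [ha, hi]
        push_cast
        linarith
      · have hlogR : (i:ℝ) * Real.log 2 ≤ Real.log R := by
          rw [← Real.log_pow]
          exact Real.log_le_log (by positivity) (by exact_mod_cast hlo.le)
        have hi' : (1:ℝ) ≤ i := by exact_mod_cast hi
        have := mul_le_mul_of_nonneg_right hi' (by linarith : 0 ≤ Real.log 2)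
        rw [ha]
        linarith
    have hpow : (X / max θ (a / 2)) ^ (m + 1) ≤ (2 * X) ^ 3 / θ ^ m * (1 / ((i:ℝ) + 1)) := by
      rw [pow_succ, div_pow]
      calc X ^ m / max θ (a / 2) ^ m * (X / max θ (a / 2))
          ≤ X ^ m / θ ^ m * (X / (a / 2)) := by
            gcongr
            · exact le_max_left _ _
            · exact le_max_right _ _
        _ = 2 * X ^ (m + 1) / θ ^ m * (1 / a) := by field_simp; ring
        _ ≤ (2 * X) ^ 3 / θ ^ m * (1 / ((i:ℝ) + 1)) := by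
            have h1 : X ^ (m + 1) ≤ X ^ 3 := pow_le_pow_right₀ hX1 (by omega)
            calc 2 * X ^ (m + 1) / θ ^ m * (1 / a)
                ≤ 2 * X ^ 3 / θ ^ m * (2 * (1 / ((i:ℝ) + 1))) := by
                  gcongr
                  rw [mul_one_div, div_le_div_iff₀ ha0 (by positivity), one_mul, ha]
                  calc ((i:ℝ) + 1) = 1 * ((i:ℝ) + 1) := (one_mul _).symm
                    _ ≤ (2 * Real.log 2) * ((i:ℝ) + 1) := by gcongr; linarith
                    _ = _ := by ring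
              _ ≤ _ := by
                  have : 4 * X ^ 3 ≤ (2 * X) ^ 3 := by
                    have := one_le_pow₀ (n := 3) hX1
                    rw [mul_pow]; linarith
                  calc 2 * X ^ 3 / θ ^ m * (2 * (1 / ((i:ℝ) + 1)))
                      = 4 * X ^ 3 / θ ^ m * (1 / ((i:ℝ) + 1)) := by ring
                    _ ≤ _ := by gcongr
    calc ∑ R ∈ Si, (1:ℝ) / R ≤ ∑ _R ∈ Si, (1:ℝ) / ((2:ℝ) ^ i) := by
          refine Finset.sum_le_sum fun R hR ↦ ?_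
          obtain ⟨-, h1, -⟩ := Finset.mem_filter.mp hR
          gcongr
          exact_mod_cast h1.le
      _ = (Si.card : ℝ) / (2:ℝ) ^ i := by rw [Finset.sum_const, nsmul_eq_mul]; ring
      _ ≤ ((2 ^ (i + 1) : ℕ) : ℝ) * (X / max θ (a / 2)) ^ (m + 1) / (2:ℝ) ^ i := by gcongr
      _ = 2 * (X / max θ (a / 2)) ^ (m + 1) := by push_cast; field_simp; ring
      _ ≤ 2 * ((2 * X) ^ 3 / θ ^ m * (1 / ((i:ℝ) + 1))) := by gcongr
      _ = _ := by ring
  refine (Finset.sum_le_sum hterm).trans ?_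
  rw [← Finset.mul_sum]
  have hlogK : 1 + Real.log ((K + 1 : ℕ) : ℝ) ≤ 9 * (L:ℝ) := by
    have h1 : (K:ℝ) < 2 * E + 1 := Nat.ceil_lt_add_one (by positivity)
    have hE1 : 1 ≤ E := Real.one_le_exp (by linarith)
    have h2 : ((K + 1 : ℕ) : ℝ) ≤ 4 * E := by push_cast; linarith
    have h3 := Real.log_le_log (by positivity) h2
    rw [Real.log_mul (by norm_num) (by positivity), hE, Real.log_exp,
      show (4:ℝ) = 2 ^ 2 by norm_num, Real.log_pow] at h3
    push_cast at h3 ⊢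
    linarith
  have hsum : ∑ i ∈ Finset.range (K + 1), (1:ℝ) / ((i:ℝ) + 1) ≤ 9 * (L:ℝ) :=
    le_trans (sum_inv_succ_le_aux (K + 1) (by omega)) hlogK
  calc 2 * (2 * X) ^ 3 / θ ^ m * ∑ i ∈ Finset.range (K + 1), (1:ℝ) / ((i:ℝ) + 1)
      ≤ 2 * (2 * X) ^ 3 / θ ^ m * (9 * (L:ℝ)) := by gcongr
    _ = _ := by rw [hX]; ring
where
  sum_inv_succ_le_aux (n : ℕ) (hn : 1 ≤ n) :
      ∑ i ∈ Finset.range n, (1:ℝ) / ((i:ℝ) + 1) ≤ 1 + Real.log n := by
    have h : (harmonic n : ℝ) = ∑ i ∈ Finset.range n, (1:ℝ) / ((i:ℝ) + 1) := by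
      simp [harmonic, one_div]
    rw [← h]
    exact harmonic_le_one_add_log n

end Vale.Agent.P031
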