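import Mathlib
import Vale.Agent.P031.CollisionTools

/-!
The core count behind the collision lemma: factor matrices with distinguished primes, for a fixed
shape (positions of the distinguished primes and the top prime of each form).
-/

namespace Vale.Agent.P031

open Finset Real Filter Topology

variable {a b M : ℕ}

/-- The distinguished primes lying on the line of a form (a row `inl i` or a column `inr j`). -/
def lineSet (pos : Fin M → Fin (a + 1) × Fin (b + 1)) : Fin a ⊕ Fin b → Finset (Fin M)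
  | .inl i => Finset.univ.filter fun c ↦ (pos c).1 = i.castSucc
  | .inr j => Finset.univ.filter fun c ↦ (pos c).2 = j.castSucc

/-- The part of a line coming from the matrix of cofactors. -/
def lineCof (r : Fin (a + 1) → Fin (b + 1) → ℕ) : Fin a ⊕ Fin b → ℕ
  | .inl i => ∏ j, r i.castSucc j
  | .inr j => ∏ i, r i j.castSucc

/-- The value of a form (one less than the prime it represents). -/
def formVal (pos : Fin M → Fin (a + 1) × Fin (b + 1)) (r : Fin (a + 1) → Fin (b + 1) → ℕ)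
    (R : Fin M → ℕ) (f : Fin a ⊕ Fin b) : ℕ :=
  lineCof r f * ∏ c ∈ lineSet pos f, R c

/-- The coefficient of the top prime in a form. -/
def formCoef (pos : Fin M → Fin (a + 1) × Fin (b + 1)) (top : Fin a ⊕ Fin b → Fin M)
    (r : Fin (a + 1) → Fin (b + 1) → ℕ) (R : Fin M → ℕ) (f : Fin a ⊕ Fin b) : ℕ :=
  lineCof r f * ∏ c ∈ (lineSet pos f).erase (top f), R c

lemma formVal_eq_coef_mul {pos : Fin M → Fin (a + 1) × Fin (b + 1)}
    {top : Fin a ⊕ Fin b → Fin M} (r : Fin (a + 1) → Fin (b + 1) → ℕ) (R : Fin M → ℕ)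
    {f : Fin a ⊕ Fin b} (h : top f ∈ lineSet pos f) :
    formVal pos r R f = formCoef pos top r R f * R (top f) := by
  rw [formVal, formCoef, ← Finset.mul_prod_erase _ _ h]
  ring

/-- The total value of a realisation. -/
def realVal (r : Fin (a + 1) → Fin (b + 1) → ℕ) (R : Fin M → ℕ) : ℕ :=
  (∏ i, ∏ j, r i j) * ∏ c, R c

/-- A realisation of a shape. -/
structure IsReal (L : ℕ) (σy : ℕ) (Mb : ℕ) (σ : Fin a ⊕ Fin b → ℕ)
    (capRow : Fin (a + 1) → ℕ) (capCol : Fin (b + 1) → ℕ)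
    (pos : Fin M → Fin (a + 1) × Fin (b + 1)) (top : Fin a ⊕ Fin b → Fin M)
    (r : Fin (a + 1) → Fin (b + 1) → ℕ) (R : Fin M → ℕ) : Prop where
  rpos : ∀ i j, r i j ≠ 0
  rcap : ∀ i j, ∀ l : ℕ, l.Prime → l ∣ r i j → sc l ≤ min (capRow i) (capCol j)
  prime : ∀ c, (R c).Prime ∧ sc (R c) ≤ L + 3
  form : ∀ f, (formVal pos r R f + 1).Prime
  topMem : ∀ f, top f ∈ lineSet pos f
  topMax : ∀ f, ∀ c ∈ lineSet pos f, c ≤ top f
  topLog : ∀ f, Real.exp (σ f) ≤ (L:ℝ) ^ 3 * Real.log (R (top f) : ℕ)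
  distinct : ∀ f g, f ≠ g → formVal pos r R f ≠ formVal pos r R g
  bound : realVal r R ≤ Mb
  lastLog : ∀ c, (∀ c' : Fin M, c' ≤ c) → Real.exp σy ≤ (L:ℝ) ^ 8 * Real.log (R c : ℕ)

lemma formVal_le_realVal (pos : Fin M → Fin (a + 1) × Fin (b + 1))
    {r : Fin (a + 1) → Fin (b + 1) → ℕ} {R : Fin M → ℕ}
    (hr : ∀ i j, r i j ≠ 0) (hR : ∀ c, R c ≠ 0) (f : Fin a ⊕ Fin b) :
    formVal pos r R f ≤ realVal r R := by
  have hr' : 0 < ∏ i, ∏ j, r i j :=
    Finset.prod_pos fun i _ ↦ Finset.prod_pos fun j _ ↦ Nat.pos_of_ne_zero (hr i j)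
  have hR' : 0 < ∏ c, R c := Finset.prod_pos fun c _ ↦ Nat.pos_of_ne_zero (hR c)
  refine Nat.mul_le_mul (Nat.le_of_dvd hr' ?_)
    (Nat.le_of_dvd hR' (Finset.prod_dvd_prod_of_subset _ _ _ (Finset.subset_univ _)))
  cases f with
  | inl i => exact Finset.dvd_prod_of_mem (fun i ↦ ∏ j, r i j) (Finset.mem_univ _)
  | inr j =>
    exact Finset.prod_dvd_prod_of_dvd _ _ fun i _ ↦
      Finset.dvd_prod_of_mem (fun j ↦ r i j) (Finset.mem_univ _)

lemma card_tops_le (pos : Fin M → Fin (a + 1) × Fin (b + 1)) (top : Fin a ⊕ Fin b → Fin M)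
    (hmem : ∀ f, top f ∈ lineSet pos f) (c : Fin M) :
    (Finset.univ.filter fun f ↦ top f = c).card ≤ 2 := by
  have h := Finset.card_le_card_of_injOn (s := Finset.univ.filter fun f ↦ top f = c)
    (t := (Finset.univ : Finset Bool)) (fun f ↦ Sum.isLeft f) (fun f _ ↦ Finset.mem_univ _) ?_
  · simpa using h
  intro f hf g hg hfg
  rw [Finset.mem_coe, Finset.mem_filter] at hf hg
  have h1 := hmem f
  have h2 := hmem g
  rw [hf.2] at h1
  rw [hg.2] at h2
  cases f <;> cases g <;> simp [lineSet] at h1 h2 hfg ⊢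
  · exact Fin.castSucc_injective _ (h1.symm.trans h2)
  · exact Fin.castSucc_injective _ (h1.symm.trans h2)

/-- The forms having `c` as top prime. -/
def topSet (top : Fin a ⊕ Fin b → Fin M) (c : Fin M) : Finset (Fin a ⊕ Fin b) :=
  Finset.univ.filter fun f ↦ top f = c

/-- The conditions attached to the distinguished prime `c`. -/
def coordCond (L σy Mb : ℕ) (σ : Fin a ⊕ Fin b → ℕ)
    (pos : Fin M → Fin (a + 1) × Fin (b + 1)) (top : Fin a ⊕ Fin b → Fin M)
    (r : Fin (a + 1) → Fin (b + 1) → ℕ) (c : Fin M) (R : Fin M → ℕ) : Prop :=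
  (R c).Prime ∧ sc (R c) ≤ L + 3 ∧
  (∀ f ∈ topSet top c, (formCoef pos top r R f * R c + 1).Prime ∧ 1 ≤ formCoef pos top r R f ∧
    Real.log (formCoef pos top r R f : ℕ) ≤ Real.exp ((L:ℝ) + 4) ∧
    Real.exp (σ f) ≤ (L:ℝ) ^ 3 * Real.log (R c : ℕ)) ∧
  (∀ f ∈ topSet top c, ∀ g ∈ topSet top c, f ≠ g →
    formCoef pos top r R f ≠ formCoef pos top r R g) ∧
  ((∀ c' : Fin M, c' ≤ c) →
    Real.exp σy ≤ (L:ℝ) ^ 8 * Real.log (R c : ℕ) ∧ realVal r R ≤ Mb)

/-- The summand attached to the distinguished prime `c`. -/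
noncomputable def coordTerm (L σy Mb : ℕ) (σ : Fin a ⊕ Fin b → ℕ)
    (pos : Fin M → Fin (a + 1) × Fin (b + 1)) (top : Fin a ⊕ Fin b → Fin M)
    (r : Fin (a + 1) → Fin (b + 1) → ℕ) (c : Fin M) (R : Fin M → ℕ) : ℝ := by
  classical exact
    if coordCond L σy Mb σ pos top r c R then
      (if ∀ c' : Fin M, c' ≤ c then ((∏ i, ∏ j, r i j : ℕ) : ℝ)
          * (∏ c' ∈ Finset.univ.erase c, (R c' : ℝ)) / Mb
        else 1 / (R c : ℝ))
    else 0

/-- The bound for the sum over the distinguished prime `c`. -/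
noncomputable def coordBound (L σy : ℕ) (K : ℝ) (σ : Fin a ⊕ Fin b → ℕ)
    (top : Fin a ⊕ Fin b → Fin M) (c : Fin M) : ℝ :=
  K * (L:ℝ) ^ 19 * (∏ f ∈ topSet top c, (L:ℝ) ^ 3 * Real.exp (-(σ f:ℝ)))
    * (if ∀ c' : Fin M, c' ≤ c then (L:ℝ) ^ 8 * Real.exp (-(σy:ℝ)) else 1)

lemma coordBound_nonneg (L σy : ℕ) {K : ℝ} (hK : 0 ≤ K) (σ : Fin a ⊕ Fin b → ℕ)
    (top : Fin a ⊕ Fin b → Fin M) (c : Fin M) : 0 ≤ coordBound L σy K σ top c := by
  unfold coordBound
  have : 0 ≤ ∏ f ∈ topSet top c, (L:ℝ) ^ 3 * Real.exp (-(σ f:ℝ)) :=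
    Finset.prod_nonneg fun f _ ↦ by positivity
  split_ifs <;> positivity

lemma coordTerm_nonneg (L σy Mb : ℕ) (σ : Fin a ⊕ Fin b → ℕ)
    (pos : Fin M → Fin (a + 1) × Fin (b + 1)) (top : Fin a ⊕ Fin b → Fin M)
    (r : Fin (a + 1) → Fin (b + 1) → ℕ) (c : Fin M) (R : Fin M → ℕ) :
    0 ≤ coordTerm L σy Mb σ pos top r c R := by
  unfold coordTerm
  split_ifs <;> positivity

lemma formCoef_congr {pos : Fin M → Fin (a + 1) × Fin (b + 1)} {top : Fin a ⊕ Fin b → Fin M}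
    (r : Fin (a + 1) → Fin (b + 1) → ℕ) {R R' : Fin M → ℕ} {f : Fin a ⊕ Fin b}
    (h : ∀ c ∈ (lineSet pos f).erase (top f), R c = R' c) :
    formCoef pos top r R f = formCoef pos top r R' f := by
  unfold formCoef
  rw [Finset.prod_congr rfl h]

lemma coordTerm_dep (L σy Mb : ℕ) (σ : Fin a ⊕ Fin b → ℕ)
    (pos : Fin M → Fin (a + 1) × Fin (b + 1)) (top : Fin a ⊕ Fin b → Fin M)
    (hmax : ∀ f, ∀ c ∈ lineSet pos f, c ≤ top f) (r : Fin (a + 1) → Fin (b + 1) → ℕ)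
    (c : Fin M) (R R' : Fin M → ℕ) (h : ∀ c', c' ≤ c → R c' = R' c') :
    coordTerm L σy Mb σ pos top r c R = coordTerm L σy Mb σ pos top r c R' := by
  classical
  by_cases hlast : ∀ c' : Fin M, c' ≤ c
  · rw [funext fun c' ↦ h c' (hlast c')]
  have hc := h c le_rfl
  have hcoef : ∀ f ∈ topSet top c, formCoef pos top r R f = formCoef pos top r R' f := by
    intro f hf
    refine formCoef_congr r fun c' hc' ↦ h c' ?_
    rw [← (Finset.mem_filter.mp hf).2]
    exact hmax f c' (Finset.mem_erase.mp hc').2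
  have hiff : coordCond L σy Mb σ pos top r c R ↔ coordCond L σy Mb σ pos top r c R' := by
    unfold coordCond
    simp only [hc]
    constructor <;>
    · rintro ⟨h1, h2, h3, h4, -⟩
      refine ⟨h1, h2, fun f hf ↦ ?_, fun f hf f' hf' hne ↦ ?_, fun h ↦ absurd h hlast⟩
      · have := h3 f hf
        rw [hcoef f hf] at *
        exact this
      · have := h4 f hf f' hf' hne
        rw [hcoef f hf, hcoef f' hf'] at *
        exact this
  simp only [coordTerm, if_neg hlast, hc, hiff]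

/-- The count used for the top distinguished prime. -/
lemma last_count_le {L Y P Mb : ℕ} {C K : ℝ} {m : ℕ} {θ θy w : ℝ} {n : ℝ}
    (hC : 1 ≤ C) (hK : C ^ 3 ≤ K) (hL : 1 ≤ L) (hm : m ≤ 2) (hθ : 0 < θ) (hθy : 0 < θy)
    (hw : (1 / θ) ^ m ≤ w) (hn : n ≤ (Y:ℝ) * (C * (L:ℝ) ^ 6 / max θ θy) ^ (m + 1))
    (hY : Y * P ≤ Mb) (hMb : 0 < Mb) :
    n * ((P:ℝ) / Mb) ≤ K * (L:ℝ) ^ 19 * w * (1 / θy) := by
  have hL' : (1:ℝ) ≤ L := by exact_mod_cast hL
  have hMbR : (0:ℝ) < Mb := by exact_mod_cast hMb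
  have hX1 : 1 ≤ C * (L:ℝ) ^ 6 := one_le_mul_of_one_le_of_one_le hC (one_le_pow₀ hL')
  have h3 : (C * (L:ℝ) ^ 6) ^ (m + 1) ≤ K * (L:ℝ) ^ 19 := by
    calc (C * (L:ℝ) ^ 6) ^ (m + 1) ≤ (C * (L:ℝ) ^ 6) ^ 3 :=
          pow_le_pow_right₀ hX1 (by omega)
      _ = C ^ 3 * (L:ℝ) ^ 18 := by ring
      _ ≤ _ := mul_le_mul hK (pow_le_pow_right₀ hL' (by norm_num))
          (by positivity) (le_trans (by positivity) hK)
  have hw0 : 0 ≤ w := le_trans (by positivity) hw
  have hpow : (C * (L:ℝ) ^ 6 / max θ θy) ^ (m + 1) ≤ K * (L:ℝ) ^ 19 * w * (1 / θy) := by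
    have hmax : 0 < max θ θy := lt_max_of_lt_left hθ
    calc (C * (L:ℝ) ^ 6 / max θ θy) ^ (m + 1)
        = (C * (L:ℝ) ^ 6) ^ (m + 1) * ((1 / max θ θy) ^ m * (1 / max θ θy)) := by
          rw [← pow_succ, ← mul_pow, mul_one_div]
      _ ≤ (K * (L:ℝ) ^ 19) * (w * (1 / θy)) := by
          refine mul_le_mul h3 (mul_le_mul (le_trans ?_ hw) ?_ (by positivity) hw0) (by positivity)
            (le_trans (by positivity) h3)
          · gcongr
            exact le_max_left _ _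
          · gcongr
            exact le_max_right _ _
      _ = _ := by ring
  calc n * ((P:ℝ) / Mb) ≤ (Y:ℝ) * (C * (L:ℝ) ^ 6 / max θ θy) ^ (m + 1) * ((P:ℝ) / Mb) :=
        mul_le_mul_of_nonneg_right hn (by positivity)
    _ = (C * (L:ℝ) ^ 6 / max θ θy) ^ (m + 1) * ((Y:ℝ) * P / Mb) := by ring
    _ ≤ K * (L:ℝ) ^ 19 * w * (1 / θy) * 1 := by
        refine mul_le_mul hpow ?_ (by positivity) (le_trans (by positivity) hpow)
        rw [div_le_one hMbR]
        exact_mod_cast hY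
    _ = _ := mul_one _

/-- Threshold for the forms with top prime `c`. -/
lemma exists_theta {L : ℕ} (hL : 1 ≤ L) (σ : Fin a ⊕ Fin b → ℕ) (T : Finset (Fin a ⊕ Fin b))
    (V : Finset ℕ) (hV : ∀ x ∈ V, x.Prime ∧
      ∀ f ∈ T, Real.exp (σ f) ≤ (L:ℝ) ^ 3 * Real.log x) :
    ∃ θ : ℝ, 0 < θ ∧ (1 / θ) ^ T.card ≤ ∏ f ∈ T, (L:ℝ) ^ 3 * Real.exp (-(σ f:ℝ)) ∧
      ∀ x ∈ V, θ ≤ Real.log x := by
  have hL' : (1:ℝ) ≤ L := by exact_mod_cast hL
  rcases T.eq_empty_or_nonempty with he | hne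
  · refine ⟨Real.log 2, Real.log_pos one_lt_two, by simp [he], fun x hx ↦ ?_⟩
    exact Real.log_le_log (by norm_num) (by exact_mod_cast (hV x hx).1.two_le)
  obtain ⟨f0, hf0, hmax⟩ := Finset.exists_max_image T σ hne
  refine ⟨Real.exp (σ f0) / (L:ℝ) ^ 3, by positivity, ?_, fun x hx ↦ ?_⟩
  · rw [one_div_div, ← Finset.prod_const]
    refine Finset.prod_le_prod (fun f _ ↦ by positivity) fun f hf ↦ ?_
    rw [Real.exp_neg, ← div_eq_mul_inv]
    gcongr
    exact_mod_cast hmax f hf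
  · rw [div_le_iff₀ (by positivity), mul_comm]
    exact (hV x hx).2 f0 hf0

/-- The sum over one distinguished prime. -/
lemma exists_coord_sum :
    ∃ K, 1 ≤ K ∧ ∀ (a b M L σy Mb : ℕ) (σ : Fin a ⊕ Fin b → ℕ)
      (pos : Fin M → Fin (a + 1) × Fin (b + 1)) (top : Fin a ⊕ Fin b → Fin M)
      (r : Fin (a + 1) → Fin (b + 1) → ℕ) (U : Finset ℕ) (c : Fin M) (R : Fin M → ℕ),
      1 ≤ L → sc Mb ≤ L + 4 → 0 < Mb → (∀ f, top f ∈ lineSet pos f) →
      ∑ x ∈ U, coordTerm L σy Mb σ pos top r c (Function.update R c x)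
        ≤ coordBound L σy K σ top c := by
  classical
  obtain ⟨C1, hC11, hC1⟩ := exists_linked_sum
  obtain ⟨C2, hC21, hC2⟩ := exists_linked_count
  have hC23 : 1 ≤ C2 ^ 3 := one_le_pow₀ hC21
  refine ⟨C1 + C2 ^ 3, by linarith, fun a b M L σy Mb σ pos top r U c R hL hscM hMb hmem ↦ ?_⟩
  set K := C1 + C2 ^ 3 with hK
  have hK0 : 0 ≤ K := by linarith
  have hB0 := coordBound_nonneg L σy hK0 σ top c
  set V := U.filter fun x ↦ coordCond L σy Mb σ pos top r c (Function.update R c x) with hV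
  have hsumV : ∑ x ∈ U, coordTerm L σy Mb σ pos top r c (Function.update R c x)
      = ∑ x ∈ V, coordTerm L σy Mb σ pos top r c (Function.update R c x) := by
    symm
    refine Finset.sum_subset (Finset.filter_subset _ _) fun x hx hxV ↦ ?_
    unfold coordTerm
    exact if_neg fun h ↦ hxV (Finset.mem_filter.mpr ⟨hx, h⟩)
  rw [hsumV]
  rcases V.eq_empty_or_nonempty with he | ⟨x₁, hx₁⟩
  · rw [he, Finset.sum_empty]; exact hB0
  have hcoefc : ∀ f ∈ topSet top c, ∀ x,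
      formCoef pos top r (Function.update R c x) f = formCoef pos top r R f := by
    intro f hf x
    refine formCoef_congr r fun c' hc' ↦ Function.update_of_ne ?_ _ _
    rw [← (Finset.mem_filter.mp hf).2]
    exact (Finset.mem_erase.mp hc').1
  have hVprop : ∀ x ∈ V, x.Prime ∧ sc x ≤ L + 3 ∧
      (∀ f ∈ topSet top c, (formCoef pos top r R f * x + 1).Prime ∧
        1 ≤ formCoef pos top r R f ∧
        Real.log (formCoef pos top r R f : ℕ) ≤ Real.exp ((L:ℝ) + 4) ∧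
        Real.exp (σ f) ≤ (L:ℝ) ^ 3 * Real.log x) ∧
      (∀ f ∈ topSet top c, ∀ f' ∈ topSet top c, f ≠ f' →
        formCoef pos top r R f ≠ formCoef pos top r R f') ∧
      ((∀ c' : Fin M, c' ≤ c) → Real.exp σy ≤ (L:ℝ) ^ 8 * Real.log x ∧
        realVal r (Function.update R c x) ≤ Mb) := by
    intro x hx
    obtain ⟨h1, h2, h3, h4, h5⟩ := (Finset.mem_filter.mp hx).2
    rw [Function.update_self] at h1 h2 h5
    refine ⟨h1, h2, fun f hf ↦ ?_, fun f hf f' hf' hne ↦ ?_, h5⟩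
    · have := h3 f hf
      rwa [hcoefc f hf, Function.update_self] at this
    · have := h4 f hf f' hf' hne
      rwa [hcoefc f hf, hcoefc f' hf'] at this
  obtain ⟨hx₁p, hx₁sc, hx₁f, hx₁ne, hx₁last⟩ := hVprop x₁ hx₁
  set A := (topSet top c).image (formCoef pos top r R) with hA
  have hAcard : A.card = (topSet top c).card :=
    Finset.card_image_of_injOn fun f hf f' hf' he ↦ by
      by_contra hne
      exact hx₁ne f hf f' hf' hne he
  have hm2 : (topSet top c).card ≤ 2 := card_tops_le pos top hmem c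
  have hAb : ∀ α ∈ A, 1 ≤ α ∧ Real.log α ≤ Real.exp ((L:ℝ) + 4) := by
    intro α hα
    obtain ⟨f, hf, rfl⟩ := Finset.mem_image.mp hα
    exact ⟨(hx₁f f hf).2.1, (hx₁f f hf).2.2.1⟩
  obtain ⟨θ, hθ0, hθpow, hθle⟩ := exists_theta hL σ (topSet top c) V fun x hx ↦
    ⟨(hVprop x hx).1, fun f hf ↦ ((hVprop x hx).2.2.1 f hf).2.2.2⟩
  have hforms : ∀ x ∈ V, ∀ α ∈ A, (α * x + 1).Prime := by
    intro x hx α hα
    obtain ⟨f, hf, rfl⟩ := Finset.mem_image.mp hα
    exact ((hVprop x hx).2.2.1 f hf).1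
  have hL' : (1:ℝ) ≤ L := by exact_mod_cast hL
  by_cases hlast : ∀ c' : Fin M, c' ≤ c
  · set P0 : ℕ := (∏ i, ∏ j, r i j) * ∏ c' ∈ Finset.univ.erase c, R c' with hP0
    have hval : ∀ x, realVal r (Function.update R c x) = P0 * x := by
      intro x
      rw [realVal, ← Finset.mul_prod_erase Finset.univ _ (Finset.mem_univ c),
        Function.update_self, Finset.prod_congr rfl fun c' hc' ↦
          Function.update_of_ne (Finset.mem_erase.mp hc').1 x R, hP0]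
      ring
    have hgval : ∀ x ∈ V,
        coordTerm L σy Mb σ pos top r c (Function.update R c x) = (P0:ℝ) / Mb := by
      intro x hx
      unfold coordTerm
      rw [if_pos (Finset.mem_filter.mp hx).2, if_pos hlast, hP0]
      push_cast
      congr 2
      exact Finset.prod_congr rfl fun c' hc' ↦ by
        rw [Function.update_of_ne (Finset.mem_erase.mp hc').1]
    rw [Finset.sum_congr rfl hgval, Finset.sum_const, nsmul_eq_mul]
    rcases Nat.eq_zero_or_pos P0 with hP | hP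
    · rw [hP, Nat.cast_zero, zero_div, mul_zero]; exact hB0
    have hscY : sc (Mb / P0) ≤ L + 4 := (sc_mono (Nat.div_le_self _ _)).trans hscM
    have hcnt := hC2 L (Mb / P0) A V (max θ (Real.exp σy / (L:ℝ) ^ 8)) (topSet top c).card
      hL hscY hAcard hm2 hAb (lt_max_of_lt_left hθ0) fun x hx ↦ by
      obtain ⟨h1, -, -, -, h5⟩ := hVprop x hx
      obtain ⟨h6, h7⟩ := h5 hlast
      rw [hval] at h7
      refine ⟨h1, ?_, max_le (hθle x hx) ?_, hforms x hx⟩
      · rw [Nat.le_div_iff_mul_le hP, mul_comm]; exact h7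
      · rw [div_le_iff₀ (by positivity), mul_comm]; exact h6
    refine (last_count_le (K := K) hC21 (by linarith) hL hm2 hθ0 (by positivity) hθpow hcnt
      (Nat.div_mul_le_self Mb P0) hMb).trans (le_of_eq ?_)
    unfold coordBound
    rw [if_pos hlast, one_div_div, Real.exp_neg, ← div_eq_mul_inv ((L:ℝ) ^ 8)]
  · have hgval : ∀ x ∈ V,
        coordTerm L σy Mb σ pos top r c (Function.update R c x) = 1 / (x:ℝ) := by
      intro x hx
      unfold coordTerm
      rw [if_pos (Finset.mem_filter.mp hx).2, if_neg hlast, Function.update_self]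
    rw [Finset.sum_congr rfl hgval]
    refine (hC1 L A V θ (topSet top c).card hL hAcard hm2 hAb hθ0 fun x hx ↦
      ⟨(hVprop x hx).1, (hVprop x hx).2.1, hθle x hx, hforms x hx⟩).trans ?_
    unfold coordBound
    rw [if_neg hlast, mul_one]
    calc C1 * (L:ℝ) ^ 19 / θ ^ (topSet top c).card
        = C1 * (L:ℝ) ^ 19 * (1 / θ) ^ (topSet top c).card := by rw [one_div, inv_pow]; ring
      _ ≤ K * (L:ℝ) ^ 19 * ∏ f ∈ topSet top c, (L:ℝ) ^ 3 * Real.exp (-(σ f:ℝ)) := by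
          refine mul_le_mul (mul_le_mul_of_nonneg_right (by linarith) (by positivity)) hθpow
            (by positivity) (by positivity)

lemma prod_coordBound {M : ℕ} (L σy : ℕ) (K : ℝ) (σ : Fin a ⊕ Fin b → ℕ)
    (top : Fin a ⊕ Fin b → Fin M) (hM : 0 < M) :
    ∏ c, coordBound L σy K σ top c = (K * (L:ℝ) ^ 19) ^ M * (L:ℝ) ^ 8 * Real.exp (-(σy:ℝ))
      * ∏ f, ((L:ℝ) ^ 3 * Real.exp (-(σ f:ℝ))) := by
  set last : Fin M := ⟨M - 1, by omega⟩ with hlast
  have hiff : ∀ c : Fin M, (∀ c' : Fin M, c' ≤ c) ↔ c = last := by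
    intro c
    refine ⟨fun h ↦ le_antisymm (Fin.le_def.mpr ?_) (h last),
      fun h c' ↦ h ▸ Fin.le_def.mpr ?_⟩
    · show (c:ℕ) ≤ M - 1
      have := c.isLt; omega
    · show (c':ℕ) ≤ M - 1
      have := c'.isLt; omega
  unfold coordBound topSet
  simp only [hiff]
  rw [Finset.prod_mul_distrib, Finset.prod_mul_distrib, Finset.prod_const, Finset.card_univ,
    Fintype.card_fin, Finset.prod_fiberwise Finset.univ top
      (fun f ↦ (L:ℝ) ^ 3 * Real.exp (-(σ f:ℝ))), Finset.prod_ite_eq']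
  simp only [Finset.mem_univ, if_true]
  ring

lemma wt_finset_prod (z : ℕ → ℝ) {ι : Type*} (s : Finset ι) (f : ι → ℕ)
    (hf : ∀ i ∈ s, f i ≠ 0) : wt z (∏ i ∈ s, f i) = ∏ i ∈ s, wt z (f i) := by
  classical
  induction s using Finset.induction_on with
  | empty => simp [wt_one]
  | insert q s hq ih =>
    rw [Finset.prod_insert hq, Finset.prod_insert hq, wt_mul z (hf q (by simp))
      (Finset.prod_ne_zero_iff.mpr fun i hi ↦ hf i (by simp [hi])),
      ih fun i hi ↦ hf i (by simp [hi])]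

lemma wt_le_one {z : ℕ → ℝ} (h0 : ∀ l, 0 < z l) (h1 : ∀ l, z l ≤ 1) (n : ℕ) : wt z n ≤ 1 := by
  unfold wt
  induction n.primeFactorsList with
  | nil => simp
  | cons q t ih =>
    rw [List.map_cons, List.prod_cons]
    refine mul_le_one₀ (h1 q) (List.prod_nonneg fun s hs ↦ ?_) ih
    obtain ⟨l, -, rfl⟩ := List.mem_map.mp hs
    exact (h0 l).le

lemma wt_realVal_le {z : ℕ → ℝ} (h0 : ∀ l, 0 < z l) (h1 : ∀ l, z l ≤ 1)
    {r : Fin (a + 1) → Fin (b + 1) → ℕ} {R : Fin M → ℕ} (hr : ∀ i j, r i j ≠ 0)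
    (hR : ∀ c, R c ≠ 0) : wt z (realVal r R) ≤ ∏ i, ∏ j, wt z (r i j) := by
  rw [realVal, wt_mul z (Finset.prod_ne_zero_iff.mpr fun i _ ↦
    Finset.prod_ne_zero_iff.mpr fun j _ ↦ hr i j) (Finset.prod_ne_zero_iff.mpr fun c _ ↦ hR c),
    wt_finset_prod z _ _ (fun i _ ↦ Finset.prod_ne_zero_iff.mpr fun j _ ↦ hr i j),
    Finset.prod_congr rfl fun i _ ↦ wt_finset_prod z _ _ fun j _ ↦ hr i j]
  exact mul_le_of_le_one_right (Finset.prod_nonneg fun i _ ↦ Finset.prod_nonneg fun j _ ↦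
    wt_nonneg (fun l ↦ (h0 l).le) _) (wt_le_one h0 h1 _)

lemma coordCond_of_isReal {L σy Mb : ℕ} {σ : Fin a ⊕ Fin b → ℕ}
    {capRow : Fin (a + 1) → ℕ} {capCol : Fin (b + 1) → ℕ}
    {pos : Fin M → Fin (a + 1) × Fin (b + 1)} {top : Fin a ⊕ Fin b → Fin M}
    {r : Fin (a + 1) → Fin (b + 1) → ℕ} {R : Fin M → ℕ} (hscM : sc Mb ≤ L + 4)
    (h : IsReal L σy Mb σ capRow capCol pos top r R) (c : Fin M) :
    coordCond L σy Mb σ pos top r c R := by
  have hRne : ∀ c, R c ≠ 0 := fun c ↦ (h.prime c).1.ne_zero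
  refine ⟨(h.prime c).1, (h.prime c).2, fun f hf ↦ ?_, fun f hf f' hf' hne ↦ ?_,
    fun hc ↦ ⟨h.lastLog c hc, h.bound⟩⟩
  · have htf := (Finset.mem_filter.mp hf).2
    have hv := formVal_eq_coef_mul (top := top) r R (h.topMem f)
    rw [htf] at hv
    have hpr := h.form f
    rw [hv] at hpr
    have hle := (formVal_le_realVal pos h.rpos hRne f).trans h.bound
    rw [hv] at hle
    have hA1 : 1 ≤ formCoef pos top r R f := by
      by_contra hlt
      have h0 : formCoef pos top r R f = 0 := by omega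
      rw [h0, zero_mul, zero_add] at hpr
      exact Nat.not_prime_one hpr
    refine ⟨hpr, hA1, ?_, htf ▸ h.topLog f⟩
    refine le_trans (Real.log_le_log (by exact_mod_cast hA1) ?_)
      ((log_le_exp_sc Mb).trans (Real.exp_le_exp.mpr (by exact_mod_cast hscM)))
    exact_mod_cast (Nat.le_mul_of_pos_right _ (h.prime c).1.pos).trans hle
  · intro he
    refine h.distinct f f' hne ?_
    rw [formVal_eq_coef_mul (top := top) r R (h.topMem f),
      formVal_eq_coef_mul (top := top) r R (h.topMem f'), he,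
      (Finset.mem_filter.mp hf).2, (Finset.mem_filter.mp hf').2]

lemma prod_coordTerm {L σy Mb : ℕ} {σ : Fin a ⊕ Fin b → ℕ}
    {capRow : Fin (a + 1) → ℕ} {capCol : Fin (b + 1) → ℕ}
    {pos : Fin M → Fin (a + 1) × Fin (b + 1)} {top : Fin a ⊕ Fin b → Fin M}
    {r : Fin (a + 1) → Fin (b + 1) → ℕ} {R : Fin M → ℕ} (hscM : sc Mb ≤ L + 4) (hM : 0 < M)
    (h : IsReal L σy Mb σ capRow capCol pos top r R) :
    ∏ c, coordTerm L σy Mb σ pos top r c R = ((∏ i, ∏ j, r i j : ℕ) : ℝ) / Mb := by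
  classical
  set last : Fin M := ⟨M - 1, by omega⟩ with hlast
  have hl : ∀ c' : Fin M, c' ≤ last := fun c' ↦ Fin.le_def.mpr (by
    show (c':ℕ) ≤ M - 1
    have := c'.isLt; omega)
  have hgs : ∀ c ∈ Finset.univ.erase last,
      coordTerm L σy Mb σ pos top r c R = 1 / (R c : ℝ) := by
    intro c hc
    unfold coordTerm
    rw [if_pos (coordCond_of_isReal hscM h c), if_neg]
    intro hall
    exact (Finset.mem_erase.mp hc).1 (le_antisymm (hl c) (hall last))
  rw [← Finset.mul_prod_erase Finset.univ _ (Finset.mem_univ last), Finset.prod_congr rfl hgs,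
    Finset.prod_div_distrib, Finset.prod_const_one]
  unfold coordTerm
  rw [if_pos (coordCond_of_isReal hscM h last), if_pos hl]
  have hne : (∏ c' ∈ Finset.univ.erase last, (R c' : ℝ)) ≠ 0 :=
    Finset.prod_ne_zero_iff.mpr fun c _ ↦ Nat.cast_ne_zero.mpr (h.prime c).1.ne_zero
  field_simp

lemma sum_cofactor_le (z : ℕ → ℝ) (h0 : ∀ l, 0 < z l) (h1 : ∀ l, z l ≤ 1)
    (capRow : Fin (a + 1) → ℕ) (capCol : Fin (b + 1) → ℕ)
    (Rs : Finset (Fin (a + 1) → Fin (b + 1) → ℕ))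
    (hr : ∀ r ∈ Rs, ∀ i j, r i j ≠ 0 ∧
      ∀ l : ℕ, l.Prime → l ∣ r i j → sc l ≤ min (capRow i) (capCol j)) :
    ∑ r ∈ Rs, ∏ i, ∏ j, wt z (r i j) / (r i j : ℝ)
      ≤ Real.exp (∑ i, ∑ j, ∑ l ∈ primesSc (min (capRow i) (capCol j)),
          (z l / l + 4 * (z l / l) ^ 2)) := by
  classical
  set T : Fin (a + 1) → Fin (b + 1) → Finset ℕ := fun i j ↦ Rs.image fun r ↦ r i j with hT
  have hnn : ∀ n, 0 ≤ wt z n / (n:ℝ) := fun n ↦
    div_nonneg (wt_nonneg (fun l ↦ (h0 l).le) _) (Nat.cast_nonneg _)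
  calc ∑ r ∈ Rs, ∏ i, ∏ j, wt z (r i j) / (r i j : ℝ)
      ≤ ∑ r ∈ Fintype.piFinset (fun i ↦ Fintype.piFinset (T i)),
          ∏ i, ∏ j, wt z (r i j) / (r i j : ℝ) := by
        refine Finset.sum_le_sum_of_subset_of_nonneg (fun r hr' ↦ ?_)
          fun r _ _ ↦ Finset.prod_nonneg fun i _ ↦ Finset.prod_nonneg fun j _ ↦ hnn _
        exact Fintype.mem_piFinset.mpr fun i ↦ Fintype.mem_piFinset.mpr fun j ↦
          Finset.mem_image.mpr ⟨r, hr', rfl⟩
    _ = ∏ i, ∏ j, ∑ n ∈ T i j, wt z n / n := by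
        rw [← Finset.prod_univ_sum
          (fun i ↦ Fintype.piFinset (T i)) (fun i ri ↦ ∏ j, wt z (ri j) / (ri j : ℝ))]
        refine Finset.prod_congr rfl fun i _ ↦ ?_
        rw [← Finset.prod_univ_sum (T i) (fun _ n ↦ wt z n / (n:ℝ))]
    _ ≤ ∏ i, ∏ j, Real.exp (∑ l ∈ primesSc (min (capRow i) (capCol j)),
          (z l / l + 4 * (z l / l) ^ 2)) := by
        refine Finset.prod_le_prod (fun i _ ↦ Finset.prod_nonneg fun j _ ↦
          Finset.sum_nonneg fun n _ ↦ hnn n) fun i _ ↦ ?_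
        refine Finset.prod_le_prod (fun j _ ↦ Finset.sum_nonneg fun n _ ↦ hnn n) fun j _ ↦ ?_
        refine sum_wt_div_le _ _ z (fun l hl ↦ (mem_primesSc.mp hl).1) (fun l _ ↦ (h0 l).le)
          (fun l hl ↦ ?_) fun n hn ↦ ?_
        · have : (2:ℝ) ≤ l := by exact_mod_cast (mem_primesSc.mp hl).1.two_le
          linarith [h1 l]
        · obtain ⟨r, hr', rfl⟩ := Finset.mem_image.mp hn
          exact ⟨(hr r hr' i j).1, fun l hl ↦ mem_primesSc.mpr
            ⟨Nat.prime_of_mem_primeFactorsList hl, (hr r hr' i j).2 l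
              (Nat.prime_of_mem_primeFactorsList hl) (Nat.dvd_of_mem_primeFactorsList hl)⟩⟩
    _ = _ := by rw [Finset.prod_congr rfl fun i _ ↦ (Real.exp_sum _ _).symm, ← Real.exp_sum]

/-- The count of realisations of a fixed shape. -/
theorem exists_core_count :
    ∃ K, 1 ≤ K ∧ ∀ (a b M L σy Mb : ℕ) (σ : Fin a ⊕ Fin b → ℕ)
      (capRow : Fin (a + 1) → ℕ) (capCol : Fin (b + 1) → ℕ)
      (pos : Fin M → Fin (a + 1) × Fin (b + 1)) (top : Fin a ⊕ Fin b → Fin M)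
      (z : ℕ → ℝ) (Λ E : ℝ)
      (S : Finset ((Fin (a + 1) → Fin (b + 1) → ℕ) × (Fin M → ℕ))),
      1 ≤ L → sc Mb ≤ L + 4 → 0 < M →
      (∀ l, 0 < z l) → (∀ l, z l ≤ 1) →
      (∑ i, ∑ j, ∑ l ∈ primesSc (min (capRow i) (capCol j)), (z l / l + 4 * (z l / l) ^ 2) ≤ E) →
      (∀ x ∈ S, IsReal L σy Mb σ capRow capCol pos top x.1 x.2 ∧
        Real.exp (-Λ) ≤ wt z (realVal x.1 x.2)) →
      (S.card : ℝ) ≤ (Mb:ℝ) * Real.exp (Λ + E) * ((K * (L:ℝ) ^ 19) ^ M * (L:ℝ) ^ 8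
        * Real.exp (-(σy:ℝ)) * ∏ f, ((L:ℝ) ^ 3 * Real.exp (-(σ f:ℝ)))) := by
  classical
  obtain ⟨K, hK1, hK⟩ := exists_coord_sum
  refine ⟨K, hK1, fun a b M L σy Mb σ capRow capCol pos top z Λ E S hL hscM hM hz0 hz1 hE hS ↦ ?_⟩
  have hL' : (1:ℝ) ≤ L := by exact_mod_cast hL
  rw [← prod_coordBound L σy K σ top hM]
  have hPB0 : 0 ≤ ∏ c, coordBound L σy K σ top c :=
    Finset.prod_nonneg fun c _ ↦ coordBound_nonneg L σy (by linarith) σ top c
  rcases S.eq_empty_or_nonempty with he | ⟨x₀, hx₀⟩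
  · rw [he, Finset.card_empty, Nat.cast_zero]
    exact mul_nonneg (by positivity) hPB0
  have hshape := (hS x₀ hx₀).1
  have hMb : 0 < Mb := by
    refine lt_of_lt_of_le ?_ hshape.bound
    exact Nat.mul_pos (Finset.prod_pos fun i _ ↦ Finset.prod_pos fun j _ ↦
      Nat.pos_of_ne_zero (hshape.rpos i j)) (Finset.prod_pos fun c _ ↦ (hshape.prime c).1.pos)
  have hMbR : (0:ℝ) < Mb := by exact_mod_cast hMb
  set U : Fin M → Finset ℕ := fun c ↦ S.image fun x ↦ x.2 c with hU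
  set PB := ∏ c, coordBound L σy K σ top c with hPB
  set Rs := S.image Prod.fst with hRs
  have hfib : ∀ r ∈ Rs, ((S.filter fun x ↦ x.1 = r).card : ℝ)
      ≤ (Mb:ℝ) * Real.exp Λ * PB * ∏ i, ∏ j, wt z (r i j) / (r i j : ℝ) := by
    intro r hr
    obtain ⟨x₂, hx₂, hr2⟩ := Finset.mem_image.mp hr
    set Fib := (S.filter fun x ↦ x.1 = r).image Prod.snd with hFib
    have hcardF : (S.filter fun x ↦ x.1 = r).card = Fib.card :=
      (Finset.card_image_of_injOn fun x hx y hy hxy ↦ by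
        rw [Finset.mem_coe, Finset.mem_filter] at hx hy
        exact Prod.ext (hx.2.trans hy.2.symm) hxy).symm
    have hrpos : 0 < ∏ i, ∏ j, r i j := hr2 ▸ Finset.prod_pos fun i _ ↦
      Finset.prod_pos fun j _ ↦ Nat.pos_of_ne_zero ((hS x₂ hx₂).1.rpos i j)
    have hreal : ∀ R ∈ Fib, R ∈ Fintype.piFinset U ∧
        IsReal L σy Mb σ capRow capCol pos top r R ∧ Real.exp (-Λ) ≤ wt z (realVal r R) := by
      intro R hR
      obtain ⟨x, hx, rfl⟩ := Finset.mem_image.mp hR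
      obtain ⟨hxS, hxr⟩ := Finset.mem_filter.mp hx
      exact ⟨Fintype.mem_piFinset.mpr fun c ↦ Finset.mem_image.mpr ⟨x, hxS, rfl⟩,
        hxr ▸ (hS x hxS).1, hxr ▸ (hS x hxS).2⟩
    have hnest := nested_sum_le M U (coordTerm L σy Mb σ pos top r)
      (coordBound L σy K σ top) (coordTerm_nonneg L σy Mb σ pos top r)
      (coordTerm_dep L σy Mb σ pos top hshape.topMax r)
      (fun c R ↦ hK a b M L σy Mb σ pos top r (U c) c R hL hscM hMb hshape.topMem)
    have hsumF : (Fib.card : ℝ) * (((∏ i, ∏ j, r i j : ℕ) : ℝ) / Mb) ≤ PB := by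
      refine le_trans ?_ hnest
      rw [← nsmul_eq_mul, ← Finset.sum_const]
      exact le_trans
        (le_of_eq (Finset.sum_congr rfl fun R hR ↦
          (prod_coordTerm hscM hM (hreal R hR).2.1).symm))
        (Finset.sum_le_sum_of_subset_of_nonneg (fun R hR ↦ (hreal R hR).1)
          fun R _ _ ↦ Finset.prod_nonneg fun c _ ↦ coordTerm_nonneg _ _ _ _ _ _ _ c R)
    rcases Fib.eq_empty_or_nonempty with he | ⟨R₁, hR₁⟩
    · rw [hcardF, he, Finset.card_empty, Nat.cast_zero]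
      exact mul_nonneg (mul_nonneg (by positivity) hPB0) (Finset.prod_nonneg fun i _ ↦
        Finset.prod_nonneg fun j _ ↦ div_nonneg (wt_nonneg (fun l ↦ (hz0 l).le) _)
          (Nat.cast_nonneg _))
    obtain ⟨-, hR1, hR2⟩ := hreal R₁ hR₁
    have hW : Real.exp (-Λ) ≤ ∏ i, ∏ j, wt z (r i j) :=
      hR2.trans (wt_realVal_le hz0 hz1 hR1.rpos fun c ↦ (hR1.prime c).1.ne_zero)
    have hP : (0:ℝ) < ((∏ i, ∏ j, r i j : ℕ) : ℝ) := by exact_mod_cast hrpos
    rw [mul_div_assoc', div_le_iff₀ hMbR] at hsumF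
    rw [hcardF]
    calc (Fib.card : ℝ) = (Fib.card : ℝ) * ((∏ i, ∏ j, r i j : ℕ) : ℝ)
          * (1 / ((∏ i, ∏ j, r i j : ℕ) : ℝ)) := by field_simp
      _ ≤ PB * Mb * (1 / ((∏ i, ∏ j, r i j : ℕ) : ℝ)) := by gcongr
      _ ≤ PB * Mb * ((Real.exp Λ * ∏ i, ∏ j, wt z (r i j))
            * (1 / ((∏ i, ∏ j, r i j : ℕ) : ℝ))) := by
          refine mul_le_mul_of_nonneg_left (le_mul_of_one_le_left (by positivity) ?_)
            (mul_nonneg hPB0 hMbR.le)
          calc (1:ℝ) = Real.exp Λ * Real.exp (-Λ) := by rw [← Real.exp_add]; simp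
            _ ≤ _ := mul_le_mul_of_nonneg_left hW (Real.exp_pos _).le
      _ = _ := by
          push_cast
          simp only [Finset.prod_div_distrib]
          ring
  calc (S.card : ℝ) = ∑ r ∈ Rs, ((S.filter fun x ↦ x.1 = r).card : ℝ) := by
        exact_mod_cast Finset.card_eq_sum_card_image Prod.fst S
    _ ≤ ∑ r ∈ Rs, (Mb:ℝ) * Real.exp Λ * PB * ∏ i, ∏ j, wt z (r i j) / (r i j : ℝ) :=
        Finset.sum_le_sum hfib
    _ = (Mb:ℝ) * Real.exp Λ * PB * ∑ r ∈ Rs, ∏ i, ∏ j, wt z (r i j) / (r i j : ℝ) := by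
        rw [← Finset.mul_sum]
    _ ≤ (Mb:ℝ) * Real.exp Λ * PB * Real.exp E := by
        refine mul_le_mul_of_nonneg_left ((sum_cofactor_le z hz0 hz1 capRow capCol Rs ?_).trans
          (Real.exp_le_exp.mpr hE)) (mul_nonneg (by positivity) hPB0)
        intro r hr i j
        obtain ⟨x, hx, rfl⟩ := Finset.mem_image.mp hr
        exact ⟨(hS x hx).1.rpos i j, (hS x hx).1.rcap i j⟩
    _ = _ := by rw [Real.exp_add]; ring

end Vale.Agent.P031
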