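import Mathlib
import Vale.Agent.P031.CollisionCore
import Vale.Agent.P031.Cfg

/-!
Collision, part 1: a pair of reduced configurations with equal value yields a realisation of a
shape (`IsReal`).
-/

namespace Vale.Agent.P031

open Finset Real Filter Topology

/-- A pair of configurations: levels and tail on both sides. -/
abbrev Pair (a b : ℕ) : Type := ((Fin (a + 1) → ℕ) × ℕ) × ((Fin b → ℕ) × ℕ)

/-- All levels of a pair. -/
def lev {a b : ℕ} (x : Pair a b) : Fin (a + 1) ⊕ Fin b → ℕ := Sum.elim x.1.1 x.2.1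

/-- The value of a pair. -/
def pairVal {a b : ℕ} (x : Pair a b) : ℕ := (∏ i, (x.1.1 i - 1)) * x.1.2

/-- Reduced colliding pairs. -/
structure RedPair (L σy Mb a b : ℕ) (x : Pair a b) : Prop where
  normal : ∀ f, Normal L (lev x f)
  scale : ∀ f, K0 L < sc (lev x f) ∧ sc (lev x f) ≤ L + 3
  inj : Function.Injective (lev x)
  small1 : ∀ l : ℕ, l.Prime → l ∣ x.1.2 → sc l ≤ K0 L
  small2 : ∀ l : ℕ, l.Prime → l ∣ x.2.2 → sc l ≤ K0 L
  pos1 : 0 < x.1.2
  pos2 : 0 < x.2.2
  eq : pairVal x = (∏ j, (x.2.1 j - 1)) * x.2.2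
  sqf : SqfBig L (pairVal x)
  le : pairVal x ≤ Mb
  anti : Antitone fun i ↦ sc (x.1.1 i)
  top : Real.exp σy ≤ (L:ℝ) ^ 5 * Real.log (x.1.1 0 : ℕ)
  phi : ∑ i : Fin a, acoef i * (sc (x.1.1 i.succ) : ℝ) + KK L / 2 ≤ σy

/-- Reconstruct a pair from a realisation. -/
def decode {a b M : ℕ} (pos : Fin M → Fin (a + 1 + 1) × Fin (b + 1))
    (r : Fin (a + 1 + 1) → Fin (b + 1) → ℕ) (R : Fin M → ℕ) : Pair a b :=
  ((fun i ↦ formVal pos r R (.inl i) + 1,
      (∏ j, r (Fin.last (a + 1)) j)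
        * ∏ c ∈ Finset.univ.filter (fun c ↦ (pos c).1 = Fin.last (a + 1)), R c),
    (fun j ↦ formVal pos r R (.inr j) + 1,
      (∏ i, r i (Fin.last b)) * ∏ c ∈ Finset.univ.filter (fun c ↦ (pos c).2 = Fin.last b), R c))

lemma mul_dvd_prod_of_ne {ι : Type*} [DecidableEq ι] {s : Finset ι} {f : ι → ℕ} {p q : ι}
    (hp : p ∈ s) (hq : q ∈ s) (hne : p ≠ q) : f p * f q ∣ ∏ x ∈ s, f x := by
  rw [← Finset.prod_pair (f := f) hne]
  refine Finset.prod_dvd_prod_of_subset _ _ _ ?_
  intro x hx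
  rcases Finset.mem_insert.mp hx with rfl | hx'
  · exact hp
  · rw [Finset.mem_singleton.mp hx']; exact hq

/-- A line of the matrix, with the distinguished primes split off. -/
lemma line_prod_eq {m n M : ℕ} (pos : Fin M → Fin m × Fin n) (R : Fin M → ℕ)
    (d r : Fin m → Fin n → ℕ)
    (h : ∀ i j, r i j * (∏ c ∈ Finset.univ.filter (fun c ↦ pos c = (i, j)), R c) = d i j)
    (i : Fin m) :
    (∏ j, r i j) * ∏ c ∈ Finset.univ.filter (fun c ↦ (pos c).1 = i), R c = ∏ j, d i j := by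
  rw [← Finset.prod_fiberwise (Finset.univ.filter fun c ↦ (pos c).1 = i) (fun c ↦ (pos c).2) R,
    ← Finset.prod_mul_distrib]
  refine Finset.prod_congr rfl fun j _ ↦ ?_
  rw [Finset.filter_filter, ← h i j]
  congr 1
  refine Finset.prod_congr ?_ fun _ _ ↦ rfl
  ext c
  simp [Prod.ext_iff]

lemma col_prod_eq {m n M : ℕ} (pos : Fin M → Fin m × Fin n) (R : Fin M → ℕ)
    (d r : Fin m → Fin n → ℕ)
    (h : ∀ i j, r i j * (∏ c ∈ Finset.univ.filter (fun c ↦ pos c = (i, j)), R c) = d i j)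
    (j : Fin n) :
    (∏ i, r i j) * ∏ c ∈ Finset.univ.filter (fun c ↦ (pos c).2 = j), R c = ∏ i, d i j := by
  rw [← Finset.prod_fiberwise (Finset.univ.filter fun c ↦ (pos c).2 = j) (fun c ↦ (pos c).1) R,
    ← Finset.prod_mul_distrib]
  refine Finset.prod_congr rfl fun i _ ↦ ?_
  rw [Finset.filter_filter, ← h i j]
  congr 1
  refine Finset.prod_congr ?_ fun _ _ ↦ rfl
  ext c
  simp [Prod.ext_iff, and_comm]

lemma realVal_eq_prod {a b M : ℕ} (pos : Fin M → Fin (a + 1) × Fin (b + 1))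
    (r : Fin (a + 1) → Fin (b + 1) → ℕ) (R : Fin M → ℕ) :
    realVal r R
      = ∏ i, ((∏ j, r i j) * ∏ c ∈ Finset.univ.filter (fun c ↦ (pos c).1 = i), R c) := by
  rw [Finset.prod_mul_distrib, Finset.prod_fiberwise Finset.univ (fun c ↦ (pos c).1) R, realVal]

/-- The scale of the largest prime factor of `q - 1` for a normal `q`. -/
lemma Normal.sc_lpf_big {L q : ℕ} (h : Normal L q) (hK : K0 L < sc q)
    (hlog : 6 * Real.log L + 1 ≤ K0 L) :
    (lpf (q - 1)).Prime ∧ lpf (q - 1) ∣ q - 1 ∧ K0 L < 2 * sc (lpf (q - 1)) := by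
  have htop := h.top
  have hpos : 0 < Real.log (lpf (q - 1) : ℕ) := by
    rcases (Real.log_natCast_nonneg (lpf (q - 1))).lt_or_eq with h' | h'
    · exact h'
    · rw [← h', mul_zero] at htop
      exact absurd htop (not_le.mpr (Real.exp_pos _))
  have hq2 : 2 ≤ q - 1 := by
    by_contra hc
    have hq1 : q - 1 = 1 ∨ q - 1 = 0 := by omega
    rcases hq1 with h' | h' <;> simp [h', lpf] at hpos
  obtain ⟨h1, h2⟩ := lpf_prime hq2
  refine ⟨h1, h2, ?_⟩
  have h3 : Real.exp (sc q) ≤ (L:ℝ) ^ 3 * Real.exp (sc (lpf (q - 1))) :=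
    htop.trans (mul_le_mul_of_nonneg_left (log_le_exp_sc _) (by positivity))
  have hL0 : (0:ℝ) < L := by
    rcases Nat.eq_zero_or_pos L with h' | h'
    · rw [h'] at h3
      simp at h3
      linarith [Real.exp_pos (sc q : ℝ)]
    · exact_mod_cast h'
  rw [show (L:ℝ) ^ 3 = Real.exp ((3:ℕ) * Real.log L) by rw [Real.exp_nat_mul, Real.exp_log hL0],
    ← Real.exp_add, Real.exp_le_exp] at h3
  push_cast at h3
  have h4 : (K0 L : ℝ) + 1 ≤ sc q := by exact_mod_cast hK
  have h5 : (K0 L : ℝ) < ((2 * sc (lpf (q - 1)) : ℕ) : ℝ) := by push_cast; linarith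
  exact_mod_cast h5

/-- Every reduced pair is a realisation of some shape. -/
theorem exists_shape {L σy Mb a b : ℕ} (hlog : 6 * Real.log L + 1 ≤ K0 L) {x : Pair a b}
    (h : RedPair L σy Mb a b x) :
    ∃ M, 0 < M ∧ M ≤ a + 1 + b ∧
      ∃ (pos : Fin M → Fin (a + 1 + 1) × Fin (b + 1))
        (top : Fin (a + 1) ⊕ Fin b → Fin M)
        (r : Fin (a + 1 + 1) → Fin (b + 1) → ℕ) (R : Fin M → ℕ),
        IsReal L σy Mb (fun f ↦ sc (lev x f))
          (Fin.snoc (fun i ↦ sc (x.1.1 i)) (K0 L)) (Fin.snoc (fun j ↦ sc (x.2.1 j)) (K0 L))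
          pos top r R ∧
        decode pos r R = x ∧ realVal r R = pairVal x := by
  classical
  set A : Fin (a + 1 + 1) → ℕ := Fin.snoc (fun i ↦ x.1.1 i - 1) x.1.2 with hA
  set B : Fin (b + 1) → ℕ := Fin.snoc (fun j ↦ x.2.1 j - 1) x.2.2 with hB
  have hlev2 : ∀ f, 2 ≤ lev x f := fun f ↦ (h.normal f).prime.two_le
  have hApos : ∀ i, 0 < A i := fun i ↦ by
    refine Fin.lastCases ?_ (fun k ↦ ?_) i
    · simpa [hA] using h.pos1
    · have := hlev2 (.inl k)
      simp [hA, lev] at this ⊢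
      omega
  have hBpos : ∀ j, 0 < B j := fun j ↦ by
    refine Fin.lastCases ?_ (fun k ↦ ?_) j
    · simpa [hB] using h.pos2
    · have := hlev2 (.inr k)
      simp [hB, lev] at this ⊢
      omega
  have hAprod : ∏ i, A i = pairVal x := by
    rw [Fin.prod_univ_castSucc]; simp [hA, pairVal]
  have hBprod : ∏ j, B j = pairVal x := by
    rw [Fin.prod_univ_castSucc, h.eq]; simp [hB]
  obtain ⟨d, hdA, hdB⟩ := exists_refinement _ _ A B hApos hBpos (hAprod.trans hBprod.symm)
  have hdval : ∏ i, ∏ j, d i j = pairVal x := by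
    rw [← hAprod]; exact Finset.prod_congr rfl fun i _ ↦ hdA i
  set lp : Fin (a + 1) ⊕ Fin b → ℕ := fun f ↦ lpf (lev x f - 1) with hlp
  have hlpf : ∀ f, (lp f).Prime ∧ lp f ∣ lev x f - 1 ∧ K0 L < 2 * sc (lp f) :=
    fun f ↦ (h.normal f).sc_lpf_big (h.scale f).1 hlog
  set P := Finset.univ.image lp with hP
  set M := P.card with hM
  set R : Fin M → ℕ := fun c ↦ P.orderEmbOfFin rfl c with hR
  have hRmem : ∀ c, R c ∈ P := fun c ↦ Finset.orderEmbOfFin_mem P rfl c
  have hRinj : Function.Injective R := fun c c' hcc ↦ (P.orderEmbOfFin rfl).injective hcc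
  have hlev_dvd : ∀ f, lev x f - 1 ∣ pairVal x := by
    intro f
    cases f with
    | inl i =>
      rw [← hAprod]
      have := Finset.dvd_prod_of_mem A (Finset.mem_univ i.castSucc)
      simpa [hA, lev] using this
    | inr j =>
      rw [← hBprod]
      have := Finset.dvd_prod_of_mem B (Finset.mem_univ j.castSucc)
      simpa [hB, lev] using this
  have hRprop : ∀ c, (R c).Prime ∧ K0 L < 2 * sc (R c) ∧ R c ∣ pairVal x ∧ sc (R c) ≤ L + 3 := by
    intro c
    obtain ⟨f, -, hf⟩ := Finset.mem_image.mp (hRmem c)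
    obtain ⟨h1, h2, h3⟩ := hlpf f
    rw [← hf]
    refine ⟨h1, h3, h2.trans (hlev_dvd f), (sc_mono ?_).trans (h.scale f).2⟩
    have := hlev2 f
    exact (Nat.le_of_dvd (by omega) h2).trans (Nat.sub_le _ _)
  have hcell : ∀ c, ∃ p : Fin (a + 1 + 1) × Fin (b + 1), R c ∣ d p.1 p.2 := by
    intro c
    obtain ⟨hp, -, hd, -⟩ := hRprop c
    rw [← hdval] at hd
    obtain ⟨i, -, hi⟩ := (Prime.dvd_finsetProd_iff hp.prime _).mp hd
    obtain ⟨j, -, hj⟩ := (Prime.dvd_finsetProd_iff hp.prime _).mp hi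
    exact ⟨(i, j), hj⟩
  choose pos hpos using hcell
  have huniq : ∀ c i j, R c ∣ d i j → pos c = (i, j) := by
    intro c i j hij
    by_contra hne
    obtain ⟨hp, hbig, -, -⟩ := hRprop c
    refine h.sqf (R c) hp hbig ?_
    rw [sq, ← hdval, ← Fintype.prod_prod_type']
    exact (mul_dvd_mul (hpos c) hij).trans
      (mul_dvd_prod_of_ne (f := fun p : Fin (a + 1 + 1) × Fin (b + 1) ↦ d p.1 p.2)
        (Finset.mem_univ _) (Finset.mem_univ _) hne)
  have hQ : ∀ i j, (∏ c ∈ Finset.univ.filter (fun c ↦ pos c = (i, j)), R c) ∣ d i j := by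
    intro i j
    rw [← Finset.prod_image (f := fun p : ℕ ↦ p) (fun c _ c' _ hcc ↦ hRinj hcc)]
    refine Finset.prod_primes_dvd _ (fun p hp ↦ ?_) fun p hp ↦ ?_
    · obtain ⟨c, -, rfl⟩ := Finset.mem_image.mp hp
      exact (hRprop c).1.prime
    · obtain ⟨c, hc, rfl⟩ := Finset.mem_image.mp hp
      have := hpos c
      rwa [(Finset.mem_filter.mp hc).2] at this
  set r : Fin (a + 1 + 1) → Fin (b + 1) → ℕ :=
    fun i j ↦ d i j / ∏ c ∈ Finset.univ.filter (fun c ↦ pos c = (i, j)), R c with hr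
  have hrQ : ∀ i j,
      r i j * (∏ c ∈ Finset.univ.filter (fun c ↦ pos c = (i, j)), R c) = d i j :=
    fun i j ↦ Nat.div_mul_cancel (hQ i j)
  have hrow : ∀ i, (∏ j, r i j) * ∏ c ∈ Finset.univ.filter (fun c ↦ (pos c).1 = i), R c = A i :=
    fun i ↦ (line_prod_eq pos R d r hrQ i).trans (hdA i)
  have hcol : ∀ j, (∏ i, r i j) * ∏ c ∈ Finset.univ.filter (fun c ↦ (pos c).2 = j), R c = B j :=
    fun j ↦ (col_prod_eq pos R d r hrQ j).trans (hdB j)
  have hform : ∀ f, formVal pos r R f = lev x f - 1 := by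
    intro f
    cases f with
    | inl i => simpa [formVal, lineCof, lineSet, hA, lev] using hrow i.castSucc
    | inr j => simpa [formVal, lineCof, lineSet, hB, lev] using hcol j.castSucc
  have hreal : realVal r R = pairVal x := by
    rw [realVal_eq_prod pos r R, ← hAprod]
    exact Finset.prod_congr rfl fun i _ ↦ hrow i
  set top : Fin (a + 1) ⊕ Fin b → Fin M := fun f ↦
    (P.orderIsoOfFin rfl).symm ⟨lp f, Finset.mem_image.mpr ⟨f, Finset.mem_univ f, rfl⟩⟩ with htop
  have hRtop : ∀ f, R (top f) = lp f := by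
    intro f
    simp only [hR, htop, ← Finset.coe_orderIsoOfFin_apply, OrderIso.apply_symm_apply]
  have hd0 : ∀ i j, d i j ≠ 0 := by
    intro i j h0
    have := hApos i
    rw [← hdA i, Finset.prod_eq_zero (Finset.mem_univ j) h0] at this
    exact lt_irrefl _ this
  have hr0 : ∀ i j, r i j ≠ 0 := by
    intro i j h0
    refine hd0 i j ?_
    rw [← hrQ i j, h0, zero_mul]
  have hmemline : ∀ c f, c ∈ lineSet pos f → R c ∣ lev x f - 1 := by
    intro c f hc
    rw [← hform f, formVal]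
    exact dvd_mul_of_dvd_right (Finset.dvd_prod_of_mem R hc) _
  have htopmem : ∀ f, top f ∈ lineSet pos f := by
    intro f
    obtain ⟨h1, h2, -⟩ := hlpf f
    have hpr := (hRprop (top f)).1
    cases f with
    | inl i =>
      have hAi : lev x (.inl i) - 1 = ∏ j, d i.castSucc j := by
        rw [hdA]; simp [hA, lev]
      rw [← hRtop, hAi] at h2
      obtain ⟨j, -, hj⟩ := (Prime.dvd_finsetProd_iff hpr.prime _).mp h2
      simp [lineSet, huniq _ _ _ hj]
    | inr j =>
      have hBj : lev x (.inr j) - 1 = ∏ i, d i j.castSucc := by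
        rw [hdB]; simp [hB, lev]
      rw [← hRtop, hBj] at h2
      obtain ⟨i, -, hi⟩ := (Prime.dvd_finsetProd_iff hpr.prime _).mp h2
      simp [lineSet, huniq _ _ _ hi]
  have hMle : M ≤ a + 1 + b := by
    refine Finset.card_image_le.trans ?_
    simp [Fintype.card_sum]
  refine ⟨M, (Fin.pos (top (.inl 0))), hMle, pos, top, r, R, ?_, ?_, hreal⟩
  · refine ⟨hr0, ?_, fun c ↦ ⟨(hRprop c).1, (hRprop c).2.2.2⟩, ?_, htopmem, ?_, ?_, ?_, ?_, ?_⟩
    · intro i j l hl hld
      have hld' : l ∣ d i j := (hrQ i j) ▸ dvd_mul_of_dvd_left hld _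
      refine le_min ?_ ?_
      · have hlA : l ∣ A i := hdA i ▸ hld'.trans (Finset.dvd_prod_of_mem _ (Finset.mem_univ j))
        revert hlA
        refine Fin.lastCases (fun hlA ↦ ?_) (fun k hlA ↦ ?_) i
        · simp only [Fin.snoc_last, hA] at hlA ⊢
          exact h.small1 l hl hlA
        · simp only [Fin.snoc_castSucc, hA] at hlA ⊢
          have := hlev2 (.inl k)
          simp [lev] at this
          exact sc_mono ((Nat.le_of_dvd (by omega) hlA).trans (Nat.sub_le _ _))
      · have hlB : l ∣ B j :=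
          hdB j ▸ hld'.trans (Finset.dvd_prod_of_mem (fun i ↦ d i j) (Finset.mem_univ i))
        revert hlB
        refine Fin.lastCases (fun hlB ↦ ?_) (fun k hlB ↦ ?_) j
        · simp only [Fin.snoc_last, hB] at hlB ⊢
          exact h.small2 l hl hlB
        · simp only [Fin.snoc_castSucc, hB] at hlB ⊢
          have := hlev2 (.inr k)
          simp [lev] at this
          exact sc_mono ((Nat.le_of_dvd (by omega) hlB).trans (Nat.sub_le _ _))
    · intro f
      rw [hform, Nat.sub_add_cancel (le_trans (by norm_num) (hlev2 f))]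
      exact (h.normal f).prime
    · intro f c hc
      have hd := hmemline c f hc
      have := hlev2 f
      have hle : R c ≤ R (top f) := by
        rw [hRtop]
        exact le_lpf (by omega) (hRprop c).1 hd
      exact (P.orderEmbOfFin rfl).le_iff_le.mp hle
    · intro f
      rw [hRtop]
      exact (h.normal f).top
    · intro f g hfg heq
      rw [hform, hform] at heq
      have := hlev2 f
      have := hlev2 g
      exact hfg (h.inj (by omega))
    · rw [hreal]; exact h.le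
    · intro c hc
      have hle : lp (.inl 0) ≤ R c := by
        rw [← hRtop]
        exact (P.orderEmbOfFin rfl).monotone (hc _)
      have h1 : Real.log (x.1.1 0 : ℕ) ≤ (L:ℝ) ^ 3 * Real.log (R c : ℕ) := by
        refine (log_le_exp_sc _).trans ((h.normal (.inl 0)).top.trans
          (mul_le_mul_of_nonneg_left ?_ (by positivity)))
        exact Real.log_le_log (by exact_mod_cast (hlpf (.inl 0)).1.pos) (by exact_mod_cast hle)
      calc Real.exp σy ≤ (L:ℝ) ^ 5 * Real.log (x.1.1 0 : ℕ) := h.top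
        _ ≤ (L:ℝ) ^ 5 * ((L:ℝ) ^ 3 * Real.log (R c : ℕ)) :=
            mul_le_mul_of_nonneg_left h1 (by positivity)
        _ = _ := by ring
  · obtain ⟨⟨l1, w1⟩, l2, w2⟩ := x
    simp only [decode, hform, Prod.mk.injEq]
    refine ⟨⟨?_, ?_⟩, ?_, ?_⟩
    · funext i
      have := hlev2 (.inl i)
      simp [lev] at this ⊢
      omega
    · simpa [hA] using hrow (Fin.last (a + 1))
    · funext j
      have := hlev2 (.inr j)
      simp [lev] at this ⊢
      omega
    · simpa [hB] using hcol (Fin.last b)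

end Vale.Agent.P031
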