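import Mathlib
import Vale.Agent.P031.Shape

/-!
Collision, part 2: the number of reduced colliding pairs with given numbers of levels.
-/

namespace Vale.Agent.P031

open Finset Real Filter Topology

lemma omIoc_finset_prod (u v : ℕ) {ι : Type*} (s : Finset ι) (f : ι → ℕ) (hf : ∀ i ∈ s, f i ≠ 0) :
    omIoc u v (∏ i ∈ s, f i) = ∑ i ∈ s, omIoc u v (f i) := by
  classical
  induction s using Finset.induction_on with
  | empty => simp [omIoc_one]
  | insert q s hq ih =>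
    rw [Finset.prod_insert hq, Finset.sum_insert hq, omIoc_mul u v (hf q (by simp))
      (Finset.prod_ne_zero_iff.mpr fun i hi ↦ hf i (by simp [hi])),
      ih fun i hi ↦ hf i (by simp [hi])]

lemma omIoc_eq_zero {u v n : ℕ} (h : ∀ l : ℕ, l.Prime → l ∣ n → sc l ≤ u) :
    omIoc u v n = 0 := by
  unfold omIoc
  rw [List.length_eq_zero_iff, List.filter_eq_nil_iff]
  intro l hl
  have := h l (Nat.prime_of_mem_primeFactorsList hl) (Nat.dvd_of_mem_primeFactorsList hl)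
  simp only [decide_eq_true_eq]
  omega

/-- The scales below the top on the left side, padded with zeros. -/
def tauSig {a b : ℕ} (σ : Fin (a + 1) ⊕ Fin b → ℕ) (r : ℕ) : ℕ :=
  if h : r + 1 < a + 1 then σ (.inl ⟨r + 1, h⟩) else 0

/-- The weight used in the Markov step. -/
noncomputable def collWt (L a : ℕ) (τ : ℕ → ℕ) (l : ℕ) : ℝ :=
  Real.exp (-profLog a τ (K0 L) l)

lemma collWt_eq_inv (L a : ℕ) (τ : ℕ → ℕ) (l : ℕ) :
    collWt L a τ l = (profWt a τ (K0 L) l)⁻¹ := by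
  rw [collWt, profWt, Real.exp_neg]

lemma profLog_nonneg (k : ℕ) (τ : ℕ → ℕ) (s0 l : ℕ) : 0 ≤ profLog k τ s0 l :=
  Finset.sum_nonneg fun r _ ↦ by split_ifs <;> [exact delta_nonneg r; exact le_rfl]

lemma collWt_le_one (L a : ℕ) (τ : ℕ → ℕ) (l : ℕ) : collWt L a τ l ≤ 1 :=
  Real.exp_le_one_iff.mpr (neg_nonpos.mpr (profLog_nonneg _ _ _ _))

lemma wt_inv (z : ℕ → ℝ) (n : ℕ) : wt (fun l ↦ (z l)⁻¹) n = (wt z n)⁻¹ := by
  unfold wt
  induction n.primeFactorsList with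
  | nil => simp
  | cons q t ih => simp [ih, mul_inv, mul_comm]

lemma log_wt_collWt (L a : ℕ) (τ : ℕ → ℕ) (n : ℕ) :
    Real.log (wt (collWt L a τ) n)
      = -∑ r ∈ Finset.range a, delta r * (omIoc (K0 L) (τ r) n : ℝ) := by
  rw [show collWt L a τ = fun l ↦ (profWt a τ (K0 L) l)⁻¹ from funext (collWt_eq_inv L a τ),
    wt_inv, Real.log_inv, log_wt_profWt]

/-- The profile of the value of a pair at the scales of the left levels. -/
lemma wt_collWt_ge {L σy Mb a b : ℕ} {x : Pair a b} (h : RedPair L σy Mb a b x)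
    (σ : Fin (a + 1) ⊕ Fin b → ℕ) (hσ : ∀ f, σ f = sc (lev x f)) (τ : ℕ → ℕ)
    (hτ : τ = tauSig σ) :
    Real.exp (-(∑ r ∈ Finset.range a, (acoef r + 1) * τ r + ((a:ℝ) + 1) ^ 2 * ee L))
      ≤ wt (collWt L a τ) (pairVal x) := by
  rw [← Real.exp_log (wt_pos (z := collWt L a τ) (fun l ↦ Real.exp_pos _) (pairVal x)),
    log_wt_collWt, Real.exp_le_exp, neg_le_neg_iff]
  have hanti : Antitone τ := by
    intro i j hij
    rw [hτ]
    unfold tauSig
    by_cases hj : j + 1 < a + 1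
    · rw [dif_pos hj, dif_pos (lt_of_le_of_lt (by omega) hj), hσ, hσ]
      exact h.anti (Fin.mk_le_mk.mpr (by omega))
    · rw [dif_neg hj]
      exact Nat.zero_le _
  have htop : τ 0 ≤ σ (.inl 0) := by
    rw [hτ]
    unfold tauSig
    split_ifs with h0
    · rw [hσ, hσ]; exact h.anti (Fin.zero_le _)
    · exact Nat.zero_le _
  have hee : 0 ≤ ee L := by unfold ee; positivity
  have hM : ∀ r ∈ Finset.range a, (omIoc (K0 L) (τ r) (pairVal x) : ℝ)
      ≤ ((min (τ r) (σ (.inl 0)) : ℕ) : ℝ)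
        + ∑ i ∈ Finset.range a, ((min (τ r) (τ i) : ℕ) : ℝ) + ((a:ℝ) + 1) * ee L := by
    intro r _
    have hne : ∀ i : Fin (a + 1), x.1.1 i - 1 ≠ 0 := fun i ↦ by
      have := (h.normal (.inl i)).prime.two_le
      simp [lev] at this
      omega
    rw [pairVal, omIoc_mul _ _ (Finset.prod_ne_zero_iff.mpr fun i _ ↦ hne i) h.pos1.ne',
      omIoc_eq_zero h.small1, add_zero, omIoc_finset_prod _ _ _ _ (fun i _ ↦ hne i),
      Nat.cast_sum]
    refine (Finset.sum_le_sum fun i _ ↦ (h.normal (.inl i)).omIoc_le (K0 L) (τ r)).trans ?_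
    rw [Finset.sum_add_distrib, Finset.sum_const, Finset.card_univ, Fintype.card_fin,
      nsmul_eq_mul, Fin.sum_univ_succ,
      ← Fin.sum_univ_eq_sum_range (fun i ↦ ((min (τ r) (τ i) : ℕ) : ℝ))]
    have e1 : ∀ i : Fin a, τ i = sc (lev x (.inl i.succ)) := by
      intro i
      rw [hτ]
      unfold tauSig
      rw [dif_pos (by omega), hσ]
      rfl
    simp only [← e1]
    rw [show sc (lev x (.inl 0)) = σ (.inl 0) from (hσ _).symm]
    push_cast
    exact le_rfl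
  calc ∑ r ∈ Finset.range a, delta r * (omIoc (K0 L) (τ r) (pairVal x) : ℝ)
      ≤ ∑ r ∈ Finset.range a, (delta r * (((min (τ r) (σ (.inl 0)) : ℕ) : ℝ)
          + ∑ i ∈ Finset.range a, ((min (τ r) (τ i) : ℕ) : ℝ)) + 1 * (((a:ℝ) + 1) * ee L)) := by
        refine Finset.sum_le_sum fun r hr ↦ ?_
        refine (mul_le_mul_of_nonneg_left (hM r hr) (delta_nonneg r)).trans ?_
        rw [mul_add]
        gcongr
        exact delta_le_one r
    _ = ∑ r ∈ Finset.range a, (acoef r + 1) * τ r + a * (((a:ℝ) + 1) * ee L) := by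
        rw [Finset.sum_add_distrib, sum_delta_min _ τ hanti htop, Finset.sum_const,
          Finset.card_range, nsmul_eq_mul, one_mul]
    _ ≤ _ := by nlinarith [Nat.cast_nonneg (α := ℝ) a]

/-- The Euler product over the cells. -/
lemma exists_cell_sum_le :
    ∃ C, 0 ≤ C ∧ ∀ (L a b : ℕ) (σ : Fin (a + 1) ⊕ Fin b → ℕ) (τ : ℕ → ℕ),
      τ = tauSig σ → Antitone τ →
      ∑ i, ∑ j, ∑ l ∈ primesSc (min ((Fin.snoc (fun i ↦ σ (.inl i)) (K0 L) :
          Fin (a + 1 + 1) → ℕ) i)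
          ((Fin.snoc (fun j ↦ σ (.inr j)) (K0 L) : Fin (b + 1) → ℕ) j)),
          (collWt L a τ l / l + 4 * (collWt L a τ l / l) ^ 2)
        ≤ ∑ j, (σ (.inr j) : ℝ) + K0 L
          + ((a:ℝ) + 2) * ((b:ℝ) + 1) * (K0 L + 2 * C + 4) := by
  obtain ⟨C, hC0, hC⟩ := exists_abs_sum_primesSc
  refine ⟨C, hC0, fun L a b σ τ hτ hanti ↦ ?_⟩
  set cr : Fin (a + 1 + 1) → ℕ := Fin.snoc (fun i ↦ σ (.inl i)) (K0 L) with hcr
  set cc : Fin (b + 1) → ℕ := Fin.snoc (fun j ↦ σ (.inr j)) (K0 L) with hcc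
  set z := collWt L a τ with hz
  have hz0 : ∀ l, 0 < z l := fun l ↦ Real.exp_pos _
  have hcol : ∀ j, ∑ i, ∑ l ∈ primesSc (min (cr i) (cc j)), z l / l
      ≤ (cc j : ℝ) + C + ((a:ℝ) + 2) * (K0 L + C) := by
    intro j
    have hfil : ∀ i, primesSc (min (cr i) (cc j))
        = (primesSc (cc j)).filter fun l ↦ sc l ≤ cr i := by
      intro i
      ext l
      simp only [Finset.mem_filter, mem_primesSc, le_min_iff]
      tauto
    simp only [hfil, Finset.sum_filter]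
    rw [Finset.sum_comm]
    have hpt : ∀ l ∈ primesSc (cc j), (∑ i, if sc l ≤ cr i then z l / l else 0)
        ≤ 1 / (l:ℝ) + if sc l ≤ K0 L then ((a:ℝ) + 2) * (1 / l) else 0 := by
      intro l _
      by_cases hK : sc l ≤ K0 L
      · rw [if_pos hK]
        refine le_trans ?_ (le_add_of_nonneg_left (by positivity))
        refine (Finset.sum_le_card_nsmul _ _ (1 / (l:ℝ)) fun i _ ↦ ?_).trans (le_of_eq ?_)
        · split_ifs
          · gcongr
            exact collWt_le_one L a τ l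
          · positivity
        · rw [Finset.card_univ, Fintype.card_fin, nsmul_eq_mul]
          push_cast
          ring
      · rw [if_neg hK, add_zero, Fin.sum_univ_castSucc]
        simp only [hcr, Fin.snoc_castSucc, Fin.snoc_last, if_neg hK, add_zero]
        rw [Fin.sum_univ_succ]
        have hsum : ∑ i : Fin a, (if sc l ≤ σ (.inl i.succ) then z l / l else 0)
            = z l / l * ∑ r ∈ Finset.range a,
              (if K0 L < sc l ∧ sc l ≤ τ r then (1:ℝ) else 0) := by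
          rw [← Fin.sum_univ_eq_sum_range (fun r ↦
            if K0 L < sc l ∧ sc l ≤ τ r then (1:ℝ) else 0), Finset.mul_sum]
          refine Finset.sum_congr rfl fun i _ ↦ ?_
          have he : τ i = σ (.inl i.succ) := by
            rw [hτ]
            unfold tauSig
            rw [dif_pos (by omega)]
            rfl
          rw [he, mul_ite, mul_one, mul_zero]
          simp only [not_le.mp hK, true_and]
        rw [hsum]
        have h0 : (if sc l ≤ σ (.inl 0) then z l / (l:ℝ) else 0) ≤ z l / l * 1 := by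
          split_ifs <;> simp only [mul_one] <;> [exact le_rfl;
            exact div_nonneg (hz0 l).le (Nat.cast_nonneg _)]
        refine (add_le_add h0 le_rfl).trans (le_of_eq ?_)
        rw [← mul_add, ← exp_profLog_eq a hanti (K0 L) l, hz, collWt_eq_inv]
        have : profWt a τ (K0 L) l ≠ 0 := (Real.exp_pos _).ne'
        field_simp
    refine (Finset.sum_le_sum hpt).trans ?_
    rw [Finset.sum_add_distrib, ← Finset.sum_filter, ← Finset.mul_sum]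
    refine add_le_add (by linarith [(abs_le.mp (hC (cc j))).2])
      (mul_le_mul_of_nonneg_left ?_ (by positivity))
    calc ∑ l ∈ (primesSc (cc j)).filter (fun l ↦ sc l ≤ K0 L), 1 / (l:ℝ)
        ≤ ∑ l ∈ primesSc (K0 L), 1 / (l:ℝ) := by
          refine Finset.sum_le_sum_of_subset_of_nonneg (fun l hl ↦ ?_) fun l _ _ ↦ by positivity
          rw [Finset.mem_filter, mem_primesSc] at hl
          exact mem_primesSc.mpr ⟨hl.1.1, hl.2⟩
      _ ≤ _ := by linarith [(abs_le.mp (hC (K0 L))).2]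
  have hsq : ∀ i j, ∑ l ∈ primesSc (min (cr i) (cc j)), 4 * (z l / l) ^ 2 ≤ 4 := by
    intro i j
    calc ∑ l ∈ primesSc (min (cr i) (cc j)), 4 * (z l / l) ^ 2
        ≤ ∑ l ∈ primesSc (min (cr i) (cc j)), 4 * ((1:ℝ) / (l:ℝ) ^ 2) := by
          refine Finset.sum_le_sum fun l _ ↦ ?_
          rw [div_pow]
          gcongr
          exact pow_le_one₀ (hz0 l).le (collWt_le_one L a τ l)
      _ ≤ 4 := by
          rw [← Finset.mul_sum]
          exact mul_le_of_le_one_right (by norm_num)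
            (sum_inv_sq_primes_le _ fun l hl ↦ (mem_primesSc.mp hl).1.two_le)
  simp only [Finset.sum_add_distrib]
  have h1 := Finset.sum_le_sum fun j (_ : j ∈ (Finset.univ : Finset (Fin (b + 1)))) ↦ hcol j
  rw [Finset.sum_comm, Finset.sum_add_distrib, Finset.sum_add_distrib, Finset.sum_const,
    Finset.sum_const, Finset.card_univ, Fintype.card_fin, nsmul_eq_mul, nsmul_eq_mul,
    Fin.sum_univ_castSucc (fun j ↦ (cc j : ℝ))] at h1
  simp only [hcc, Fin.snoc_castSucc, Fin.snoc_last] at h1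
  have h2 : ∑ i, ∑ j, ∑ l ∈ primesSc (min (cr i) (cc j)), 4 * (z l / l) ^ 2
      ≤ ((a:ℝ) + 2) * ((b:ℝ) + 1) * 4 := by
    refine (Finset.sum_le_sum fun i _ ↦ Finset.sum_le_sum fun j _ ↦ hsq i j).trans (le_of_eq ?_)
    simp
    ring
  simp only [hcc] at h2
  push_cast at h1
  have hb : (0:ℝ) ≤ b := Nat.cast_nonneg b
  have ha : (0:ℝ) ≤ a := Nat.cast_nonneg a
  have : 0 ≤ ((b:ℝ) + 1) * ((a:ℝ) + 1) * C := by positivity
  simp only [hcc]
  nlinarith

/-- The keys of shapes. -/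
abbrev ShapeKey (L a b : ℕ) : Type :=
  Σ M : Fin (a + 1 + b + 1), (Fin (a + 1) ⊕ Fin b → Fin (L + 4))
    × (Fin M → Fin (a + 1 + 1) × Fin (b + 1)) × (Fin (a + 1) ⊕ Fin b → Fin M)

lemma card_shapeKey_le {L a b k : ℕ} (hL : 1 ≤ L) (ha : a + 1 ≤ k) (hb : b ≤ k)
    (hk : (k + 2) ^ 2 ≤ L + 4) :
    (Fintype.card (ShapeKey L a b) : ℝ) ≤ ((L:ℝ) + 4) * ((L:ℝ) + 4) ^ (6 * k) := by
  have hL4 : (1:ℝ) ≤ (L:ℝ) + 4 := by linarith [Nat.cast_nonneg (α := ℝ) L]
  rw [Fintype.card_sigma]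
  simp only [Fintype.card_prod, Fintype.card_fun, Fintype.card_fin, Fintype.card_sum]
  push_cast
  refine (Finset.sum_le_card_nsmul _ _ (((L:ℝ) + 4) ^ (6 * k)) fun M _ ↦ ?_).trans ?_
  · have hM : (M:ℕ) ≤ 2 * k := by have := M.isLt; omega
    have hn : a + 1 + b ≤ 2 * k := by omega
    have hnL : ((M:ℕ):ℝ) ≤ (L:ℝ) + 4 := by
      have : (M:ℕ) ≤ L + 4 := by nlinarith [M.isLt]
      exact_mod_cast this
    have hab : ((a:ℝ) + 1 + 1) * ((b:ℝ) + 1) ≤ (L:ℝ) + 4 := by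
      have h1 : (a + 1 + 1) * (b + 1) ≤ (k + 2) ^ 2 := by
        rw [sq]
        exact Nat.mul_le_mul (by omega) (by omega)
      exact_mod_cast h1.trans hk
    calc ((L:ℝ) + 4) ^ (a + 1 + b) * ((((a:ℝ) + 1 + 1) * ((b:ℝ) + 1)) ^ (M:ℕ)
          * ((M:ℕ):ℝ) ^ (a + 1 + b))
        ≤ ((L:ℝ) + 4) ^ (2 * k) * (((L:ℝ) + 4) ^ (2 * k) * ((L:ℝ) + 4) ^ (2 * k)) := by
          gcongr ?_ * (?_ * ?_)
          · exact pow_le_pow_right₀ hL4 hn
          · exact (pow_le_pow_left₀ (by positivity) hab _).trans (pow_le_pow_right₀ hL4 hM)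
          · exact (pow_le_pow_left₀ (by positivity) hnL _).trans (pow_le_pow_right₀ hL4 hn)
      _ = _ := by rw [← pow_add, ← pow_add]; ring_nf
  · rw [Finset.card_univ, Fintype.card_fin, nsmul_eq_mul]
    gcongr
    have : a + 1 + b + 1 ≤ L + 4 := by nlinarith
    exact_mod_cast this

/-- The numerical margin. -/
lemma ev_collision_margin (C : ℝ) : ∀ᶠ L : ℕ in atTop,
    (kk L + 3) ^ 2 ≤ L + 4 ∧ 6 * Real.log L + 1 ≤ K0 L ∧
    ((kk L : ℝ) + 4) ^ 2 * (ee L + 3 * K0 L + C) + ((kk L : ℝ) + 2) * (100 * Real.log L + C)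
      ≤ KK L / 6 := by
  filter_upwards [ev_log_le_rpow (b := 7/10) (by norm_num) 7,
    ev_const_le_rpow (b := 7/10) (by norm_num) 7,
    ev_mul_rpow_le (a := 3/4) (b := 4/5) (by norm_num) (6 * (700 + 40 * |C|)),
    ev_mul_rpow_le (a := 1/50) (b := 1) (by norm_num) 64,
    ev_log_le_rpow (b := 1/10) (by norm_num) 1, eventually_ge_atTop 2]
    with L h1 h1' h2 h3 hlog hL
  have hL1 : (1:ℝ) ≤ L := by exact_mod_cast (by omega : 1 ≤ L)
  have hL0 : (0:ℝ) < L := by linarith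
  set p := (L:ℝ) ^ (1/100 : ℝ) with hp
  have hp1 : 1 ≤ p := Real.one_le_rpow hL1 (by norm_num)
  have hkk : (kk L : ℝ) ≤ 2 * p := kk_le (by omega)
  have hpp : p ^ 2 = (L:ℝ) ^ (1/50 : ℝ) := by
    rw [hp, ← Real.rpow_natCast, ← Real.rpow_mul hL0.le]; norm_num
  have hK0 : (K0 L : ℝ) ≤ 2 * (L:ℝ) ^ (7/10 : ℝ) := by
    have h := Nat.ceil_lt_add_one (a := (L:ℝ) ^ (7/10:ℝ)) (by positivity)
    have : (1:ℝ) ≤ (L:ℝ) ^ (7/10 : ℝ) := Real.one_le_rpow hL1 (by norm_num)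
    unfold K0
    linarith
  have hK0' : (L:ℝ) ^ (7/10 : ℝ) ≤ K0 L := Nat.le_ceil _
  have hee : ee L ≤ (L:ℝ) ^ (7/10 : ℝ) := Real.rpow_le_rpow_of_exponent_le hL1 (by norm_num)
  have hk2 : ((kk L : ℝ) + 4) ^ 2 ≤ 36 * (L:ℝ) ^ (1/50:ℝ) := by
    rw [← hpp]
    have : (kk L : ℝ) + 4 ≤ 6 * p := by linarith
    calc ((kk L : ℝ) + 4) ^ 2 ≤ (6 * p) ^ 2 := pow_le_pow_left₀ (by positivity) this 2
      _ = _ := by ring
  refine ⟨?_, ?_, ?_⟩
  · have h : ((kk L : ℝ) + 3) ^ 2 ≤ (L:ℝ) + 4 := by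
      have h4 : ((kk L : ℝ) + 3) ^ 2 ≤ ((kk L : ℝ) + 4) ^ 2 := by gcongr; linarith
      rw [Real.rpow_one] at h3
      have : 0 ≤ (L:ℝ) ^ (1/50:ℝ) := by positivity
      linarith
    exact_mod_cast h
  · have : Real.log L = Real.log L := rfl
    have hl := Real.log_nonneg hL1
    linarith
  · set Q := (L:ℝ) ^ (3/4 : ℝ) with hQ
    have hQ1 : 1 ≤ Q := Real.one_le_rpow hL1 (by norm_num)
    have hA : (L:ℝ) ^ (1/50:ℝ) * (L:ℝ) ^ (7/10:ℝ) ≤ Q := by
      rw [← Real.rpow_add hL0]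
      exact Real.rpow_le_rpow_of_exponent_le hL1 (by norm_num)
    have hA' : (L:ℝ) ^ (1/50:ℝ) ≤ Q := Real.rpow_le_rpow_of_exponent_le hL1 (by norm_num)
    have hpQ : p ≤ Q := Real.rpow_le_rpow_of_exponent_le hL1 (by norm_num)
    have hB : p * Real.log L ≤ Q := by
      calc p * Real.log L ≤ p * (L:ℝ) ^ (1/10:ℝ) := by gcongr; linarith
        _ ≤ Q := by
          rw [hp, ← Real.rpow_add hL0]
          exact Real.rpow_le_rpow_of_exponent_le hL1 (by norm_num)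
    have hC : C ≤ |C| := le_abs_self C
    have hlog0 := Real.log_nonneg hL1
    have hee0 : 0 ≤ ee L := by unfold ee; positivity
    have t1 : ((kk L : ℝ) + 4) ^ 2 * (ee L + 3 * K0 L + C) ≤ (252 + 36 * |C|) * Q := by
      calc ((kk L : ℝ) + 4) ^ 2 * (ee L + 3 * K0 L + C)
          ≤ ((kk L : ℝ) + 4) ^ 2 * (7 * (L:ℝ) ^ (7/10:ℝ) + |C|) := by gcongr ?_ * ?_; linarith
        _ ≤ 36 * (L:ℝ) ^ (1/50:ℝ) * (7 * (L:ℝ) ^ (7/10:ℝ) + |C|) := by gcongr
        _ = 252 * ((L:ℝ) ^ (1/50:ℝ) * (L:ℝ) ^ (7/10:ℝ)) + 36 * |C| * (L:ℝ) ^ (1/50:ℝ) := by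
            ring
        _ ≤ 252 * Q + 36 * |C| * Q := by gcongr
        _ = _ := by ring
    have t2 : ((kk L : ℝ) + 2) * (100 * Real.log L + C) ≤ (400 + 4 * |C|) * Q := by
      calc ((kk L : ℝ) + 2) * (100 * Real.log L + C)
          ≤ ((kk L : ℝ) + 2) * (100 * Real.log L + |C|) := by gcongr
        _ ≤ (4 * p) * (100 * Real.log L + |C|) := by gcongr; linarith
        _ = 400 * (p * Real.log L) + 4 * |C| * p := by ring
        _ ≤ 400 * Q + 4 * |C| * Q := by gcongr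
        _ = _ := by ring
    unfold KK
    rw [le_div_iff₀ (by norm_num)]
    have hQC : 0 ≤ |C| * Q := by positivity
    nlinarith

lemma shape_poly_eq {K : ℝ} {L k : ℕ} (hK0 : 0 < K) (hL0 : (0:ℝ) < L) :
    ((L:ℝ) + 4) * ((L:ℝ) + 4) ^ (6 * k)
      * ((K * (L:ℝ) ^ 19) ^ (2 * k) * (L:ℝ) ^ 8 * (L:ℝ) ^ (3 * (2 * k)))
      = Real.exp ((6 * (k:ℝ) + 1) * Real.log ((L:ℝ) + 4)
        + 2 * (k:ℝ) * (Real.log K + 19 * Real.log L) + 8 * Real.log L
        + 6 * (k:ℝ) * Real.log L) := by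
  rw [Real.exp_add, Real.exp_add, Real.exp_add]
  have e : ∀ (x : ℝ) (n : ℕ), 0 < x → Real.exp ((n:ℝ) * Real.log x) = x ^ n := fun x n hx ↦ by
    rw [Real.exp_nat_mul, Real.exp_log hx]
  rw [show (6 * (k:ℝ) + 1) * Real.log ((L:ℝ) + 4)
      = ((6 * k + 1 : ℕ) : ℝ) * Real.log ((L:ℝ) + 4) by push_cast; ring,
    show 2 * (k:ℝ) * (Real.log K + 19 * Real.log L)
      = ((2 * k : ℕ) : ℝ) * Real.log (K * (L:ℝ) ^ 19) by
        rw [Real.log_mul hK0.ne' (by positivity), Real.log_pow]; push_cast; ring,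
    show 6 * (k:ℝ) * Real.log L = ((3 * (2 * k) : ℕ) : ℝ) * Real.log L by push_cast; ring,
    show 8 * Real.log (L:ℝ) = ((8 : ℕ) : ℝ) * Real.log L by norm_num,
    e _ _ (by linarith), e _ _ (by positivity), e _ _ hL0, e _ _ hL0, pow_succ]
  ring

/-- The bound for one shape. -/
lemma exists_fiber_bound :
    ∃ K C, 1 ≤ K ∧ 0 ≤ C ∧ ∀ (L σy Mb a b : ℕ) (S : Finset (Pair a b)) (key : ShapeKey L a b)
      (T : Finset (Pair a b)),
      8 ≤ L → a ≤ kk L → b ≤ kk L + 1 → sc Mb ≤ L + 4 → (∀ x ∈ S, RedPair L σy Mb a b x) →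
      (∀ x ∈ T, x ∈ S ∧ 0 < (key.1:ℕ) ∧ (∀ f, (key.2.1 f : ℕ) = sc (lev x f)) ∧
        ∃ r R, IsReal L σy Mb (fun f ↦ sc (lev x f))
          (Fin.snoc (fun i ↦ sc (x.1.1 i)) (K0 L)) (Fin.snoc (fun j ↦ sc (x.2.1 j)) (K0 L))
          key.2.2.1 key.2.2.2 r R ∧ decode key.2.2.1 r R = x ∧ realVal r R = pairVal x) →
      (T.card : ℝ) ≤ (Mb:ℝ) * (((K * (L:ℝ) ^ 19) ^ (2 * (kk L + 1)) * (L:ℝ) ^ 8
        * (L:ℝ) ^ (3 * (2 * (kk L + 1)))) * Real.exp ((((kk L : ℝ) + 4) ^ 2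
          * (ee L + 3 * K0 L + (2 * C + 4)) + 5 * Real.log L) - σy - KK L / 2)) := by
  classical
  obtain ⟨K, hK1, hcore⟩ := exists_core_count
  obtain ⟨C, hC0, hcell⟩ := exists_cell_sum_le
  refine ⟨K, C, hK1, hC0, fun L σy Mb a b S key T hL ha hb hscM hS hT ↦ ?_⟩
  have hL8 : (8:ℝ) ≤ L := by exact_mod_cast hL
  have hL1 : (1:ℝ) ≤ L := by linarith
  set k := kk L + 1 with hk
  have hKL : 1 ≤ K * (L:ℝ) ^ 19 := one_le_mul_of_one_le_of_one_le hK1 (one_le_pow₀ hL1)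
  set poly : ℝ := (K * (L:ℝ) ^ 19) ^ (2 * k) * (L:ℝ) ^ 8 * (L:ℝ) ^ (3 * (2 * k)) with hpoly
  set errv : ℝ := ((kk L : ℝ) + 4) ^ 2 * (ee L + 3 * K0 L + (2 * C + 4)) + 5 * Real.log L
    with herrv
  obtain ⟨M, σf, pos, top⟩ := key
  rcases T.eq_empty_or_nonempty with he | ⟨x₀, hx₀⟩
  · rw [he, Finset.card_empty, Nat.cast_zero]
    positivity
  obtain ⟨hx₀S, hM0, hσ₀, -⟩ := hT x₀ hx₀
  have hred := hS x₀ hx₀S
  set σ : Fin (a + 1) ⊕ Fin b → ℕ := fun f ↦ (σf f : ℕ) with hσ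
  have hσ₁ : ∀ f, σ f = sc (lev x₀ f) := hσ₀
  set τ := tauSig σ with hτ
  have hanti : Antitone τ := by
    intro i j hij
    simp only [hτ, tauSig]
    by_cases hj : j + 1 < a + 1
    · rw [dif_pos hj, dif_pos (lt_of_le_of_lt (by omega) hj)]
      rw [hσ₁, hσ₁]
      exact hred.anti (Fin.mk_le_mk.mpr (by omega))
    · rw [dif_neg hj]; exact Nat.zero_le _
  set Lam : ℝ := ∑ r ∈ Finset.range a, (acoef r + 1) * τ r + ((a:ℝ) + 1) ^ 2 * ee L with hLam
  set E : ℝ := ∑ j, (σ (.inr j) : ℝ) + K0 L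
    + ((a:ℝ) + 2) * ((b:ℝ) + 1) * (K0 L + 2 * C + 4) with hE
  have hx : ∀ x ∈ T, ∃ p : (Fin (a + 1 + 1) → Fin (b + 1) → ℕ)
      × (Fin (M:ℕ) → ℕ), (IsReal L σy Mb σ (Fin.snoc (fun i ↦ σ (.inl i)) (K0 L))
        (Fin.snoc (fun j ↦ σ (.inr j)) (K0 L)) pos top p.1 p.2 ∧
        Real.exp (-Lam) ≤ wt (collWt L a τ) (realVal p.1 p.2)) ∧ decode pos p.1 p.2 = x := by
    intro x hx
    obtain ⟨hxS, -, hσx, r, R, h1, h2, h3⟩ := hT x hx
    have hσx' : (fun f ↦ sc (lev x f)) = σ := funext fun f ↦ (hσx f).symm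
    refine ⟨(r, R), ⟨?_, ?_⟩, h2⟩
    · rw [← hσx']
      exact h1
    · rw [h3]
      exact wt_collWt_ge (hS x hxS) σ (fun f ↦ hσx f) τ hτ
  choose! g hg using hx
  have hcount := hcore (a + 1) b (M:ℕ) L σy Mb σ (Fin.snoc (fun i ↦ σ (.inl i)) (K0 L))
    (Fin.snoc (fun j ↦ σ (.inr j)) (K0 L)) pos top (collWt L a τ) Lam E
    (T.image g) (by omega) hscM hM0 (fun l ↦ Real.exp_pos _)
    (collWt_le_one L a τ) (hcell L a b σ τ hτ hanti) fun p hp ↦ by
      obtain ⟨x, hx, rfl⟩ := Finset.mem_image.mp hp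
      exact (hg x hx).1
  rw [Finset.card_image_of_injOn (Set.LeftInvOn.injOn (f₁' := fun p ↦ decode pos p.1 p.2)
    fun x hx ↦ (hg x hx).2)] at hcount
  refine hcount.trans ?_
  rw [mul_assoc]
  refine mul_le_mul_of_nonneg_left ?_ (Nat.cast_nonneg _)
  have hn : a + 1 + b ≤ 2 * k := by omega
  have hMk : (M:ℕ) ≤ 2 * k := by have := M.isLt; omega
  have hprodσ : ∏ f, ((L:ℝ) ^ 3 * Real.exp (-(σ f:ℝ)))
      = (L:ℝ) ^ (3 * (a + 1 + b)) * Real.exp (-∑ f, (σ f : ℝ)) := by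
    rw [Finset.prod_mul_distrib, Finset.prod_const, ← Real.exp_sum, Finset.sum_neg_distrib,
      ← pow_mul]
    simp [Fintype.card_sum]
  -- the exponent
  have hsum : ∑ f, (σ f : ℝ) = (σ (.inl 0) : ℝ) + ∑ r ∈ Finset.range a, (τ r : ℝ)
      + ∑ j, (σ (.inr j) : ℝ) := by
    rw [Fintype.sum_sum_type, Fin.sum_univ_succ, ← Fin.sum_univ_eq_sum_range]
    congr 2
    refine Finset.sum_congr rfl fun i _ ↦ ?_
    simp only [hτ, tauSig]
    rw [dif_pos (by omega)]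
    rfl
  have hphi : ∑ r ∈ Finset.range a, acoef r * (τ r : ℝ) + KK L / 2 ≤ σy := by
    refine le_trans (le_of_eq ?_) hred.phi
    rw [← Fin.sum_univ_eq_sum_range (fun r ↦ acoef r * (τ r : ℝ))]
    congr 1
    refine Finset.sum_congr rfl fun i _ ↦ ?_
    simp only [hτ, tauSig]
    rw [dif_pos (by omega)]
    rw [hσ₁]
    rfl
  have hhead : (σy:ℝ) ≤ 5 * Real.log L + σ (.inl 0) := by
    have h1 := hred.top.trans (mul_le_mul_of_nonneg_left (log_le_exp_sc _) (by positivity))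
    rw [show (L:ℝ) ^ 5 = Real.exp ((5:ℕ) * Real.log L) by
      rw [Real.exp_nat_mul, Real.exp_log (by linarith)], ← Real.exp_add, Real.exp_le_exp] at h1
    push_cast at h1
    rw [hσ₁]
    exact h1
  have hLamE : Lam + E - ∑ f, (σ f:ℝ) ≤ errv - KK L / 2 := by
    have ha' : (a:ℝ) ≤ kk L := by exact_mod_cast ha
    have hb' : (b:ℝ) ≤ (kk L : ℝ) + 1 := by exact_mod_cast hb
    have hee0 : 0 ≤ ee L := by unfold ee; positivity
    have e1 : ((a:ℝ) + 1) ^ 2 * ee L ≤ ((kk L : ℝ) + 4) ^ 2 * ee L := by gcongr; linarith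
    have e2 : (K0 L : ℝ) + ((a:ℝ) + 2) * ((b:ℝ) + 1) * (K0 L + 2 * C + 4)
        ≤ ((kk L : ℝ) + 4) ^ 2 * (3 * K0 L + (2 * C + 4)) := by
      have hkk0 : (0:ℝ) ≤ kk L := Nat.cast_nonneg _
      have : ((a:ℝ) + 2) * ((b:ℝ) + 1) ≤ ((kk L : ℝ) + 4) ^ 2 := by
        rw [sq]
        exact mul_le_mul (by linarith) (by linarith) (by positivity) (by linarith)
      have h16 : (1:ℝ) ≤ ((kk L : ℝ) + 4) ^ 2 := one_le_pow₀ (by linarith)
      have hK0 : (0:ℝ) ≤ K0 L := Nat.cast_nonneg _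
      have := mul_le_mul_of_nonneg_right this (by linarith : 0 ≤ (K0 L : ℝ) + 2 * C + 4)
      nlinarith
    have hsplit : ∑ r ∈ Finset.range a, (acoef r + 1) * (τ r : ℝ)
        = ∑ r ∈ Finset.range a, acoef r * (τ r : ℝ) + ∑ r ∈ Finset.range a, (τ r : ℝ) := by
      rw [← Finset.sum_add_distrib]
      exact Finset.sum_congr rfl fun r _ ↦ by ring
    rw [hsum, hLam, hE, hsplit, herrv, mul_add]
    have : ((kk L : ℝ) + 4) ^ 2 * (ee L + 3 * K0 L)
        = ((kk L : ℝ) + 4) ^ 2 * ee L + ((kk L : ℝ) + 4) ^ 2 * (3 * K0 L) := mul_add _ _ _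
    linarith
  rw [hprodσ]
  calc Real.exp (Lam + E) * ((K * (L:ℝ) ^ 19) ^ (M:ℕ) * (L:ℝ) ^ 8 * Real.exp (-(σy:ℝ))
        * ((L:ℝ) ^ (3 * (a + 1 + b)) * Real.exp (-∑ f, (σ f : ℝ))))
      = ((K * (L:ℝ) ^ 19) ^ (M:ℕ) * (L:ℝ) ^ 8 * (L:ℝ) ^ (3 * (a + 1 + b)))
        * (Real.exp (Lam + E) * Real.exp (-∑ f, (σ f : ℝ)) * Real.exp (-(σy:ℝ))) := by ring
    _ ≤ poly * Real.exp (errv - σy - KK L / 2) := by
        rw [← Real.exp_add, ← Real.exp_add, hpoly]
        gcongr <;> linarith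

/-- The number of reduced colliding pairs with given numbers of levels. -/
theorem ev_red_count :
    ∀ᶠ L : ℕ in atTop, ∀ (σy Mb a b : ℕ) (S : Finset (Pair a b)),
      a ≤ kk L → b ≤ kk L + 1 → σy ≤ L + 3 → sc Mb ≤ L + 4 →
      (∀ x ∈ S, RedPair L σy Mb a b x) →
      (S.card : ℝ) ≤ (Mb:ℝ) * Real.exp (-(σy:ℝ) - KK L / 3) := by
  classical
  obtain ⟨K, C, hK1, hC0, hfibb⟩ := exists_fiber_bound
  filter_upwards [ev_collision_margin (2 * C + 4 + 2 * Real.log K + 30), eventually_ge_atTop 8]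
    with L hmar hL σy Mb a b S ha hb hσy hscM hS
  obtain ⟨hkk, hlogK, hmargin⟩ := hmar
  have hL8 : (8:ℝ) ≤ L := by exact_mod_cast hL
  have hL1 : (1:ℝ) ≤ L := by linarith
  set k := kk L + 1 with hk
  have hkeys := card_shapeKey_le (L := L) (a := a) (b := b) (k := k) (by omega) (by omega)
    (by omega) hkk
  set F : ShapeKey L a b → Finset (Pair a b) := fun key ↦ S.filter fun x ↦
    0 < (key.1:ℕ) ∧ (∀ f, (key.2.1 f : ℕ) = sc (lev x f)) ∧
    ∃ r R, IsReal L σy Mb (fun f ↦ sc (lev x f))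
      (Fin.snoc (fun i ↦ sc (x.1.1 i)) (K0 L)) (Fin.snoc (fun j ↦ sc (x.2.1 j)) (K0 L))
      key.2.2.1 key.2.2.2 r R ∧ decode key.2.2.1 r R = x ∧ realVal r R = pairVal x
    with hF
  have hcover : S ⊆ Finset.univ.biUnion F := by
    intro x hx
    obtain ⟨M, hM0, hMle, pos, top, r, R, h1, h2, h3⟩ := exists_shape hlogK (hS x hx)
    refine Finset.mem_biUnion.mpr ⟨⟨⟨M, by omega⟩, fun f ↦ ⟨sc (lev x f),
      by have := ((hS x hx).scale f).2; omega⟩, pos, top⟩, Finset.mem_univ _, ?_⟩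
    exact Finset.mem_filter.mpr ⟨hx, hM0, fun f ↦ rfl, r, R, h1, h2, h3⟩
  have hKL : 1 ≤ K * (L:ℝ) ^ 19 := one_le_mul_of_one_le_of_one_le hK1 (one_le_pow₀ hL1)
  set poly : ℝ := (K * (L:ℝ) ^ 19) ^ (2 * k) * (L:ℝ) ^ 8 * (L:ℝ) ^ (3 * (2 * k)) with hpoly
  set errv : ℝ := ((kk L : ℝ) + 4) ^ 2 * (ee L + 3 * K0 L + (2 * C + 4)) + 5 * Real.log L
    with herrv
  have hfib : ∀ key, ((F key).card : ℝ)
      ≤ (Mb:ℝ) * (poly * Real.exp (errv - σy - KK L / 2)) := fun key ↦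
    hfibb L σy Mb a b S key (F key) hL ha hb hscM hS fun x hx ↦ Finset.mem_filter.mp hx
  have hcard : (S.card : ℝ) ≤ (Fintype.card (ShapeKey L a b) : ℝ)
      * ((Mb:ℝ) * (poly * Real.exp (errv - σy - KK L / 2))) := by
    calc (S.card : ℝ) ≤ ∑ key, ((F key).card : ℝ) := by
          exact_mod_cast (Finset.card_le_card hcover).trans Finset.card_biUnion_le
      _ ≤ _ := by
          refine (Finset.sum_le_sum fun key _ ↦ hfib key).trans (le_of_eq ?_)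
          rw [Finset.sum_const, Finset.card_univ, nsmul_eq_mul]
  refine hcard.trans (le_trans (mul_le_mul_of_nonneg_right hkeys (by positivity)) ?_)
  rw [← mul_assoc, mul_comm _ (Mb:ℝ), mul_assoc]
  refine mul_le_mul_of_nonneg_left ?_ (Nat.cast_nonneg _)
  have hl0 := Real.log_nonneg hL1
  have hlK := Real.log_nonneg hK1
  have hl4 : Real.log ((L:ℝ) + 4) ≤ 2 * Real.log L := by
    rw [show 2 * Real.log (L:ℝ) = Real.log ((L:ℝ) ^ 2) by rw [Real.log_pow]; push_cast; ring]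
    exact Real.log_le_log (by linarith) (by nlinarith)
  have hK0 : (0:ℝ) < K := by linarith
  have hL0 : (0:ℝ) < L := by linarith
  have hkey := shape_poly_eq (k := k) hK0 hL0
  rw [← mul_assoc, hpoly, hkey, ← Real.exp_add]
  refine Real.exp_le_exp.mpr ?_
  have hkR : (k:ℝ) = (kk L : ℝ) + 1 := by rw [hk]; push_cast; ring
  have h6 : (6 * (k:ℝ) + 1) * Real.log ((L:ℝ) + 4) ≤ (6 * (k:ℝ) + 1) * (2 * Real.log L) :=
    mul_le_mul_of_nonneg_left hl4 (by positivity)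
  rw [herrv]
  rw [hkR] at h6 ⊢
  have hk0 : (0:ℝ) ≤ kk L := Nat.cast_nonneg _
  nlinarith [mul_nonneg hk0 hl0, mul_nonneg hk0 hlK, mul_nonneg hk0 hC0,
    mul_nonneg (sq_nonneg ((kk L : ℝ) + 4)) (by linarith : 0 ≤ 2 * Real.log K + 30)]

end Vale.Agent.P031
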