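import Mathlib
import Vale.Agent.P031.CollisionFixed

/-!
Collision, part 3: cancel the common levels and sum over them.
-/

namespace Vale.Agent.P031

open Finset Real Filter Topology

lemma Phid_sublist {l l' : List ℝ} (h : l.Sublist l') :
    (∀ x ∈ l', 0 ≤ x) → ∀ d, Phid d l ≤ Phid d l' := by
  induction h with
  | slnil => intro _ d; exact le_rfl
  | @cons l₁ l₂ x h ih =>
    intro hl d
    have hl2 := fun y hy ↦ hl y (List.mem_cons_of_mem _ hy)
    rw [Phid_cons]
    have h1 := ih hl2 d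
    have h2 := Phid_mono_index l₂ hl2 d (d + 1) (by omega)
    have h3 := mul_nonneg (acoef_nonneg d) (hl x List.mem_cons_self)
    linarith
  | cons_cons x h ih =>
    intro hl d
    rw [Phid_cons, Phid_cons]
    exact add_le_add le_rfl (ih (fun y hy ↦ hl y (List.mem_cons_of_mem _ hy)) (d + 1))

lemma Phi_sublist {l l' : List ℕ} (h : l.Sublist l') : Phi l ≤ Phi l' :=
  Phid_sublist (h.map _) (scs_nonneg l') 0

lemma prod_getD_pred (l : List ℕ) {n : ℕ} (h : l.length = n) :
    ∏ i : Fin n, (l.getD i 0 - 1) = prodPred l := by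
  subst h
  rw [← List.prod_ofFn, prodPred]
  congr 1
  refine List.ext_getElem (by simp) fun i h1 h2 ↦ ?_
  simp at h1
  simp [List.getD_eq_getElem _ _ h1]

lemma prodPred_eq_finset {l : List ℕ} (h : l.Nodup) :
    prodPred l = ∏ p ∈ l.toFinset, (p - 1) := by
  rw [prodPred, List.prod_toFinset _ h]

lemma sorted_nodup {l : List ℕ} (h : l.Pairwise (· > ·)) : l.Nodup :=
  h.imp fun {a b} hab ↦ Nat.ne_of_gt hab

lemma sorted_ext {l l' : List ℕ} (h : l.Pairwise (· > ·)) (h' : l'.Pairwise (· > ·))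
    (he : l.toFinset = l'.toFinset) : l = l' :=
  (List.perm_of_nodup_nodup_toFinset_eq (sorted_nodup h) (sorted_nodup h') he).eq_of_pairwise
    (fun a b _ _ hab hba ↦ absurd hab (not_lt.mpr (le_of_lt hba))) h h'

/-- The common levels of two configurations. -/
def commonLev (x : (List ℕ × ℕ) × (List ℕ × ℕ)) : Finset ℕ :=
  x.1.1.toFinset ∩ x.2.1.toFinset

/-- The levels of `l` outside `C`. -/
def redLev (C : Finset ℕ) (l : List ℕ) : List ℕ := l.filter fun p ↦ p ∉ C

lemma redLev_toFinset {C : Finset ℕ} {l : List ℕ} (hC : C ⊆ l.toFinset) :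
    l.toFinset = C ∪ (redLev C l).toFinset ∧ Disjoint C (redLev C l).toFinset := by
  refine ⟨?_, ?_⟩
  · ext p
    simp only [redLev, Finset.mem_union, List.mem_toFinset, List.mem_filter, decide_eq_true_eq]
    constructor
    · intro h
      by_cases hp : p ∈ C
      · exact Or.inl hp
      · exact Or.inr ⟨h, hp⟩
    · rintro (h | h)
      · exact List.mem_toFinset.mp (hC h)
      · exact h.1
  · rw [Finset.disjoint_left]
    intro p hp hp'
    simp only [redLev, List.mem_toFinset, List.mem_filter, decide_eq_true_eq] at hp'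
    exact hp'.2 hp

lemma prodPred_redLev {C : Finset ℕ} {l : List ℕ} (hl : l.Nodup) (hC : C ⊆ l.toFinset) :
    prodPred l = (∏ p ∈ C, (p - 1)) * prodPred (redLev C l) := by
  obtain ⟨h1, h2⟩ := redLev_toFinset hC
  have h3 : (redLev C l).Nodup := hl.filter _
  rw [prodPred_eq_finset hl, prodPred_eq_finset h3, h1, Finset.prod_union h2]

/-- The data of one fibre of the map to the common levels. -/
structure InFiber (C : Finset ℕ) (n1 n2 : ℕ) (x : (List ℕ × ℕ) × (List ℕ × ℕ)) : Prop where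
  common : commonLev x = C
  len1 : (redLev C x.1.1).length = n1
  len2 : (redLev C x.2.1).length = n2

/-- The reduced pair. -/
def toPair (C : Finset ℕ) (a b : ℕ) (x : (List ℕ × ℕ) × (List ℕ × ℕ)) : Pair a b :=
  ((fun i ↦ (redLev C x.1.1).getD i 0, x.1.2), (fun j ↦ (redLev C x.2.1).getD j 0, x.2.2))

lemma CollCfg.head_gap {L y : ℕ} {c : List ℕ × ℕ} (h : CollCfg L y c) (hL : 1 ≤ L)
    (hgap : 5 * Real.log L < KK L / 2) {q : ℕ} {qs : List ℕ} (hc : c.1 = q :: qs)
    {y' : List ℕ × ℕ} (h' : CollCfg L y y') {q' : ℕ} {qs' : List ℕ} (hc' : y'.1 = q' :: qs') :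
    q ∉ qs' := by
  intro hmem
  obtain ⟨q0, qs0, he, -, -, -, -, -, -, -, -, htop, -, -⟩ := h
  obtain ⟨q1, qs1, he', -, -, -, -, -, -, -, -, -, hgapx, -⟩ := h'
  rw [hc, List.cons.injEq] at he
  rw [hc', List.cons.injEq] at he'
  obtain ⟨rfl, -⟩ := he
  obtain ⟨-, rfl⟩ := he'
  have h1 := hgapx q hmem
  have hL0 : (0:ℝ) < L := by exact_mod_cast hL
  have h2 := htop.trans (mul_le_mul_of_nonneg_left (log_le_exp_sc q) (by positivity))
  rw [show (L:ℝ) ^ 5 = Real.exp ((5:ℕ) * Real.log L) by rw [Real.exp_nat_mul, Real.exp_log hL0],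
    ← Real.exp_add, Real.exp_le_exp] at h2
  push_cast at h2
  linarith

lemma redPair_toPair {L y : ℕ} {C : Finset ℕ} {a b : ℕ}
    {x : (List ℕ × ℕ) × (List ℕ × ℕ)} (hL : 1 ≤ L) (hgap : 5 * Real.log L < KK L / 2)
    (h1 : CollCfg L y x.1) (h2 : CollCfg L y x.2)
    (heq : cval x.1.1 x.1.2 = cval x.2.1 x.2.2) (hne : x.1.1.head? ≠ x.2.1.head?)
    (hf : InFiber C (a + 1) b x) :
    RedPair L (sc y) (y / ∏ p ∈ C, (p - 1)) a b (toPair C a b x) := by
  obtain ⟨hcom, hlen1, hlen2⟩ := hf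
  have g1 := fun {q qs} (hc : x.1.1 = q :: qs) {q' qs'} (hc' : x.2.1 = q' :: qs') ↦
    h1.head_gap hL hgap hc h2 hc'
  have g2 := fun {q qs} (hc : x.2.1 = q :: qs) {q' qs'} (hc' : x.1.1 = q' :: qs') ↦
    h2.head_gap hL hgap hc h1 hc'
  obtain ⟨q, qs, hc, hsort, hnorm, hscale, -, hw, hsmall, hsqf, hle, htop, hg, hphi⟩ := h1
  obtain ⟨q', qs', hc', hsort', hnorm', hscale', -, hw', hsmall', -, -, -, -, -⟩ := h2
  set l1 := redLev C x.1.1 with hl1
  set l2 := redLev C x.2.1 with hl2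
  have hs1 : l1.Pairwise (· > ·) := hsort.filter _
  have hs2 : l2.Pairwise (· > ·) := hsort'.filter _
  have hCsub : C ⊆ x.1.1.toFinset ∧ C ⊆ x.2.1.toFinset := by
    rw [← hcom]
    exact ⟨Finset.inter_subset_left, Finset.inter_subset_right⟩
  have hne' : q ≠ q' := by
    intro he
    exact hne (by rw [hc, hc', he]; rfl)
  have hqC : q ∉ C := by
    intro hq
    have := List.mem_toFinset.mp (hCsub.2 hq)
    rw [hc', List.mem_cons] at this
    exact this.elim hne' (g1 hc hc')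
  have hcons : l1 = q :: redLev C qs := by
    rw [hl1, hc, redLev, List.filter_cons_of_pos (by simpa using hqC)]
    rfl
  have hmem1 : ∀ i : Fin (a + 1), l1.getD i 0 ∈ l1 := fun i ↦ by
    rw [List.getD_eq_getElem _ _ (hlen1.symm ▸ i.isLt)]
    exact List.getElem_mem _
  have hmem2 : ∀ i : Fin b, l2.getD i 0 ∈ l2 := fun i ↦ by
    rw [List.getD_eq_getElem _ _ (hlen2.symm ▸ i.isLt)]
    exact List.getElem_mem _
  have hsub1 : ∀ p ∈ l1, p ∈ x.1.1 ∧ p ∉ C := fun p hp ↦ by
    simpa [hl1, redLev, List.mem_filter] using hp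
  have hsub2 : ∀ p ∈ l2, p ∈ x.2.1 ∧ p ∉ C := fun p hp ↦ by
    simpa [hl2, redLev, List.mem_filter] using hp
  have hval : pairVal (toPair C a b x) = prodPred l1 * x.1.2 := by
    simp only [pairVal, toPair, ← hl1]
    rw [prod_getD_pred l1 hlen1]
  have hval2 : (∏ j : Fin b, ((toPair C a b x).2.1 j - 1)) * (toPair C a b x).2.2
      = prodPred l2 * x.2.2 := by
    simp only [toPair, ← hl2]
    rw [prod_getD_pred l2 hlen2]
  set PC := ∏ p ∈ C, (p - 1) with hPC
  have hPC0 : 0 < PC := by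
    refine Finset.prod_pos fun p hp ↦ ?_
    have := (hnorm p (List.mem_toFinset.mp (hCsub.1 hp))).prime.two_le
    omega
  have hfull : cval x.1.1 x.1.2 = PC * (prodPred l1 * x.1.2) := by
    rw [cval, prodPred_redLev (sorted_nodup hsort) hCsub.1, mul_assoc]
  have hfull2 : cval x.2.1 x.2.2 = PC * (prodPred l2 * x.2.2) := by
    rw [cval, prodPred_redLev (sorted_nodup hsort') hCsub.2, mul_assoc]
  refine ⟨?_, ?_, ?_, hsmall, hsmall', hw, hw', ?_, ?_, ?_, ?_, ?_, ?_⟩
  · rintro (i | j)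
    · exact hnorm _ (hsub1 _ (hmem1 i)).1
    · exact hnorm' _ (hsub2 _ (hmem2 j)).1
  · rintro (i | j)
    · exact hscale _ (hsub1 _ (hmem1 i)).1
    · exact hscale' _ (hsub2 _ (hmem2 j)).1
  · have hcross : ∀ p ∈ l1, p ∈ l2 → False := by
      intro p hp hp2
      obtain ⟨hp1, hpC⟩ := hsub1 p hp
      refine hpC ?_
      rw [← hcom, commonLev, Finset.mem_inter]
      exact ⟨List.mem_toFinset.mpr hp1, List.mem_toFinset.mpr (hsub2 p hp2).1⟩
    rintro (i | i) (j | j) hij <;> simp only [lev, toPair, Sum.elim_inl, Sum.elim_inr] at hij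
    · rw [List.getD_eq_getElem _ _ (hlen1.symm ▸ i.isLt), List.getD_eq_getElem _ _ (hlen1.symm ▸ j.isLt),
        (sorted_nodup hs1).getElem_inj_iff] at hij
      rw [Fin.ext hij]
    · exact (hcross _ (hmem1 i) (hij ▸ hmem2 j)).elim
    · exact (hcross _ (hmem1 j) (hij ▸ hmem2 i)).elim
    · rw [List.getD_eq_getElem _ _ (hlen2.symm ▸ i.isLt), List.getD_eq_getElem _ _ (hlen2.symm ▸ j.isLt),
        (sorted_nodup hs2).getElem_inj_iff] at hij
      rw [Fin.ext hij]
  · rw [hval, hval2]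
    exact Nat.eq_of_mul_eq_mul_left hPC0 (by rw [← hfull, ← hfull2, heq])
  · rw [hval]
    exact hsqf.of_dvd (hfull ▸ dvd_mul_left _ _)
  · rw [hval, Nat.le_div_iff_mul_le hPC0, mul_comm, ← hfull]
    exact hle
  · intro i j hij
    exact antitone_sc_getD hs1 (Fin.le_def.mp hij)
  · have hq : (toPair C a b x).1.1 0 = q := by
      simp [toPair, ← hl1, hcons]
    rw [hq]
    exact htop
  · refine le_trans (add_le_add ?_ le_rfl) hphi
    have hlen : (redLev C qs).length = a := by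
      have := hlen1
      rw [hcons] at this
      simpa using this
    calc ∑ i : Fin a, acoef i * (sc ((toPair C a b x).1.1 i.succ) : ℝ)
        = PhiK a (redLev C qs) := by
          rw [PhiK, ← Fin.sum_univ_eq_sum_range
            (fun r ↦ acoef r * (sc ((redLev C qs).getD r 0) : ℝ))]
          refine Finset.sum_congr rfl fun i _ ↦ ?_
          simp [toPair, ← hl1, hcons]
      _ = Phi (redLev C qs) := (Phi_eq_PhiK hlen.le).symm
      _ ≤ Phi qs := Phi_sublist List.filter_sublist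

lemma ev_collision_sum_margin (C : ℝ) : ∀ᶠ L : ℕ in atTop,
    5 * Real.log L < KK L / 2 ∧
    2 * Real.log ((kk L : ℝ) + 2) + ((kk L : ℝ) + 1) * Real.log (1 + 2 * ((L:ℝ) + 3 + C))
        + (L:ℝ) ^ (3/4:ℝ) ≤ KK L / 3 := by
  filter_upwards [ev_mul_rpow_le (a := 3/4) (b := 4/5) (by norm_num) (3 * (40 + 8 * |C|)),
    ev_log_le_rpow (b := 1/10) (by norm_num) 1, eventually_ge_atTop 2] with L h1 hlog hL
  have hL1 : (1:ℝ) ≤ L := by exact_mod_cast (by omega : 1 ≤ L)
  have hL0 : (0:ℝ) < L := by linarith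
  set p := (L:ℝ) ^ (1/100 : ℝ) with hp
  set Q := (L:ℝ) ^ (3/4 : ℝ) with hQ
  have hp1 : 1 ≤ p := Real.one_le_rpow hL1 (by norm_num)
  have hkk : (kk L : ℝ) ≤ 2 * p := kk_le (by omega)
  have hkk0 : (0:ℝ) ≤ kk L := Nat.cast_nonneg _
  have hpQ : p ≤ Q := Real.rpow_le_rpow_of_exponent_le hL1 (by norm_num)
  have hl0 := Real.log_nonneg hL1
  rw [one_mul] at hlog
  have hpl : p * Real.log L ≤ Q := by
    calc p * Real.log L ≤ p * (L:ℝ) ^ (1/10:ℝ) := by gcongr
      _ ≤ Q := by
        rw [hp, ← Real.rpow_add hL0]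
        exact Real.rpow_le_rpow_of_exponent_le hL1 (by norm_num)
  have hlQ : Real.log L ≤ Q := le_trans (le_mul_of_one_le_left hl0 hp1) hpl
  have hC := le_abs_self C
  refine ⟨?_, ?_⟩
  · unfold KK
    nlinarith [abs_nonneg C, mul_nonneg (abs_nonneg C) (le_trans (by positivity) hpQ : 0 ≤ Q),
      Real.one_le_rpow hL1 (by norm_num : (0:ℝ) ≤ 3/4)]
  have e1 : Real.log ((kk L : ℝ) + 2) ≤ (kk L : ℝ) + 2 :=
    (Real.log_le_sub_one_of_pos (by linarith)).trans (by linarith)
  have e2 : Real.log (1 + 2 * ((L:ℝ) + 3 + C)) ≤ 9 + 2 * |C| + Real.log L := by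
    rcases le_or_gt (1 + 2 * ((L:ℝ) + 3 + C)) 1 with h | h
    · rcases le_or_gt (1 + 2 * ((L:ℝ) + 3 + C)) (-1) with h' | h'
      · have : Real.log (1 + 2 * ((L:ℝ) + 3 + C))
            = Real.log (-(1 + 2 * ((L:ℝ) + 3 + C))) := (Real.log_neg_eq_log _).symm
        rw [this]
        have hb := Real.log_le_sub_one_of_pos
          (show (0:ℝ) < -(1 + 2 * ((L:ℝ) + 3 + C)) by linarith)
        linarith [neg_le_abs C]
      · have hab : |1 + 2 * ((L:ℝ) + 3 + C)| ≤ 1 := abs_le.mpr ⟨h'.le, h⟩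
        rw [← Real.log_abs]
        exact le_trans (Real.log_nonpos (abs_nonneg _) hab) (by linarith [abs_nonneg C])
    · calc Real.log (1 + 2 * ((L:ℝ) + 3 + C)) ≤ Real.log ((9 + 2 * |C|) * L) := by
            refine Real.log_le_log (by linarith) ?_
            nlinarith [abs_nonneg C]
        _ = Real.log (9 + 2 * |C|) + Real.log L :=
            Real.log_mul (by positivity) hL0.ne'
        _ ≤ _ := by
            have := Real.log_le_sub_one_of_pos (show (0:ℝ) < 9 + 2 * |C| by positivity)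
            linarith
  have e3 := mul_le_mul_of_nonneg_left e2 (by linarith : 0 ≤ (kk L : ℝ) + 1)
  have e4 : ((kk L : ℝ) + 1) * (9 + 2 * |C| + Real.log L) ≤ (30 + 6 * |C|) * Q := by
    calc ((kk L : ℝ) + 1) * (9 + 2 * |C| + Real.log L)
        ≤ (3 * p) * (9 + 2 * |C| + Real.log L) := by gcongr; linarith
      _ = (27 + 6 * |C|) * p + 3 * (p * Real.log L) := by ring
      _ ≤ (27 + 6 * |C|) * Q + 3 * Q := by gcongr
      _ = _ := by ring
  unfold KK
  nlinarith [abs_nonneg C, mul_nonneg (abs_nonneg C) (le_trans (by positivity) hpQ : 0 ≤ Q)]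

/-- **Collision bound.** -/
theorem collisionBound : CollisionBound := by
  classical
  obtain ⟨C, hC0, hC⟩ := exists_abs_sum_primesSc
  unfold CollisionBound
  filter_upwards [ev_red_count, ev_collision_sum_margin C, eventually_ge_atTop 1]
    with L hred hmar hL1 y S hy hS
  obtain ⟨hgap, hmargin⟩ := hmar
  set X := Real.exp (-(sc y : ℝ) - KK L / 3) with hX
  set Cands := (primesSc (L + 3)).powerset.filter fun s ↦ s.card ≤ kk L + 1 with hCands
  set keys := Cands ×ˢ (Finset.range (kk L + 2) ×ˢ Finset.range (kk L + 2)) with hkeys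
  set F : Finset ℕ × ℕ × ℕ → Finset ((List ℕ × ℕ) × (List ℕ × ℕ)) :=
    fun k ↦ S.filter fun x ↦ InFiber k.1 k.2.1 k.2.2 x with hF
  have hcover : S ⊆ keys.biUnion F := by
    intro x hx
    obtain ⟨h1, h2, -, -⟩ := hS x hx
    refine Finset.mem_biUnion.mpr ⟨(commonLev x, (redLev (commonLev x) x.1.1).length,
      (redLev (commonLev x) x.2.1).length), ?_, Finset.mem_filter.mpr ⟨hx, rfl, rfl, rfl⟩⟩
    obtain ⟨q, qs, -, hsort, -, hscale, hlen, -, -, -, -, -, -, -⟩ := h1
    obtain ⟨q', qs', -, -, -, -, hlen', -, -, -, -, -, -, -⟩ := h2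
    simp only [hkeys, hCands, Finset.mem_product, Finset.mem_filter, Finset.mem_powerset,
      Finset.mem_range]
    refine ⟨⟨?_, ?_⟩, ?_, ?_⟩
    · intro p hp
      have hp1 := List.mem_toFinset.mp (Finset.mem_inter.mp hp).1
      exact mem_primesSc.mpr ⟨((hS x hx).1.elim fun q h ↦ h.elim fun qs h ↦ h.2.2.1 p hp1).prime,
        (hscale p hp1).2⟩
    · exact ((Finset.card_le_card Finset.inter_subset_left).trans
        (List.toFinset_card_le _)).trans hlen
    · have := List.length_filter_le (fun p ↦ decide (p ∉ commonLev x)) x.1.1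
      unfold redLev
      omega
    · have := List.length_filter_le (fun p ↦ decide (p ∉ commonLev x)) x.2.1
      unfold redLev
      omega
  have hfib : ∀ k ∈ keys, ((F k).card : ℝ)
      ≤ (y:ℝ) * X * ∏ p ∈ k.1, (2 / (p:ℝ)) := by
    intro k hk
    obtain ⟨Cs, n1, n2⟩ := k
    simp only [hkeys, hCands, Finset.mem_product, Finset.mem_filter, Finset.mem_powerset,
      Finset.mem_range] at hk
    obtain ⟨⟨hsub, -⟩, hn1, hn2⟩ := hk
    have hX0 : 0 ≤ (y:ℝ) * X * ∏ p ∈ Cs, (2 / (p:ℝ)) := by positivity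
    rcases (F (Cs, n1, n2)).eq_empty_or_nonempty with he | ⟨x₀, hx₀⟩
    · rw [he, Finset.card_empty, Nat.cast_zero]; exact hX0
    obtain ⟨hx₀S, hf₀⟩ := Finset.mem_filter.mp hx₀
    obtain ⟨a, rfl⟩ : ∃ a, n1 = a + 1 := by
      refine ⟨n1 - 1, ?_⟩
      have hl := hf₀.len1
      have hcm := hf₀.common
      simp only at hl hcm
      obtain ⟨q, qs, hc, -⟩ := (hS x₀ hx₀S).1
      obtain ⟨q', qs', hc', -⟩ := (hS x₀ hx₀S).2.1
      have hqC : q ∉ Cs := by
        intro hq
        rw [← hcm, commonLev, Finset.mem_inter, List.mem_toFinset, List.mem_toFinset,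
          hc', List.mem_cons] at hq
        rcases hq.2 with h | h
        · exact (hS x₀ hx₀S).2.2.2 (by rw [hc, hc', h]; rfl)
        · exact (hS x₀ hx₀S).1.head_gap hL1 hgap hc (hS x₀ hx₀S).2.1 hc' h
      have : q ∈ redLev Cs x₀.1.1 := by
        rw [redLev, List.mem_filter]
        exact ⟨by rw [hc]; exact List.mem_cons_self, by simpa using hqC⟩
      have := List.length_pos_of_mem this
      omega
    have hPC0 : ∀ p ∈ Cs, 2 ≤ p := fun p hp ↦ (mem_primesSc.mp (hsub hp)).1.two_le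
    set Mb := y / ∏ p ∈ Cs, (p - 1) with hMb
    have hinj : Set.InjOn (toPair Cs a n2) (F (Cs, a + 1, n2) : Set _) := by
      intro u hu v hv he
      rw [Finset.mem_coe, hF, Finset.mem_filter] at hu hv
      obtain ⟨huS, hu1, hu2, hu3⟩ := hu
      obtain ⟨hvS, hv1, hv2, hv3⟩ := hv
      simp only [toPair, Prod.mk.injEq, funext_iff] at he
      obtain ⟨⟨e1, e2⟩, e3, e4⟩ := he
      have key : ∀ (l m : List ℕ) (n : ℕ), l.length = n → m.length = n →
          (∀ i : Fin n, l.getD i 0 = m.getD i 0) → l = m := by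
        intro l m n hl hm h
        refine List.ext_getElem (hl.trans hm.symm) fun i h1 h2 ↦ ?_
        have := h ⟨i, hl ▸ h1⟩
        rwa [List.getD_eq_getElem _ _ h1, List.getD_eq_getElem _ _ h2] at this
      obtain ⟨q, qs, -, hus, -⟩ := (hS u huS).1
      obtain ⟨q, qs, -, hus', -⟩ := (hS u huS).2.1
      obtain ⟨q, qs, -, hvs, -⟩ := (hS v hvS).1
      obtain ⟨q, qs, -, hvs', -⟩ := (hS v hvS).2.1
      simp only at hu1 hu2 hu3 hv1 hv2 hv3
      have hsubu : Cs ⊆ u.1.1.toFinset ∧ Cs ⊆ u.2.1.toFinset :=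
        hu1 ▸ ⟨Finset.inter_subset_left, Finset.inter_subset_right⟩
      have hsubv : Cs ⊆ v.1.1.toFinset ∧ Cs ⊆ v.2.1.toFinset :=
        hv1 ▸ ⟨Finset.inter_subset_left, Finset.inter_subset_right⟩
      refine Prod.ext (Prod.ext (sorted_ext hus hvs ?_) e2) (Prod.ext (sorted_ext hus' hvs' ?_) e4)
      · rw [(redLev_toFinset hsubu.1).1, (redLev_toFinset hsubv.1).1, key _ _ _ hu2 hv2 e1]
      · rw [(redLev_toFinset hsubu.2).1, (redLev_toFinset hsubv.2).1, key _ _ _ hu3 hv3 e3]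
    have hcount := hred (sc y) Mb a n2 ((F (Cs, a + 1, n2)).image (toPair Cs a n2)) (by omega)
      (by omega) hy (((sc_mono (Nat.div_le_self _ _)).trans hy).trans (by omega)) fun p hp ↦ by
        obtain ⟨x, hx, rfl⟩ := Finset.mem_image.mp hp
        obtain ⟨hxS, hxf⟩ := Finset.mem_filter.mp hx
        obtain ⟨h1, h2, h3, h4⟩ := hS x hxS
        exact redPair_toPair hL1 hgap h1 h2 h3 h4 hxf
    rw [Finset.card_image_of_injOn hinj] at hcount
    refine hcount.trans ?_
    rw [mul_right_comm]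
    refine mul_le_mul_of_nonneg_right ?_ (Real.exp_pos _).le
    refine Nat.cast_div_le.trans ?_
    push_cast
    rw [div_eq_mul_inv, ← Finset.prod_inv_distrib]
    refine mul_le_mul_of_nonneg_left (Finset.prod_le_prod (fun p _ ↦ by positivity) fun p hp ↦ ?_)
      (Nat.cast_nonneg _)
    have hp2 : (2:ℝ) ≤ p := by exact_mod_cast hPC0 p hp
    rw [Nat.cast_sub (by have := hPC0 p hp; omega), Nat.cast_one, inv_eq_one_div,
      div_le_div_iff₀ (by linarith) (by linarith)]
    linarith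
  have hsum : ∑ k ∈ keys, ∏ p ∈ k.1, (2 / (p:ℝ))
      ≤ ((kk L : ℝ) + 2) ^ 2 * (1 + 2 * ((L:ℝ) + 3 + C)) ^ (kk L + 1) := by
    rw [hkeys, Finset.sum_product]
    simp only [Finset.sum_const, Finset.card_product, Finset.card_range, nsmul_eq_mul]
    rw [← Finset.mul_sum]
    push_cast
    rw [sq]
    refine mul_le_mul_of_nonneg_left ?_ (by positivity)
    rw [hCands, Finset.sum_filter]
    refine (sum_small_subsets_le (fun p : ℕ ↦ 2 / (p:ℝ)) _ (fun p ↦ by positivity) _).trans ?_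
    refine pow_le_pow_left₀ (by positivity) ?_ _
    have h := (abs_le.mp (hC (L + 3))).2
    push_cast at h
    have e : ∑ p ∈ primesSc (L + 3), 2 / (p:ℝ) = 2 * ∑ p ∈ primesSc (L + 3), (1:ℝ) / p := by
      rw [Finset.mul_sum]; exact Finset.sum_congr rfl fun p _ ↦ by ring
    rw [e]
    linarith
  calc (S.card : ℝ) ≤ ∑ k ∈ keys, ((F k).card : ℝ) := by
        exact_mod_cast (Finset.card_le_card hcover).trans Finset.card_biUnion_le
    _ ≤ ∑ k ∈ keys, (y:ℝ) * X * ∏ p ∈ k.1, (2 / (p:ℝ)) := Finset.sum_le_sum hfib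
    _ ≤ (y:ℝ) * X * (((kk L : ℝ) + 2) ^ 2 * (1 + 2 * ((L:ℝ) + 3 + C)) ^ (kk L + 1)) := by
        rw [← Finset.mul_sum]
        exact mul_le_mul_of_nonneg_left hsum (by positivity)
    _ ≤ _ := by
        have hpos : 0 < 1 + 2 * ((L:ℝ) + 3 + C) := by
          linarith [Nat.cast_nonneg (α := ℝ) L]
        rw [← Real.exp_log (show (0:ℝ) < ((kk L : ℝ) + 2) ^ 2 by positivity),
          ← Real.exp_log (show (0:ℝ) < (1 + 2 * ((L:ℝ) + 3 + C)) ^ (kk L + 1) by positivity),
          hX, ← Real.exp_add, mul_assoc, ← Real.exp_add]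
        rw [div_mul_eq_mul_div, mul_div_assoc, ← Real.exp_sub]
        refine mul_le_mul_of_nonneg_left (Real.exp_le_exp.mpr ?_) (Nat.cast_nonneg _)
        rw [Real.log_pow, Real.log_pow]
        push_cast
        linarith

end Vale.Agent.P031
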