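import Mathlib
import Vale.Agent.P031.Collision
import Vale.Agent.P031.BandDefs

/-!
Configurations with well separated top levels, and their collisions weighted by `1 / value`.
-/

namespace Vale.Agent.P031

open Finset Real Filter Topology

/-- The top level is well above the rest. -/
def LeadTop (L q : ℕ) (rest : List ℕ) : Prop :=
  sc q ≤ L ∧ (∀ x ∈ rest, (sc x : ℝ) + KK L ≤ sc q) ∧ Phi rest + KK L ≤ sc q

/-- The top `k` levels are well separated. -/
def Lead (L : ℕ) : ℕ → List ℕ × ℕ → Prop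
  | 0, c => Chain L c.1 c.2 ∧ SqfBig L (cval c.1 c.2)
  | k + 1, c => ∃ q rest, c.1 = q :: rest ∧ LeadTop L q rest ∧ Chain L c.1 c.2 ∧
      SqfBig L (cval c.1 c.2) ∧ Lead L k (rest, c.2)

/-- Weighted collisions between configurations with different top levels. -/
lemma ev_lead_coll :
    ∀ᶠ L : ℕ in atTop, ∀ P : Finset ((List ℕ × ℕ) × (List ℕ × ℕ)),
      (∀ x ∈ P,
        (∃ q rest, x.1.1 = q :: rest ∧ LeadTop L q rest ∧ Chain L x.1.1 x.1.2 ∧
          SqfBig L (cval x.1.1 x.1.2)) ∧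
        (∃ q rest, x.2.1 = q :: rest ∧ LeadTop L q rest ∧ Chain L x.2.1 x.2.2 ∧
          SqfBig L (cval x.2.1 x.2.2)) ∧
        cval x.1.1 x.1.2 = cval x.2.1 x.2.2 ∧ x.1.1.head? ≠ x.2.1.head?) →
      ∑ x ∈ P, (1:ℝ) / (cval x.1.1 x.1.2 : ℕ) ≤ Real.exp (-((L:ℝ) ^ (1/2 : ℝ))) := by
  filter_upwards [(collisionBound : CollisionBound), ev_K0_small,
    ev_poly_mul_exp (a := 1/2) (b := 3/4) (by norm_num) (by norm_num) 40 1 1 (by norm_num),
    ev_log_le_rpow (b := 4/5) (by norm_num) 40, ev_const_le_rpow (b := 4/5) (by norm_num) 100,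
    ev_mul_rpow_le (a := 7/10) (b := 4/5) (by norm_num) 8, eventually_ge_atTop 20]
    with L hcoll hK0 hpoly hlogKK hKK hK0KK hL P hP
  have hL20 : (20:ℝ) ≤ L := by exact_mod_cast hL
  have hKKd : KK L = (L:ℝ) ^ (4/5:ℝ) := rfl
  rw [← hKKd] at hlogKK hKK hK0KK
  have hk : (kk L : ℝ) ≤ 2 * L := (kk_le (by omega)).trans (by
    have : (L:ℝ) ^ (1/100:ℝ) ≤ (L:ℝ) ^ (1:ℝ) :=
      Real.rpow_le_rpow_of_exponent_le (by linarith) (by norm_num)
    rw [Real.rpow_one] at this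
    linarith)
  have hK0R : (K0 L : ℝ) + 1 ≤ KK L / 4 := by
    have h := Nat.ceil_lt_add_one (a := (L:ℝ) ^ (7/10:ℝ)) (by positivity)
    have : (K0 L : ℝ) < (L:ℝ) ^ (7/10:ℝ) + 1 := h
    linarith
  have hside : ∀ (c : List ℕ × ℕ),
      (∃ q rest, c.1 = q :: rest ∧ LeadTop L q rest ∧ Chain L c.1 c.2 ∧
        SqfBig L (cval c.1 c.2)) →
      ∀ e, e = Nat.log 2 (cval c.1 c.2) + 1 →
        CollCfg L (2 ^ e) c ∧ sc (2 ^ e) ≤ L + 3 ∧ e ≤ ⌈12 * Real.exp (L:ℝ)⌉₊ := by
    intro c hc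
    obtain ⟨q, rest, hc1, ⟨hqL, hgap, hphi⟩, hch, hsq⟩ := hc
    have hch' : Chain L (q :: rest) c.2 := hc1 ▸ hch
    have hqp := (hch'.normal q List.mem_cons_self).prime
    have hq2 := hqp.two_le
    have hPhi0 : 0 ≤ Phi rest := Phid_nonneg _ (scs_nonneg _) 0
    have hqKK : KK L ≤ sc q := by linarith
    have hsc1 : 0 < sc q := by
      have : (0:ℝ) < sc q := by linarith
      exact_mod_cast this
    set v := cval c.1 c.2 with hv
    have hv0 : 0 < v := hch.cval_pos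
    have hvq : v = (q - 1) * cval rest c.2 := by rw [hv, hc1, cval_cons]
    have hrest0 : 0 < cval rest c.2 := hch'.tail_of_cons.cval_pos
    have hlogq : Real.exp ((sc q : ℝ) - 1) < Real.log q := exp_sc_pred_lt hsc1
    have hlq2 : 2 ≤ Real.log q := by
      have : Real.exp 2 ≤ Real.exp ((sc q : ℝ) - 1) := Real.exp_le_exp.mpr (by linarith)
      have := Real.add_one_le_exp (2:ℝ)
      linarith
    -- the rest is small
    have hlogrest : Real.log (cval rest c.2 : ℕ) ≤ Real.log q := by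
      have hs : ∀ x ∈ rest, sc x ≤ ⌊(sc q : ℝ) - KK L⌋₊ := fun x hx ↦
        Nat.le_floor (by linarith [hgap x hx])
      have hfl : ((⌊(sc q : ℝ) - KK L⌋₊ : ℕ) : ℝ) ≤ (sc q : ℝ) - KK L :=
        Nat.floor_le (by linarith)
      refine (hch'.tail_of_cons.log_cval_le hs).trans ?_
      refine le_trans ?_ hlogq.le
      have hKle : (K0 L : ℝ) ≤ (sc q : ℝ) - 1 - KK L / 2 := by linarith
      have e1 : Real.exp ((⌊(sc q : ℝ) - KK L⌋₊ : ℕ) : ℝ)
          ≤ Real.exp ((sc q : ℝ) - 1) * Real.exp (-(KK L / 2)) := by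
        rw [← Real.exp_add]
        exact Real.exp_le_exp.mpr (by linarith)
      have e2 : Real.exp (K0 L : ℝ) ≤ Real.exp ((sc q : ℝ) - 1) * Real.exp (-(KK L / 2)) := by
        rw [← Real.exp_add]
        exact Real.exp_le_exp.mpr (by linarith)
      have e3 : (2 * (L:ℝ) + (L:ℝ) ^ 3) * Real.exp (-(KK L / 2)) ≤ 1 := by
        rw [Real.exp_neg, ← div_eq_mul_inv, div_le_one (Real.exp_pos _)]
        calc 2 * (L:ℝ) + (L:ℝ) ^ 3 ≤ Real.exp ((4:ℕ) * Real.log L) := by
              rw [Real.exp_nat_mul, Real.exp_log (by linarith)]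
              nlinarith [pow_le_pow_right₀ (by linarith : (1:ℝ) ≤ L) (show 1 ≤ 3 by norm_num)]
          _ ≤ _ := Real.exp_le_exp.mpr (by push_cast; linarith)
      calc kk L * Real.exp ((⌊(sc q : ℝ) - KK L⌋₊ : ℕ) : ℝ) + (L:ℝ) ^ 3 * Real.exp (K0 L)
          ≤ 2 * L * (Real.exp ((sc q : ℝ) - 1) * Real.exp (-(KK L / 2)))
            + (L:ℝ) ^ 3 * (Real.exp ((sc q : ℝ) - 1) * Real.exp (-(KK L / 2))) := by gcongr
        _ = Real.exp ((sc q : ℝ) - 1) * ((2 * (L:ℝ) + (L:ℝ) ^ 3) * Real.exp (-(KK L / 2))) := by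
            ring
        _ ≤ _ := mul_le_of_le_one_right (Real.exp_pos _).le e3
    have hlogv : Real.log (v : ℕ) ≤ 2 * Real.log q := by
      rw [hvq, Nat.cast_mul, Real.log_mul (Nat.cast_ne_zero.mpr (by omega))
        (Nat.cast_ne_zero.mpr hrest0.ne')]
      have : Real.log ((q - 1 : ℕ) : ℝ) ≤ Real.log q :=
        Real.log_le_log (by exact_mod_cast (by omega : 0 < q - 1))
          (by exact_mod_cast Nat.sub_le q 1)
      linarith
    have hlqL : Real.log q ≤ Real.exp (L:ℝ) := sc_le_iff.mp hqL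
    have hl2 := Real.log_two_gt_d9
    have hl2' := Real.log_two_lt_d9
    have hlog_le : ∀ n : ℕ, 0 < n → Real.log n ≤ 2 * Real.log q + 1 →
        Nat.log 2 n + 1 ≤ ⌈12 * Real.exp (L:ℝ)⌉₊ := by
      intro n hn hlogn
      have h1 : ((2:ℝ)) ^ Nat.log 2 n ≤ n := by exact_mod_cast Nat.pow_log_le_self 2 hn.ne'
      have h2 := Real.log_le_log (by positivity) h1
      rw [Real.log_pow] at h2
      have h3 : ((Nat.log 2 n + 1 : ℕ) : ℝ) ≤ 12 * Real.exp (L:ℝ) := by
        push_cast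
        nlinarith [Real.one_le_exp (show (0:ℝ) ≤ L by linarith), Nat.cast_nonneg (α := ℝ) (Nat.log 2 n)]
      exact_mod_cast h3.trans (Nat.le_ceil _)
    intro e he
    set y := 2 ^ e with hy
    have hvy : v < y := by rw [hy, he]; exact Nat.lt_pow_succ_log_self (by norm_num) v
    have hy2 : y ≤ 2 * v := by
      rw [hy, he, pow_succ]
      have := Nat.pow_log_le_self 2 hv0.ne'
      omega
    have hlogy : Real.log (y : ℕ) ≤ 3 * Real.log q := by
      have h1 := Real.log_le_log (by exact_mod_cast (by omega : 0 < y))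
        (show ((y:ℕ):ℝ) ≤ 2 * v by exact_mod_cast hy2)
      rw [Real.log_mul (by norm_num) (Nat.cast_ne_zero.mpr hv0.ne')] at h1
      linarith
    have hscy : (sc q : ℝ) - 1 ≤ sc y := by
      have h1 : sc q ≤ sc (2 * v) := by
        refine sc_mono ?_
        have : q - 1 ≤ v := hvq ▸ Nat.le_mul_of_pos_right _ hrest0
        omega
      have h2 : sc (2 * v) ≤ sc v + 1 := by
        rcases Nat.lt_or_ge v 2 with h | h
        · have : v = 1 := by omega
          have hz : sc 2 ≤ 0 + 1 := by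
            rw [sc_le_iff]
            push_cast
            have := Real.add_one_le_exp (1:ℝ)
            linarith
          rw [this]
          norm_num
          omega
        · exact sc_two_mul_le h
      have h3 : sc v ≤ sc y := sc_mono hvy.le
      have : (sc q : ℝ) ≤ sc y + 1 := by exact_mod_cast (by omega : sc q ≤ sc y + 1)
      linarith
    have hscyL : sc y ≤ L + 3 := by
      rw [sc_le_iff]
      push_cast
      rw [Real.exp_add]
      have he3 : (3:ℝ) ≤ Real.exp 3 := by linarith [Real.add_one_le_exp (3:ℝ)]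
      have := mul_le_mul_of_nonneg_left he3 (Real.exp_pos (L:ℝ)).le
      linarith
    have hexpy : Real.exp (sc y) ≤ (L:ℝ) ^ 5 * Real.log q := by
      have hpos : 0 < sc y := by
        have : (0:ℝ) < sc y := by linarith
        exact_mod_cast this
      have h := exp_sc_pred_lt hpos
      have e : Real.exp (sc y : ℝ) = Real.exp ((sc y : ℝ) - 1) * Real.exp 1 := by
        rw [← Real.exp_add]; ring_nf
      rw [e]
      have he1 : Real.exp (1:ℝ) ≤ 3 := by linarith [Real.exp_one_lt_d9]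
      have hL5 : (20:ℝ) ^ 5 ≤ (L:ℝ) ^ 5 := pow_le_pow_left₀ (by norm_num) hL20 5
      calc Real.exp ((sc y : ℝ) - 1) * Real.exp 1 ≤ (3 * Real.log q) * 3 := by
            gcongr
            linarith
        _ ≤ _ := by nlinarith
    refine ⟨⟨q, rest, hc1, hch.sorted, hch.normal, hch.scale, hch.len.trans (Nat.le_succ _),
      hch.w_pos, fun l hl hd ↦ hch.w_prime_sc hl hd, hsq, hvy.le, hexpy, fun x hx ↦ ?_, ?_⟩,
      hscyL, ?_⟩
    · have := hgap x hx
      linarith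
    · linarith
    · rw [he]
      exact hlog_le v hv0 (by linarith)
  set K := ⌈12 * Real.exp (L:ℝ)⌉₊ with hK
  have hmaps : ∀ x ∈ P, Nat.log 2 (cval x.1.1 x.1.2) + 1 ∈ Finset.range (K + 1) := by
    intro x hx
    rw [Finset.mem_range]
    have := ((hside x.1 (hP x hx).1) _ rfl).2.2
    omega
  rw [← Finset.sum_fiberwise_of_maps_to hmaps]
  set ε := Real.exp (-((L:ℝ) ^ (3/4 : ℝ))) with hε
  have hterm : ∀ e ∈ Finset.range (K + 1),
      ∑ x ∈ P.filter (fun x ↦ Nat.log 2 (cval x.1.1 x.1.2) + 1 = e), (1:ℝ) / (cval x.1.1 x.1.2 : ℕ)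
        ≤ 3 * ε * (1 / (e:ℝ)) := by
    intro e _
    set Pe := P.filter fun x ↦ Nat.log 2 (cval x.1.1 x.1.2) + 1 = e with hPe
    rcases Pe.eq_empty_or_nonempty with h0 | ⟨x₀, hx₀⟩
    · rw [h0, Finset.sum_empty]; positivity
    obtain ⟨hx₀P, hx₀e⟩ := Finset.mem_filter.mp hx₀
    obtain ⟨-, hscy, -⟩ := (hside x₀.1 (hP x₀ hx₀P).1) e hx₀e.symm
    have hcard := hcoll (2 ^ e) Pe hscy fun x hx ↦ by
      obtain ⟨hxP, hxe⟩ := Finset.mem_filter.mp hx
      obtain ⟨h1, h2, h3, h4⟩ := hP x hxP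
      refine ⟨((hside x.1 h1) e hxe.symm).1, ((hside x.2 h2) e ?_).1, h3, h4⟩
      rw [← h3, hxe]
    have he1 : 1 ≤ e := by omega
    have he0 : (0:ℝ) < e := by exact_mod_cast he1
    have hlog : (e:ℝ) * Real.log 2 ≤ Real.exp (sc (2 ^ e)) := by
      refine le_trans (le_of_eq ?_) (log_le_exp_sc _)
      push_cast
      rw [Real.log_pow]
    calc ∑ x ∈ Pe, (1:ℝ) / (cval x.1.1 x.1.2 : ℕ)
        ≤ ∑ _x ∈ Pe, 2 / (2:ℝ) ^ e := by
          refine Finset.sum_le_sum fun x hx ↦ ?_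
          obtain ⟨hxP, hxe⟩ := Finset.mem_filter.mp hx
          obtain ⟨q, rest, -, -, hch, -⟩ := (hP x hxP).1
          have hv0 := hch.cval_pos
          have h2 : 2 ^ e ≤ 2 * cval x.1.1 x.1.2 := by
            rw [← hxe, pow_succ]
            have := Nat.pow_log_le_self 2 hv0.ne'
            omega
          rw [div_le_div_iff₀ (by exact_mod_cast hv0) (by positivity), one_mul]
          exact_mod_cast h2
      _ = (Pe.card : ℝ) * (2 / (2:ℝ) ^ e) := by rw [Finset.sum_const, nsmul_eq_mul]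
      _ ≤ (((2 ^ e : ℕ) : ℝ) / Real.exp (sc (2 ^ e)) * ε) * (2 / (2:ℝ) ^ e) := by gcongr
      _ = 2 * ε / Real.exp (sc (2 ^ e)) := by push_cast; field_simp
      _ ≤ 2 * ε / ((e:ℝ) * Real.log 2) := by
          have hl2 := Real.log_two_gt_d9
          gcongr
      _ ≤ _ := by
          have hl2 := Real.log_two_gt_d9
          rw [mul_one_div, div_le_div_iff₀ (by positivity) he0]
          have : 0 ≤ (e:ℝ) * ε := by positivity
          nlinarith
  refine (Finset.sum_le_sum hterm).trans ?_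
  rw [← Finset.mul_sum, Finset.sum_range_succ']
  simp only [Nat.cast_zero, div_zero, add_zero, Nat.cast_add, Nat.cast_one]
  have hharm : ∑ i ∈ Finset.range K, (1:ℝ) / ((i:ℝ) + 1) ≤ 1 + Real.log K := by
    have h : (harmonic K : ℝ) = ∑ i ∈ Finset.range K, (1:ℝ) / ((i:ℝ) + 1) := by
      simp [harmonic, one_div]
    rw [← h]
    exact harmonic_le_one_add_log K
  have hlogK : 1 + Real.log K ≤ 6 * (L:ℝ) := by
    have hE1 : 1 ≤ Real.exp (L:ℝ) := Real.one_le_exp (by linarith)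
    have h1 : (K:ℝ) < 12 * Real.exp (L:ℝ) + 1 := Nat.ceil_lt_add_one (by positivity)
    have hK1 : (0:ℝ) < K := by
      have : 12 * Real.exp (L:ℝ) ≤ K := Nat.le_ceil _
      linarith
    have h2 := Real.log_le_log hK1 (show (K:ℝ) ≤ 16 * Real.exp (L:ℝ) by linarith)
    rw [Real.log_mul (by norm_num) (Real.exp_pos _).ne', Real.log_exp,
      show (16:ℝ) = 2 ^ 4 by norm_num, Real.log_pow] at h2
    have := Real.log_two_lt_d9
    push_cast at h2
    linarith
  calc 3 * ε * ∑ i ∈ Finset.range K, (1:ℝ) / ((i:ℝ) + 1) ≤ 3 * ε * (6 * (L:ℝ)) := by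
        gcongr
        linarith
    _ ≤ 40 * (L:ℝ) ^ 1 * ε := by
        have : 0 ≤ (L:ℝ) * ε := by positivity
        linarith
    _ ≤ _ := by rw [hε]; simpa using hpoly

/-- Colliding pairs of a set of configurations. -/
def collPairs (A : Finset (List ℕ × ℕ)) : Finset ((List ℕ × ℕ) × (List ℕ × ℕ)) :=
  (A ×ˢ A).filter fun x ↦ x.1 ≠ x.2 ∧ cval x.1.1 x.1.2 = cval x.2.1 x.2.2

lemma Lead.base {L : ℕ} : ∀ {k : ℕ} {c : List ℕ × ℕ}, Lead L k c →
    Chain L c.1 c.2 ∧ SqfBig L (cval c.1 c.2)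
  | 0, _, h => h
  | _ + 1, _, ⟨_, _, _, _, h1, h2, _⟩ => ⟨h1, h2⟩

/-- Weighted collisions among configurations whose top `k` levels are well separated. -/
lemma exists_lead_pairs :
    ∃ C : ℝ, 1 ≤ C ∧ ∀ᶠ L : ℕ in atTop, ∀ (k : ℕ) (A : Finset (List ℕ × ℕ)),
      (∀ x ∈ A, Lead L k x) →
      (∀ x ∈ A, ∀ y ∈ A, cval (x.1.drop k) x.2 = cval (y.1.drop k) y.2 →
        x.1.drop k = y.1.drop k ∧ x.2 = y.2) →
      ∑ x ∈ collPairs A, (1:ℝ) / (cval x.1.1 x.1.2 : ℕ)
        ≤ k * (C * (L:ℝ)) ^ k * Real.exp (-((L:ℝ) ^ (1/2 : ℝ))) := by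
  classical
  obtain ⟨C, hC1, hC, -⟩ := exists_sum_pred_bounds
  refine ⟨C, hC1, ?_⟩
  filter_upwards [ev_lead_coll, eventually_ge_atTop 1] with L hcoll hL k
  have hCL : 1 ≤ C * (L:ℝ) := one_le_mul_of_one_le_of_one_le hC1 (by exact_mod_cast hL)
  set ε := Real.exp (-((L:ℝ) ^ (1/2 : ℝ))) with hε
  induction k with
  | zero =>
    intro A _ hsame
    rw [Finset.sum_eq_zero]
    · simp
    intro x hx
    obtain ⟨hxA, hne, heq⟩ := Finset.mem_filter.mp hx
    obtain ⟨h1, h2⟩ := Finset.mem_product.mp hxA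
    have := hsame x.1 h1 x.2 h2 (by simpa using heq)
    simp only [List.drop_zero] at this
    exact absurd (Prod.ext this.1 this.2) hne
  | succ k ih =>
    intro A hA hsame
    set A' := A.image fun c ↦ (c.1.tail, c.2) with hA'
    have hA'lead : ∀ x ∈ A', Lead L k x := by
      intro x hx
      obtain ⟨c, hc, rfl⟩ := Finset.mem_image.mp hx
      obtain ⟨q, rest, he, -, -, -, hlead⟩ := hA c hc
      simpa [he] using hlead
    have hA'same : ∀ x ∈ A', ∀ y ∈ A', cval (x.1.drop k) x.2 = cval (y.1.drop k) y.2 →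
        x.1.drop k = y.1.drop k ∧ x.2 = y.2 := by
      intro x hx y hy
      obtain ⟨c, hc, rfl⟩ := Finset.mem_image.mp hx
      obtain ⟨c', hc', rfl⟩ := Finset.mem_image.mp hy
      simpa [List.drop_tail] using hsame c hc c' hc'
    rw [← Finset.sum_filter_add_sum_filter_not (collPairs A)
      (fun x ↦ x.1.1.head? = x.2.1.head?)]
    set S1 := (collPairs A).filter fun x ↦ x.1.1.head? = x.2.1.head? with hS1
    set S2 := (collPairs A).filter fun x ↦ ¬ x.1.1.head? = x.2.1.head? with hS2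
    have h2 : ∑ x ∈ S2, (1:ℝ) / (cval x.1.1 x.1.2 : ℕ) ≤ ε := by
      refine hcoll S2 fun x hx ↦ ?_
      obtain ⟨hxp, hh⟩ := Finset.mem_filter.mp hx
      obtain ⟨hxA, -, heq⟩ := Finset.mem_filter.mp hxp
      obtain ⟨h1, h2⟩ := Finset.mem_product.mp hxA
      obtain ⟨q, rest, he, ht, hc, hs, -⟩ := hA _ h1
      obtain ⟨q', rest', he', ht', hc', hs', -⟩ := hA _ h2
      exact ⟨⟨q, rest, he, ht, hc, hs⟩, ⟨q', rest', he', ht', hc', hs'⟩, heq, hh⟩
    set g : (List ℕ × ℕ) × (List ℕ × ℕ) → ℕ × ((List ℕ × ℕ) × (List ℕ × ℕ)) :=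
      fun x ↦ (x.1.1.headD 0, ((x.1.1.tail, x.1.2), (x.2.1.tail, x.2.2))) with hg
    have hsplit : ∀ x ∈ S1, ∃ q rest rest', x.1.1 = q :: rest ∧ x.2.1 = q :: rest' ∧
        q ∈ primesSc L ∧ (rest, x.1.2) ∈ A' ∧ (rest', x.2.2) ∈ A' ∧
        (rest, x.1.2) ≠ (rest', x.2.2) ∧ cval rest x.1.2 = cval rest' x.2.2 := by
      intro x hx
      obtain ⟨hxp, hh⟩ := Finset.mem_filter.mp hx
      obtain ⟨hxA, hne, heq⟩ := Finset.mem_filter.mp hxp
      obtain ⟨h1, h2⟩ := Finset.mem_product.mp hxA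
      obtain ⟨q, rest, he, ⟨hqL, -⟩, hc, -⟩ := hA _ h1
      obtain ⟨q', rest', he', -⟩ := hA _ h2
      rw [he, he'] at hh
      simp only [List.head?_cons, Option.some.injEq] at hh
      subst hh
      have hq := (hc.normal q (by rw [he]; exact List.mem_cons_self)).prime
      refine ⟨q, rest, rest', he, he', mem_primesSc.mpr ⟨hq, hqL⟩,
        Finset.mem_image.mpr ⟨x.1, h1, by simp [he]⟩,
        Finset.mem_image.mpr ⟨x.2, h2, by simp [he']⟩, fun h ↦ hne ?_, ?_⟩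
      · simp only [Prod.mk.injEq] at h
        exact Prod.ext (by rw [he, he', h.1]) h.2
      · rw [he, he', cval_cons, cval_cons] at heq
        exact Nat.eq_of_mul_eq_mul_left (by have := hq.two_le; omega) heq
    have h1 : ∑ x ∈ S1, (1:ℝ) / (cval x.1.1 x.1.2 : ℕ)
        ≤ ∑ z ∈ primesSc L ×ˢ collPairs A',
            1 / ((z.1 - 1 : ℕ) : ℝ) * ((1:ℝ) / (cval z.2.1.1 z.2.1.2 : ℕ)) := by
      have hinj : Set.InjOn g (S1 : Set _) := by
        intro x hx y hy hxy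
        obtain ⟨q, r, r', e1, e2, -⟩ := hsplit x hx
        obtain ⟨q', s, s', f1, f2, -⟩ := hsplit y hy
        simp only [hg, e1, e2, f1, f2, List.headD_cons, List.tail_cons, Prod.mk.injEq] at hxy
        obtain ⟨rfl, ⟨rfl, hw⟩, rfl, hw'⟩ := hxy
        exact Prod.ext (Prod.ext (e1.trans f1.symm) hw) (Prod.ext (e2.trans f2.symm) hw')
      calc ∑ x ∈ S1, (1:ℝ) / (cval x.1.1 x.1.2 : ℕ)
          = ∑ x ∈ S1, 1 / (((g x).1 - 1 : ℕ) : ℝ)
              * ((1:ℝ) / (cval (g x).2.1.1 (g x).2.1.2 : ℕ)) := by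
            refine Finset.sum_congr rfl fun x hx ↦ ?_
            obtain ⟨q, r, r', e1, -⟩ := hsplit x hx
            simp only [hg, e1, List.headD_cons, List.tail_cons, cval_cons, Nat.cast_mul]
            rw [one_div_mul_one_div]
        _ = ∑ z ∈ S1.image g, 1 / ((z.1 - 1 : ℕ) : ℝ)
              * ((1:ℝ) / (cval z.2.1.1 z.2.1.2 : ℕ)) :=
            (Finset.sum_image (f := fun z : ℕ × ((List ℕ × ℕ) × (List ℕ × ℕ)) ↦
              1 / ((z.1 - 1 : ℕ) : ℝ) * ((1:ℝ) / (cval z.2.1.1 z.2.1.2 : ℕ))) hinj).symm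
        _ ≤ _ := by
          refine Finset.sum_le_sum_of_subset_of_nonneg (fun z hz ↦ ?_) fun z _ _ ↦ by positivity
          obtain ⟨x, hx, rfl⟩ := Finset.mem_image.mp hz
          obtain ⟨q, r, r', e1, e2, hq, m1, m2, hne, heq⟩ := hsplit x hx
          simp only [hg, e1, e2, List.headD_cons, List.tail_cons, Finset.mem_product]
          exact ⟨hq, Finset.mem_filter.mpr ⟨Finset.mem_product.mpr ⟨m1, m2⟩, hne, heq⟩⟩
    rw [Finset.sum_product] at h1
    simp only [← Finset.mul_sum] at h1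
    rw [← Finset.sum_mul] at h1
    have hrec := ih A' hA'lead hA'same
    have h1' : ∑ x ∈ S1, (1:ℝ) / (cval x.1.1 x.1.2 : ℕ)
        ≤ C * (L:ℝ) * (k * (C * (L:ℝ)) ^ k * ε) := by
      refine h1.trans (mul_le_mul (hC L hL) hrec (Finset.sum_nonneg fun z _ ↦ by positivity) ?_)
      linarith
    have hpow : 1 ≤ (C * (L:ℝ)) ^ (k + 1) := one_le_pow₀ hCL
    have := le_mul_of_one_le_left (Real.exp_pos (-((L:ℝ) ^ (1/2 : ℝ)))).le hpow
    push_cast
    rw [hε] at h2 h1' ⊢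
    rw [pow_succ'] at this ⊢
    linarith

end Vale.Agent.P031
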