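import Mathlib
import Vale.Agent.P031.LeadPairs

/-!
The box bound: tail values with much room give a proportional part of the interior sum.
-/

namespace Vale.Agent.P031

open Finset Real Filter Topology

/-- Normal primes in a window of `wid` scales ending at `⌊h⌋`. -/
noncomputable def winSet (L wid : ℕ) (h : ℝ) : Finset ℕ := by
  classical exact (primesSc ⌊h⌋₊).filter fun p ↦ Normal L p ∧ ⌊h⌋₊ - wid < sc p

/-- Lists of levels in the box below `bld c k τ`. -/
noncomputable def boxSet (L wid : ℕ) (c : ℝ) (τ : List ℝ) : ℕ → Finset (List ℕ)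
  | 0 => {[]}
  | k + 1 => (winSet L wid (hd (bld c (k + 1) τ)) ×ˢ boxSet L wid c τ k).image fun x ↦ x.1 :: x.2

lemma bld_succ_hd (c : ℝ) (k : ℕ) (τ : List ℝ) :
    hd (bld c (k + 1) τ) = max (hd (bld c k τ ++ τ)) (Phid 0 (bld c k τ ++ τ)) + c := rfl

lemma mem_winSet {L wid : ℕ} {h : ℝ} {p : ℕ} (hp : p ∈ winSet L wid h) (hh : 0 ≤ h) :
    Normal L p ∧ h - wid ≤ sc p ∧ (sc p : ℝ) ≤ h := by
  classical
  unfold winSet at hp
  obtain ⟨hp1, hn, hlo⟩ := Finset.mem_filter.mp hp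
  refine ⟨hn, ?_, le_trans (by exact_mod_cast (mem_primesSc.mp hp1).2) (Nat.floor_le hh)⟩
  have h1 := Nat.lt_floor_add_one h
  have h2 : ⌊h⌋₊ + 1 ≤ sc p + wid := by omega
  have h3 : ((⌊h⌋₊ + 1 : ℕ) : ℝ) ≤ ((sc p + wid : ℕ) : ℝ) := by exact_mod_cast h2
  push_cast at h3
  linarith

lemma bld_entries_mono {c : ℝ} {τ : List ℝ} {k : ℕ} {x : ℝ} (hx : x ∈ bld c k τ) :
    x ∈ bld c (k + 1) τ := by
  rw [bld]
  exact List.mem_cons_of_mem _ hx

/-- Box levels over a chain form configurations with well separated top levels. -/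
lemma ev_box_lead :
    ∀ᶠ L : ℕ in atTop, ∀ (k wid : ℕ) (c : ℝ) (qs : List ℕ) (w : ℕ),
      Chain L qs w → c = 2 * KK L + wid + 1 →
      (∀ x ∈ bld c k (scs qs), x + 2 * KK L ≤ L) →
      ∀ us ∈ boxSet L wid c (scs qs) k,
        us.length = k ∧ (∀ p ∈ us, Normal L p ∧ sc p ≤ L) ∧ Chain L (us ++ qs) w ∧
        Phi (us ++ qs) ≤ Phid 0 (bld c k (scs qs) ++ scs qs) ∧
        hd (scs (us ++ qs)) ≤ hd (bld c k (scs qs) ++ scs qs) ∧
        (SqfBig L (cval (us ++ qs) w) → Lead L k (us ++ qs, w)) := by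
  filter_upwards [ev_length_le_kk, ev_mul_rpow_le (a := 7/10) (b := 4/5) (by norm_num) 3,
    eventually_ge_atTop 1] with L hlen hK0KK hL k wid c qs w hch hc
  have hKK1 : (1:ℝ) ≤ KK L := Real.one_le_rpow (by exact_mod_cast hL) (by norm_num)
  have hK0 : (K0 L : ℝ) < 2 * KK L := by
    have h := Nat.ceil_lt_add_one (a := (L:ℝ) ^ (7/10:ℝ)) (by positivity)
    have : (K0 L : ℝ) < (L:ℝ) ^ (7/10:ℝ) + 1 := h
    have : KK L = (L:ℝ) ^ (4/5:ℝ) := rfl
    have : (0:ℝ) ≤ (L:ℝ) ^ (7/10:ℝ) := by positivity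
    linarith
  have hc0 : 0 ≤ c := by rw [hc]; linarith [Nat.cast_nonneg (α := ℝ) wid]
  induction k with
  | zero =>
    intro _ us hus
    rw [boxSet, Finset.mem_singleton] at hus
    subst hus
    simp only [List.length_nil, List.not_mem_nil, false_imp_iff, implies_true, List.nil_append,
      bld, true_and]
    exact ⟨hch, le_rfl, le_rfl, fun h ↦ ⟨hch, h⟩⟩
  | succ k ih =>
    intro htop us hus
    rw [boxSet, Finset.mem_image] at hus
    obtain ⟨⟨q, us'⟩, hqu, rfl⟩ := hus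
    obtain ⟨hq, hus'⟩ := Finset.mem_product.mp hqu
    obtain ⟨hlen', hnorm', hch', hphi', hhd', hlead'⟩ :=
      ih (fun x hx ↦ htop x (bld_entries_mono hx)) us' hus'
    set h := hd (bld c (k + 1) (scs qs)) with hh
    have hnn := bld_nonneg hc0 (scs_nonneg qs) k
    have hh0 : 0 ≤ h := by
      rw [hh, bld_succ_hd]
      have := le_max_left (hd (bld c k (scs qs) ++ scs qs)) (Phid 0 (bld c k (scs qs) ++ scs qs))
      have := hd_nonneg hnn
      linarith
    obtain ⟨hqn, hqlo, hqhi⟩ := mem_winSet hq hh0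
    have hh2 : h + 2 * KK L ≤ L := htop h (by rw [hh, bld]; exact List.mem_cons_self)
    have hqge1 : hd (bld c k (scs qs) ++ scs qs) + 2 * KK L ≤ sc q := by
      have := le_max_left (hd (bld c k (scs qs) ++ scs qs)) (Phid 0 (bld c k (scs qs) ++ scs qs))
      rw [hh, bld_succ_hd, hc] at hqlo
      rw [hc] at this ⊢
      linarith
    have hqge2 : Phid 0 (bld c k (scs qs) ++ scs qs) + 2 * KK L ≤ sc q := by
      have := le_max_right (hd (bld c k (scs qs) ++ scs qs)) (Phid 0 (bld c k (scs qs) ++ scs qs))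
      rw [hh, bld_succ_hd, hc] at hqlo
      rw [hc] at this ⊢
      linarith
    have hqL : sc q ≤ L := by
      have : (sc q : ℝ) ≤ L := by linarith
      exact_mod_cast this
    set rest := us' ++ qs with hrest
    have hrest_le : ∀ x ∈ rest, (sc x : ℝ) ≤ hd (scs rest) := by
      intro x hx
      cases hr : rest with
      | nil => rw [hr] at hx; simp at hx
      | cons y t =>
        rw [hr] at hx
        have hs := hch'.sorted
        rw [hr, List.pairwise_cons] at hs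
        simp only [scs, List.map_cons, hd_cons]
        rcases List.mem_cons.mp hx with rfl | hxt
        · exact le_rfl
        · exact_mod_cast sc_mono (hs.1 x hxt).le
    have hgap : ∀ x ∈ rest, (sc x : ℝ) + 2 * KK L ≤ sc q := fun x hx ↦ by
      linarith [hrest_le x hx]
    have hphiq : Phi rest + 2 * KK L ≤ sc q := by linarith
    have hsorted : (q :: rest).Pairwise (· > ·) := by
      refine List.pairwise_cons.mpr ⟨fun x hx ↦ ?_, hch'.sorted⟩
      have h1 := hgap x hx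
      by_contra hle
      have : (sc q : ℝ) ≤ sc x := by exact_mod_cast sc_mono (not_lt.mp hle)
      linarith
    have hKA0 : 0 ≤ KA L := by unfold KA; positivity
    have hscale : ∀ x ∈ q :: rest, K0 L < sc x ∧ sc x ≤ L + 3 := by
      intro x hx
      rcases List.mem_cons.mp hx with rfl | hx
      · refine ⟨?_, hqL.trans (by omega)⟩
        have := hd_nonneg hnn
        have : (K0 L : ℝ) < sc x := by linarith
        exact_mod_cast this
      · exact hch'.scale x hx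
    have hstep : ∀ a x r, q :: rest = a ++ x :: r → Phi r ≤ (sc x : ℝ) + KA L := by
      intro a x r he
      cases a with
      | nil =>
        rw [List.nil_append, List.cons.injEq] at he
        rw [← he.1, ← he.2]
        linarith
      | cons b a =>
        rw [List.cons_append, List.cons.injEq] at he
        exact hch'.step a x r he.2
    have hchain : Chain L (q :: rest) w := by
      refine ⟨hsorted, fun x hx ↦ ?_, hscale, hlen (q :: rest) hsorted hscale ?_, hstep,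
        hch'.tail⟩
      · rcases List.mem_cons.mp hx with rfl | hx
        · exact hqn
        · exact hch'.normal x hx
      · intro a x r he _
        refine le_trans ?_ (hstep a x r he)
        rw [Phi_eq_PhiK (le_max_right (kk L) r.length)]
        exact Finset.sum_le_sum_of_subset_of_nonneg
          (Finset.range_subset_range.mpr (le_max_left _ _))
          fun i _ _ ↦ mul_nonneg (acoef_nonneg i) (Nat.cast_nonneg _)
    refine ⟨by simp [hlen'], ?_, hchain, ?_, ?_, fun hs ↦ ?_⟩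
    · intro p hp
      rcases List.mem_cons.mp hp with rfl | hp
      · exact ⟨hqn, hqL⟩
      · exact hnorm' p hp
    · show Phid 0 (scs (q :: rest)) ≤ _
      rw [bld, List.cons_append, scs, List.map_cons, Phid_cons, Phid_cons]
      refine add_le_add (mul_le_mul_of_nonneg_left (by rw [hh, bld_succ_hd] at hqhi; exact hqhi)
        (acoef_nonneg 0)) ?_
      -- the shifted forms
      have : ∀ (n : ℕ) (vs : List ℕ), (∀ x ∈ bld c n (scs qs), x + 2 * KK L ≤ L) →
          vs ∈ boxSet L wid c (scs qs) n →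
          ∀ d, Phid d (scs (vs ++ qs)) ≤ Phid d (bld c n (scs qs) ++ scs qs) := by
        intro n
        induction n with
        | zero =>
          intro vs _ hvs d
          rw [boxSet, Finset.mem_singleton] at hvs
          subst hvs
          simp [bld]
        | succ n ihn =>
          intro vs hb hvs d
          rw [boxSet, Finset.mem_image] at hvs
          obtain ⟨⟨p, vs'⟩, hpv, rfl⟩ := hvs
          obtain ⟨hp, hvs'⟩ := Finset.mem_product.mp hpv
          have hp0 : 0 ≤ hd (bld c (n + 1) (scs qs)) := by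
            rw [bld_succ_hd]
            have := le_max_left (hd (bld c n (scs qs) ++ scs qs))
              (Phid 0 (bld c n (scs qs) ++ scs qs))
            have := hd_nonneg (bld_nonneg hc0 (scs_nonneg qs) n)
            linarith
          have hphi := (mem_winSet hp hp0).2.2
          rw [bld_succ_hd] at hphi
          rw [bld, List.cons_append, List.cons_append, scs, List.map_cons, Phid_cons, Phid_cons]
          exact add_le_add (mul_le_mul_of_nonneg_left hphi (acoef_nonneg d))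
            (ihn vs' (fun x hx ↦ hb x (bld_entries_mono hx)) hvs' (d + 1))
      exact this k us' (fun x hx ↦ htop x (bld_entries_mono hx)) hus' (0 + 1)
    · show hd (scs (q :: rest)) ≤ _
      rw [bld, List.cons_append, scs, List.map_cons, hd_cons, hd_cons]
      rw [hh, bld_succ_hd] at hqhi
      exact hqhi
    · refine ⟨q, rest, rfl, ⟨hqL, fun x hx ↦ ?_, ?_⟩, hchain, hs, hlead' (hs.of_dvd ?_)⟩
      · linarith [hgap x hx]
      · linarith
      · show cval rest w ∣ cval (q :: rest) w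
        rw [cval_cons]
        exact dvd_mul_left _ _

lemma boxSet_sum_ge :
    ∃ C, 1 ≤ C ∧ ∀ᶠ L : ℕ in atTop, ∀ (k wid : ℕ) (c : ℝ) (τ : List ℝ),
      (∀ x ∈ τ, 0 ≤ x) → c = 2 * KK L + wid + 1 → C ≤ (wid:ℝ) →
      (∀ x ∈ bld c k τ, x + 2 * KK L ≤ L) →
      ((wid:ℝ) / 2) ^ k ≤ ∑ us ∈ boxSet L wid c τ k, 1 / (prodPred us : ℝ) := by
  classical
  obtain ⟨C, hC1, hC⟩ := ev_window_sum_ge
  refine ⟨C, hC1, ?_⟩
  filter_upwards [hC, ev_mul_rpow_le (a := 7/10) (b := 4/5) (by norm_num) 3,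
    ev_const_le_rpow (b := 4/5) (by norm_num) 2,
    eventually_ge_atTop 1] with L hwin hK0KK hKK2 hL k wid c τ hτ hc hwid
  have hKK1 : (1:ℝ) ≤ KK L := Real.one_le_rpow (by exact_mod_cast hL) (by norm_num)
  have hK0 : (K0 L : ℝ) + 1 ≤ 2 * KK L := by
    have h := Nat.ceil_lt_add_one (a := (L:ℝ) ^ (7/10:ℝ)) (by positivity)
    have : (K0 L : ℝ) < (L:ℝ) ^ (7/10:ℝ) + 1 := h
    have : KK L = (L:ℝ) ^ (4/5:ℝ) := rfl
    have : (0:ℝ) ≤ (L:ℝ) ^ (7/10:ℝ) := by positivity
    linarith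
  have hc0 : 0 ≤ c := by rw [hc]; linarith [Nat.cast_nonneg (α := ℝ) wid]
  induction k with
  | zero => intro _; simp [boxSet, prodPred]
  | succ k ih =>
    intro htop
    have hrec := ih fun x hx ↦ htop x (bld_entries_mono hx)
    set h := hd (bld c (k + 1) τ) with hh
    have hh2 : h + 2 * KK L ≤ L := htop h (by rw [hh, bld]; exact List.mem_cons_self)
    have hhc : c ≤ h := by
      rw [hh, bld_succ_hd]
      have := le_max_left (hd (bld c k τ ++ τ)) (Phid 0 (bld c k τ ++ τ))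
      have := hd_nonneg (bld_nonneg hc0 hτ k)
      linarith
    have hfl := Nat.lt_floor_add_one h
    have hfl2 := Nat.floor_le (le_trans hc0 hhc)
    have hwle : wid + K0 L ≤ ⌊h⌋₊ := Nat.le_floor (by push_cast; linarith)
    have hcast : ((⌊h⌋₊ - wid : ℕ) : ℝ) = (⌊h⌋₊ : ℝ) - wid := Nat.cast_sub (by omega)
    have hbL : ⌊h⌋₊ ≤ L := by
      have : (⌊h⌋₊ : ℝ) ≤ L := by linarith
      exact_mod_cast this
    have hw := hwin (⌊h⌋₊ - wid) ⌊h⌋₊ (by omega) hbL (by rw [hcast]; linarith)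
      (winSet L wid h) fun p hp hn h1 h2 ↦ by
        unfold winSet
        exact Finset.mem_filter.mpr ⟨mem_primesSc.mpr ⟨hp, h2⟩, hn, h1⟩
    rw [hcast] at hw
    rw [boxSet, Finset.sum_image (fun x _ y _ hxy ↦ by
      simp only [List.cons.injEq] at hxy
      exact Prod.ext hxy.1 hxy.2), Finset.sum_product, pow_succ']
    calc (wid:ℝ) / 2 * ((wid:ℝ) / 2) ^ k
        ≤ (∑ p ∈ winSet L wid h, 1 / ((p - 1 : ℕ) : ℝ))
          * ∑ us ∈ boxSet L wid c τ k, 1 / (prodPred us : ℝ) := by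
          refine mul_le_mul (by linarith) hrec (by positivity)
            (Finset.sum_nonneg fun p _ ↦ by positivity)
      _ = _ := by
          rw [Finset.sum_mul]
          refine Finset.sum_congr rfl fun p _ ↦ ?_
          rw [Finset.mul_sum]
          refine Finset.sum_congr rfl fun us _ ↦ ?_
          rw [prodPred_cons, Nat.cast_mul, one_div_mul_one_div]

/-- Configurations with a large square factor are negligible. -/
lemma exists_nonsqf_le :
    ∃ C : ℝ, 1 ≤ C ∧ ∀ᶠ L : ℕ in atTop, ∀ (k : ℕ) (T : Finset ℕ) (B : Finset (List ℕ × ℕ)),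
      k + 2 ≤ L → (∀ t ∈ T, 1 ≤ t ∧ t ≤ tailBound L ∧ SqfBig L t) →
      (∀ x ∈ B, x.1.length = k ∧ (∀ p ∈ x.1, Normal L p ∧ sc p ≤ L) ∧ x.2 ∈ T ∧
        ¬ SqfBig L (prodPred x.1 * x.2)) →
      ∑ x ∈ B, (1:ℝ) / (prodPred x.1 * x.2 : ℕ)
        ≤ k * (C * (L:ℝ)) ^ k * (∑ t ∈ T, (1:ℝ) / t) * Real.exp (-(3 * (L:ℝ))) := by
  classical
  obtain ⟨C, hC1, hC, -⟩ := exists_sum_pred_bounds
  refine ⟨C, hC1, ?_⟩
  filter_upwards [ev_share_sum_le, ev_const_le_rpow (b := 1) (by norm_num) 20,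
    eventually_ge_atTop 1] with L hshare hL20 hL k
  rw [Real.rpow_one] at hL20
  set P := (primesSc L).filter fun p ↦ Normal L p with hP
  have hsumP : ∑ p ∈ P, 1 / ((p - 1 : ℕ) : ℝ) ≤ C * L :=
    (Finset.sum_le_sum_of_subset_of_nonneg (Finset.filter_subset _ _)
      fun p _ _ ↦ by positivity).trans (hC L hL)
  have hCL : 1 ≤ C * (L:ℝ) := one_le_mul_of_one_le_of_one_le hC1 (by exact_mod_cast hL)
  set δ := Real.exp (-(3 * (L:ℝ))) with hδ
  induction k with
  | zero =>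
    intro T B _ hT hB
    have : B = ∅ := by
      refine Finset.eq_empty_of_forall_notMem fun x hx ↦ ?_
      obtain ⟨h1, -, h3, h4⟩ := hB x hx
      rw [List.length_eq_zero_iff] at h1
      rw [h1] at h4
      simp [prodPred] at h4
      exact h4 (hT _ h3).2.2
    simp [this]
  | succ k ih =>
    intro T B hkL hT hB
    set S := ∑ t ∈ T, (1:ℝ) / t with hS
    have hS0 : 0 ≤ S := Finset.sum_nonneg fun t _ ↦ by positivity
    have hcons : ∀ x ∈ B, ∃ q us, x.1 = q :: us ∧ q ∈ P ∧ us.length = k ∧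
        (∀ p ∈ us, Normal L p ∧ sc p ≤ L) := by
      intro x hx
      obtain ⟨h1, h2, -, -⟩ := hB x hx
      cases hxl : x.1 with
      | nil => rw [hxl] at h1; simp at h1
      | cons q us =>
        rw [hxl] at h1 h2
        exact ⟨q, us, rfl, Finset.mem_filter.mpr ⟨mem_primesSc.mpr
          ⟨(h2 q List.mem_cons_self).1.prime, (h2 q List.mem_cons_self).2⟩,
          (h2 q List.mem_cons_self).1⟩, by simpa using h1,
          fun p hp ↦ h2 p (List.mem_cons_of_mem _ hp)⟩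
    set g : List ℕ × ℕ → ℕ × (List ℕ × ℕ) := fun x ↦ (x.1.headD 0, (x.1.tail, x.2)) with hg
    set U := B.image fun x ↦ (x.1.tail, x.2) with hU
    set U1 := U.filter fun y ↦ ¬ SqfBig L (prodPred y.1 * y.2) with hU1
    set U2 := U.filter fun y ↦ SqfBig L (prodPred y.1 * y.2) with hU2
    set sh : List ℕ × ℕ → Finset ℕ := fun y ↦ P.filter fun q ↦
      ∃ l : ℕ, l.Prime ∧ K0 L < 2 * sc l ∧ l ∣ prodPred y.1 * y.2 ∧ l ∣ q - 1 with hsh
    set F : ℕ × (List ℕ × ℕ) → ℝ :=
      fun z ↦ 1 / ((z.1 - 1 : ℕ) : ℝ) * ((1:ℝ) / (prodPred z.2.1 * z.2.2 : ℕ)) with hF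
    have hUmem : ∀ y ∈ U, y.1.length = k ∧ (∀ p ∈ y.1, Normal L p ∧ sc p ≤ L) ∧ y.2 ∈ T := by
      intro y hy
      obtain ⟨x, hx, rfl⟩ := Finset.mem_image.mp hy
      obtain ⟨q, us, he, -, h1, h2⟩ := hcons x hx
      simp only [he, List.tail_cons]
      exact ⟨h1, h2, (hB x hx).2.2.1⟩
    have hsum : ∑ x ∈ B, (1:ℝ) / (prodPred x.1 * x.2 : ℕ) ≤ ∑ z ∈ P ×ˢ U1, F z
        + ∑ z ∈ (U2.biUnion fun y ↦ (sh y).image fun q ↦ (q, y)), F z := by
      have hinj : Set.InjOn g (B : Set _) := by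
        intro x hx y hy hxy
        obtain ⟨q, us, e, -⟩ := hcons x hx
        obtain ⟨q', us', e', -⟩ := hcons y hy
        simp only [hg, e, e', List.headD_cons, List.tail_cons, Prod.mk.injEq] at hxy
        exact Prod.ext (by rw [e, e', hxy.1, hxy.2.1]) hxy.2.2
      have hval : ∀ x ∈ B, (1:ℝ) / (prodPred x.1 * x.2 : ℕ) = F (g x) := by
        intro x hx
        obtain ⟨q, us, e, -⟩ := hcons x hx
        simp only [hF, hg, e, List.headD_cons, List.tail_cons, prodPred_cons, Nat.cast_mul]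
        rw [one_div_mul_one_div, mul_assoc]
      rw [Finset.sum_congr rfl hval, ← Finset.sum_image hinj]
      have hF0 : ∀ z, 0 ≤ F z := fun z ↦ by positivity
      refine le_trans (Finset.sum_le_sum_of_subset_of_nonneg (fun z hz ↦ ?_)
        fun z _ _ ↦ hF0 z) (by
          rw [← Finset.sum_union_inter]
          exact le_add_of_nonneg_right (Finset.sum_nonneg fun z _ ↦ hF0 z))
      obtain ⟨x, hx, rfl⟩ := Finset.mem_image.mp hz
      obtain ⟨q, us, e, hqP, -⟩ := hcons x hx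
      obtain ⟨-, -, -, hns⟩ := hB x hx
      have hyU : (us, x.2) ∈ U := Finset.mem_image.mpr ⟨x, hx, by simp [e]⟩
      simp only [hg, e, List.headD_cons, List.tail_cons, Finset.mem_union, Finset.mem_product]
      by_cases hsq : SqfBig L (prodPred us * x.2)
      · right
        refine Finset.mem_biUnion.mpr ⟨(us, x.2), Finset.mem_filter.mpr ⟨hyU, hsq⟩,
          Finset.mem_image.mpr ⟨q, Finset.mem_filter.mpr ⟨hqP, ?_⟩, rfl⟩⟩
        unfold SqfBig at hns
        push Not at hns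
        obtain ⟨l, hl, hlb, hld⟩ := hns
        rw [e, prodPred_cons, mul_assoc] at hld
        refine ⟨l, hl, hlb, ?_, ?_⟩
        · by_contra hnd
          have hco : Nat.Coprime (l ^ 2) (prodPred us * x.2) :=
            (hl.coprime_iff_not_dvd.mpr hnd).pow_left 2
          exact (Finset.mem_filter.mp hqP).2.sqf l hl hlb (hco.dvd_of_dvd_mul_right hld)
        · by_contra hnd
          have hco : Nat.Coprime (l ^ 2) (q - 1) := (hl.coprime_iff_not_dvd.mpr hnd).pow_left 2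
          exact hsq l hl hlb (hco.dvd_of_dvd_mul_left hld)
      · left
        exact ⟨hqP, Finset.mem_filter.mpr ⟨hyU, hsq⟩⟩
    have h1 : ∑ z ∈ P ×ˢ U1, F z ≤ C * (L:ℝ) * (k * (C * (L:ℝ)) ^ k * S * δ) := by
      rw [Finset.sum_product]
      simp only [hF, ← Finset.mul_sum]
      rw [← Finset.sum_mul]
      refine mul_le_mul hsumP (ih T U1 (by omega) hT fun y hy ↦ ?_)
        (Finset.sum_nonneg fun y _ ↦ by positivity) (by linarith)
      obtain ⟨hyU, hns⟩ := Finset.mem_filter.mp hy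
      obtain ⟨a, b, c⟩ := hUmem y hyU
      exact ⟨a, b, c, hns⟩
    have hU2sum : ∑ y ∈ U2, (1:ℝ) / (prodPred y.1 * y.2 : ℕ) ≤ (C * (L:ℝ)) ^ k * S := by
      calc ∑ y ∈ U2, (1:ℝ) / (prodPred y.1 * y.2 : ℕ)
          ≤ ∑ y ∈ plists P k ×ˢ T, (1:ℝ) / (prodPred y.1 : ℝ) * ((1:ℝ) / (y.2 : ℝ)) := by
            refine le_trans (le_of_eq (Finset.sum_congr rfl fun y _ ↦ ?_))
              (Finset.sum_le_sum_of_subset_of_nonneg (fun y hy ↦ ?_) fun y _ _ ↦ by positivity)
            · rw [Nat.cast_mul, one_div_mul_one_div]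
            · obtain ⟨hyU, -⟩ := Finset.mem_filter.mp hy
              obtain ⟨a, b, c⟩ := hUmem y hyU
              exact Finset.mem_product.mpr ⟨mem_plists.mpr ⟨a, fun p hp ↦ Finset.mem_filter.mpr
                ⟨mem_primesSc.mpr ⟨(b p hp).1.prime, (b p hp).2⟩, (b p hp).1⟩⟩, c⟩
        _ = (∑ p ∈ P, 1 / ((p - 1 : ℕ) : ℝ)) ^ k * S := by
            rw [Finset.sum_product, ← sum_plists, hS, Finset.sum_mul_sum]
        _ ≤ _ := by gcongr
    have h2 : ∑ z ∈ (U2.biUnion fun y ↦ (sh y).image fun q ↦ (q, y)), F z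
        ≤ (C * (L:ℝ)) ^ k * S * δ := by
      rw [Finset.sum_biUnion]
      swap
      · intro y _ y' _ hne
        simp only [Function.onFun, Finset.disjoint_left, Finset.mem_image, not_exists, not_and]
        rintro z ⟨q, -, rfl⟩ q' - he
        exact hne (Prod.ext_iff.mp he).2.symm
      refine le_trans (Finset.sum_le_sum fun y hy ↦ ?_)
        (le_trans (le_of_eq (Finset.sum_mul _ _ _).symm)
          (mul_le_mul_of_nonneg_right hU2sum (Real.exp_pos _).le))
      rw [Finset.sum_image fun a _ b _ hab ↦ (Prod.ext_iff.mp hab).1]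
      simp only [hF]
      rw [← Finset.sum_mul, mul_comm]
      refine mul_le_mul_of_nonneg_left ?_ (by positivity)
      obtain ⟨hyU, -⟩ := Finset.mem_filter.mp hy
      obtain ⟨hlen, hnorm, hyT⟩ := hUmem y hyU
      obtain ⟨ht1, ht2, -⟩ := hT _ hyT
      have hne : prodPred y.1 ≠ 0 := prodPred_ne_zero fun p hp ↦ (hnorm p hp).1.prime
      refine hshare _ (sh y) (Nat.mul_pos (Nat.pos_of_ne_zero hne) ht1) ?_ fun q hq ↦ ?_
      · rw [Nat.cast_mul, Real.log_mul (Nat.cast_ne_zero.mpr hne)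
          (Nat.cast_ne_zero.mpr (by omega))]
        have h1 := log_prodPred_le (qs := y.1) (s := L)
          fun p hp ↦ ⟨(hnorm p hp).1.prime, (hnorm p hp).2⟩
        rw [hlen] at h1
        have hkR : (k:ℝ) ≤ L := by exact_mod_cast (by omega : k ≤ L)
        have h2 : Real.log (y.2 : ℕ) ≤ Real.exp (2 * (L:ℝ)) + 1 := by
          refine (Real.log_le_log (by exact_mod_cast ht1)
            (show ((y.2:ℕ):ℝ) ≤ Real.exp (Real.exp (2 * (L:ℝ)) + 1) from ?_)).trans_eq
            (Real.log_exp _)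
          refine le_trans (Nat.cast_le.mpr ht2) ?_
          have hce := (Nat.ceil_lt_add_one (Real.exp_pos (Real.exp (2 * (L:ℝ)))).le).le
          rw [Real.exp_add]
          have he1 : (2:ℝ) ≤ Real.exp 1 := by linarith [Real.add_one_le_exp (1:ℝ)]
          have := Real.one_le_exp (Real.exp_pos (2 * (L:ℝ))).le
          have := mul_le_mul_of_nonneg_left he1 (Real.exp_pos (Real.exp (2 * (L:ℝ)))).le
          unfold tailBound
          linarith
        have e3 : Real.exp (3 * (L:ℝ)) = Real.exp (2 * (L:ℝ)) * Real.exp (L:ℝ) := by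
          rw [← Real.exp_add]; ring_nf
        have e2 : Real.exp (2 * (L:ℝ)) = Real.exp (L:ℝ) * Real.exp (L:ℝ) := by
          rw [← Real.exp_add]; ring_nf
        have hEL : (L:ℝ) + 3 ≤ Real.exp (L:ℝ) := by
          have := Real.quadratic_le_exp_of_nonneg (by linarith : (0:ℝ) ≤ L)
          nlinarith
        have hE1 : 1 ≤ Real.exp (L:ℝ) := Real.one_le_exp (by linarith)
        have hE2 : 1 ≤ Real.exp (2 * (L:ℝ)) := Real.one_le_exp (by linarith)
        have h1' : (k:ℝ) * Real.exp (L:ℝ) ≤ Real.exp (2 * (L:ℝ)) := by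
          rw [e2]
          gcongr
          linarith
        have h3 : 3 * Real.exp (2 * (L:ℝ)) ≤ Real.exp (3 * (L:ℝ)) := by
          rw [e3, mul_comm (3:ℝ)]
          gcongr
          linarith
        linarith
      · obtain ⟨hqP, hl⟩ := Finset.mem_filter.mp hq
        obtain ⟨hqm, -⟩ := Finset.mem_filter.mp hqP
        exact ⟨(mem_primesSc.mp hqm).1, (mem_primesSc.mp hqm).2.trans (by omega), hl⟩
    have hpow : (C * (L:ℝ)) ^ k * S * δ ≤ (C * (L:ℝ)) ^ (k + 1) * S * δ :=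
      mul_le_mul_of_nonneg_right (mul_le_mul_of_nonneg_right
        (pow_le_pow_right₀ hCL (Nat.le_succ k)) hS0) (Real.exp_pos _).le
    rw [Nat.cast_add k 1, Nat.cast_one]
    rw [pow_succ'] at hpow ⊢
    linarith

/-- Sum over a finite set through an image, with the colliding pairs as error. -/
lemma sum_le_image_add_pairs (A : Finset (List ℕ × ℕ)) :
    ∑ x ∈ A, (1:ℝ) / (cval x.1 x.2 : ℕ)
      ≤ ∑ m ∈ A.image (fun x ↦ cval x.1 x.2), (1:ℝ) / m
        + ∑ x ∈ collPairs A, (1:ℝ) / (cval x.1.1 x.1.2 : ℕ) := by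
  classical
  have hex : ∀ m ∈ A.image (fun x ↦ cval x.1 x.2), ∃ x ∈ A, cval x.1 x.2 = m :=
    fun m hm ↦ by obtain ⟨x, hx, he⟩ := Finset.mem_image.mp hm; exact ⟨x, hx, he⟩
  choose! rep hrepA hrepval using hex
  set R := A.filter fun x ↦ rep (cval x.1 x.2) = x with hR
  set N := A.filter fun x ↦ ¬ rep (cval x.1 x.2) = x with hN
  rw [← Finset.sum_filter_add_sum_filter_not A (fun x ↦ rep (cval x.1 x.2) = x)]
  refine add_le_add ?_ ?_
  · have hinj : Set.InjOn (fun x : List ℕ × ℕ ↦ cval x.1 x.2) (R : Set _) := by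
      intro x hx y hy hxy
      rw [Finset.mem_coe, Finset.mem_filter] at hx hy
      simp only at hxy
      rw [← hx.2, ← hy.2, hxy]
    rw [← Finset.sum_image (f := fun m : ℕ ↦ (1:ℝ) / m) hinj]
    exact Finset.sum_le_sum_of_subset_of_nonneg
      (Finset.image_subset_image (Finset.filter_subset _ _)) fun m _ _ ↦ by positivity
  · set g : List ℕ × ℕ → (List ℕ × ℕ) × (List ℕ × ℕ) :=
      fun x ↦ (x, rep (cval x.1 x.2)) with hg
    have hinj : Set.InjOn g (N : Set _) := fun x _ y _ hxy ↦ congrArg Prod.fst hxy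
    refine le_trans (le_of_eq ?_) (Finset.sum_le_sum_of_subset_of_nonneg
      (s := N.image g) (fun z hz ↦ ?_) fun z _ _ ↦ by positivity)
    · rw [Finset.sum_image hinj]
    · obtain ⟨x, hx, rfl⟩ := Finset.mem_image.mp hz
      obtain ⟨hxA, hne⟩ := Finset.mem_filter.mp hx
      have hm := Finset.mem_image_of_mem (fun x : List ℕ × ℕ ↦ cval x.1 x.2) hxA
      exact Finset.mem_filter.mpr ⟨Finset.mem_product.mpr ⟨hxA, hrepA _ hm⟩,
        fun h ↦ hne h.symm, (hrepval _ hm).symm⟩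

lemma ev_pairs_small (k : ℕ) (C : ℝ) (hC : 1 ≤ C) : ∀ᶠ L : ℕ in atTop,
    k * (C * (L:ℝ)) ^ k * (Real.exp (-((L:ℝ) ^ (1/2:ℝ)))
      + Real.exp (L:ℝ) * Real.exp (-(3 * (L:ℝ)))) ≤ 1 := by
  filter_upwards [ev_poly_mul_exp (a := 1/4) (b := 1/2) (by norm_num) (by norm_num)
    (2 * k * C ^ k) k 1 (by norm_num), eventually_ge_atTop 1] with L h hL
  have hL1 : (1:ℝ) ≤ L := by exact_mod_cast hL
  have hsq : (L:ℝ) ^ (1/2:ℝ) ≤ L := by
    conv_rhs => rw [← Real.rpow_one (L:ℝ)]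
    exact Real.rpow_le_rpow_of_exponent_le hL1 (by norm_num)
  have h2 : Real.exp (L:ℝ) * Real.exp (-(3 * (L:ℝ))) ≤ Real.exp (-((L:ℝ) ^ (1/2:ℝ))) := by
    rw [← Real.exp_add]
    exact Real.exp_le_exp.mpr (by linarith)
  calc k * (C * (L:ℝ)) ^ k * (Real.exp (-((L:ℝ) ^ (1/2:ℝ)))
        + Real.exp (L:ℝ) * Real.exp (-(3 * (L:ℝ))))
      ≤ k * (C * (L:ℝ)) ^ k * (2 * Real.exp (-((L:ℝ) ^ (1/2:ℝ)))) := by
        gcongr
        linarith
    _ = 2 * k * C ^ k * (L:ℝ) ^ k * Real.exp (-(1 * (L:ℝ) ^ (1/2:ℝ))) := by rw [one_mul]; ring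
    _ ≤ Real.exp (-((L:ℝ) ^ (1/4:ℝ))) := h
    _ ≤ 1 := Real.exp_le_one_iff.mpr (by
        have : 0 ≤ (L:ℝ) ^ (1/4:ℝ) := by positivity
        linarith)

lemma ev_box_margin (D Cw : ℝ) (hD : 4 ≤ D) : ∀ᶠ L : ℕ in atTop, ∀ X : ℝ,
    (L:ℝ) ^ (9/10 : ℝ) ≤ X → X ≤ L →
      D * (2 * KK L + 1) ≤ X / 4 ∧ 2 * KK L ≤ X / 2 ∧ Cw + 1 ≤ X / (8 * D) ∧
      4 * KK L + 1 ≤ 0.15 * L := by
  filter_upwards [ev_mul_rpow_le (a := 4/5) (b := 9/10) (by norm_num) (12 * D + 40),
    ev_const_le_rpow (b := 9/10) (by norm_num) (8 * D * (|Cw| + 1)), eventually_ge_atTop 1]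
    with L h1 h2 hL X hX hXL
  have hL1 : (1:ℝ) ≤ L := by exact_mod_cast hL
  have hKK1 : (1:ℝ) ≤ KK L := Real.one_le_rpow hL1 (by norm_num)
  have hKKd : KK L = (L:ℝ) ^ (4/5:ℝ) := rfl
  rw [← hKKd] at h1
  refine ⟨?_, ?_, ?_, ?_⟩
  · nlinarith
  · nlinarith
  · rw [le_div_iff₀ (by linarith)]
    have := le_abs_self Cw
    nlinarith
  · nlinarith

/-- **Box bound.** -/
theorem boxBound (j : ℕ) : BoxBound j := by
  classical
  intro k hk1 _
  obtain ⟨Cw, hCw1, hwin⟩ := boxSet_sum_ge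
  obtain ⟨Cp, hCp1, hpairs⟩ := exists_lead_pairs
  obtain ⟨Cn, hCn1, hnonsqf⟩ := exists_nonsqf_le
  set D : ℝ := errFac k k * ((k:ℝ) + 1) ^ 2 with hD
  have hk1' : (1:ℝ) ≤ k := by exact_mod_cast hk1
  have hD4 : 4 ≤ D := by
    rw [hD]
    calc (4:ℝ) = 1 * 2 ^ 2 := by norm_num
      _ ≤ _ := by
          gcongr
          · exact le_trans zero_le_one (one_le_errFac k k)
          · exact one_le_errFac k k
          · linarith
  refine ⟨3 * (16 * D) ^ k, by
    have : (1:ℝ) ≤ (16 * D) ^ k := one_le_pow₀ (by linarith)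
    linarith, ?_⟩
  filter_upwards [ev_box_lead, hwin, hpairs, hnonsqf, ev_tail_sum_le, ev_cval_le_tailBound,
    ev_pairs_small k (Cp + Cn) (by linarith), ev_box_margin D Cw hD4,
    eventually_ge_atTop (k + 2)]
    with L hlead hwinL hpairsL hnonL htsum hbound hsmall hmargin hkL T hT hX
  have hkL' : k + 2 ≤ L := hkL
  set wid : ℕ → ℕ := fun t ↦ ⌊Xof L k t / (4 * D)⌋₊ with hwid
  set cc : ℕ → ℝ := fun t ↦ 2 * KK L + wid t + 1 with hcc
  set box : ℕ → Finset (List ℕ) :=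
    fun t ↦ boxSet L (wid t) (cc t) (tauC L t) k with hbox
  have hX0 : ∀ t ∈ T, 0 ≤ Xof L k t := fun t ht ↦ le_trans (by positivity) (hX t ht)
  have hfit : ∀ t ∈ T,
      (∀ x ∈ bld (cc t) k (tauC L t), x + 2 * KK L ≤ L) ∧
      Phid 0 (bld (cc t) k (tauC L t) ++ tauC L t) + 2 * KK L ≤ L ∧
      Xof L k t / (16 * D) ≤ (wid t : ℝ) / 2 ∧ Cw ≤ (wid t : ℝ) := by
    intro t ht
    obtain ⟨m1, m2, m3, m4⟩ := hmargin _ (hX t ht) (Xof_le L k t)
    set X := Xof L k t with hXdef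
    have hXL : X ≤ L := Xof_le L k t
    have hw1 : (wid t : ℝ) ≤ X / (4 * D) :=
      Nat.floor_le (div_nonneg (hX0 t ht) (by linarith))
    have hw2 : X / (4 * D) < (wid t : ℝ) + 1 := Nat.lt_floor_add_one _
    have e8 : X / (4 * D) = 2 * (X / (8 * D)) := by field_simp; ring
    have e16 : X / (8 * D) = 2 * (X / (16 * D)) := by field_simp; ring
    have hcc0 : 0 ≤ cc t := by
      have : 0 ≤ KK L := by unfold KK; positivity
      rw [hcc]; positivity
    have htot : Phid 0 (bld (cc t) k (tauC L t) ++ tauC L t) ≤ (L:ℝ) - X + D * cc t := by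
      have h1 := Phid_le_add (bld_le (j := k) hcc0 (tauC L t) k le_rfl) 0 (tauC L t)
      rw [bld_length] at h1
      have h2 : errFac k k * cc t * asum 0 k ≤ D * cc t := by
        rw [hD, mul_right_comm (errFac k k) (((k:ℝ) + 1) ^ 2) (cc t)]
        exact mul_le_mul_of_nonneg_left (asum_zero_le_sq le_rfl)
          (mul_nonneg (le_trans zero_le_one (one_le_errFac k k)) hcc0)
      have h3 : X = (L:ℝ) - Phid 0 (bld 0 k (tauC L t) ++ tauC L t) := rfl
      linarith
    have hDc : D * cc t ≤ X / 2 := by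
      have e : D * cc t = D * (2 * KK L + 1) + D * (wid t : ℝ) := by rw [hcc]; ring
      have h1 : D * (wid t : ℝ) ≤ D * (X / (4 * D)) := mul_le_mul_of_nonneg_left hw1 (by linarith)
      have h2 : D * (X / (4 * D)) = X / 4 := by field_simp
      linarith
    refine ⟨fun x hx ↦ ?_, by linarith, by linarith, by linarith⟩
    obtain ⟨k', rfl⟩ : ∃ k', k = k' + 1 := ⟨k - 1, by omega⟩
    have h := bld_head_le hcc0 (tauC_nonneg L t) k' x hx
    have hw3 : (wid t : ℝ) ≤ (L:ℝ) / 16 := by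
      refine hw1.trans ?_
      calc X / (4 * D) ≤ (L:ℝ) / (4 * D) := by gcongr
        _ ≤ (L:ℝ) / 16 := div_le_div_of_nonneg_left (Nat.cast_nonneg _) (by norm_num) (by linarith)
    have : 1.28 * (x - cc t) ≤ L := by
      have := hX0 t ht
      linarith
    rw [hcc] at this
    simp only at this
    linarith
  have htail : ∀ t ∈ T, IsTail L t ∧ 1 ≤ t ∧ t ≤ tailBound L := fun t ht ↦ by
    obtain ⟨⟨h1, h2⟩, h3⟩ := mem_tailSet.mp (hT ht)
    exact ⟨h3, h1, h2⟩
  have hprop : ∀ t ∈ T, ∀ us ∈ box t, us.length = k ∧ (∀ p ∈ us, Normal L p ∧ sc p ≤ L) ∧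
      Chain L (us ++ (canon L t).1) (canon L t).2 ∧
      cval (us ++ (canon L t).1) (canon L t).2 = prodPred us * t ∧
      (SqfBig L (prodPred us * t) →
        Lead L k (us ++ (canon L t).1, (canon L t).2) ∧ IsMin L (prodPred us * t)) := by
    intro t ht us hus
    obtain ⟨hc, -, hval⟩ := canon_spec (htail t ht).1
    obtain ⟨f1, f2, -, -⟩ := hfit t ht
    obtain ⟨p1, p2, p3, p4, p5, p6⟩ := hlead k (wid t) (cc t) _ _ hc rfl f1 us hus
    have hv : cval (us ++ (canon L t).1) (canon L t).2 = prodPred us * t := by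
      conv_rhs => rw [← hval]
      rw [cval, cval, prodPred_append, mul_assoc]
    refine ⟨p1, p2, p3, hv, fun hs ↦ ⟨p6 (hv ▸ hs),
      ⟨us ++ (canon L t).1, (canon L t).2, ⟨p3, hv ▸ hs, ?_, ?_⟩, hv⟩⟩⟩
    · intro q hq
      obtain ⟨k', rfl⟩ : ∃ k', k = k' + 1 := ⟨k - 1, by omega⟩
      refine le_trans (add_le_add ?_ le_rfl)
        (f1 (hd (bld (cc t) (k' + 1) (scs (canon L t).1))) (by rw [bld]; exact List.mem_cons_self))
      refine le_trans ?_ (le_trans p5 (le_of_eq rfl))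
      cases hl : us ++ (canon L t).1 with
      | nil => rw [hl] at hq; simp at hq
      | cons a l =>
        rw [hl] at hq
        have hs := p3.sorted
        rw [hl, List.pairwise_cons] at hs
        simp only [scs, List.map_cons, hd_cons]
        rcases List.mem_cons.mp hq with rfl | hql
        · exact le_rfl
        · exact_mod_cast sc_mono (hs.1 q hql).le
    · exact le_trans (add_le_add p4 le_rfl) (hfit t ht).2.1
  set P0 : Finset (List ℕ × ℕ) := T.biUnion fun t ↦ (box t).image fun us ↦ (us, t) with hP0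
  have hP0mem : ∀ x ∈ P0, x.2 ∈ T ∧ x.1 ∈ box x.2 := by
    intro x hx
    obtain ⟨t, ht, hx'⟩ := Finset.mem_biUnion.mp hx
    obtain ⟨us, hus, rfl⟩ := Finset.mem_image.mp hx'
    exact ⟨ht, hus⟩
  have hP0sum : ∑ x ∈ P0, (1:ℝ) / (prodPred x.1 * x.2 : ℕ)
      = ∑ t ∈ T, (1 / (t:ℝ)) * ∑ us ∈ box t, 1 / (prodPred us : ℝ) := by
    rw [hP0, Finset.sum_biUnion]
    · refine Finset.sum_congr rfl fun t _ ↦ ?_
      rw [Finset.sum_image fun a _ b _ hab ↦ (Prod.ext_iff.mp hab).1, Finset.mul_sum]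
      refine Finset.sum_congr rfl fun us _ ↦ ?_
      rw [Nat.cast_mul, one_div_mul_one_div, mul_comm]
    · intro t _ t' _ hne
      simp only [Function.onFun, Finset.disjoint_left, Finset.mem_image, not_exists, not_and]
      rintro z ⟨us, -, rfl⟩ us' - he
      exact hne (Prod.ext_iff.mp he).2.symm
  set G := P0.filter fun x ↦ SqfBig L (prodPred x.1 * x.2) with hG
  set B := P0.filter fun x ↦ ¬ SqfBig L (prodPred x.1 * x.2) with hB
  set cfg : List ℕ × ℕ → List ℕ × ℕ :=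
    fun x ↦ (x.1 ++ (canon L x.2).1, (canon L x.2).2) with hcfg
  set A := G.image cfg with hA
  have hGmem : ∀ x ∈ G, x.2 ∈ T ∧ x.1 ∈ box x.2 ∧ SqfBig L (prodPred x.1 * x.2) := fun x hx ↦ by
    obtain ⟨h1, h2⟩ := Finset.mem_filter.mp hx
    exact ⟨(hP0mem x h1).1, (hP0mem x h1).2, h2⟩
  have hcfgdrop : ∀ x ∈ G, (cfg x).1.drop k = (canon L x.2).1 ∧
      cval ((cfg x).1.drop k) (cfg x).2 = x.2 := by
    intro x hx
    obtain ⟨h1, h2, -⟩ := hGmem x hx
    have e : (cfg x).1.drop k = (canon L x.2).1 := by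
      rw [hcfg]; exact List.drop_left' (hprop _ h1 _ h2).1
    exact ⟨e, by rw [e]; exact (canon_spec (htail _ h1).1).2.2⟩
  have hcfginj : Set.InjOn cfg (G : Set _) := by
    intro x hx y hy hxy
    have h2 : x.2 = y.2 := by rw [← (hcfgdrop x hx).2, hxy, (hcfgdrop y hy).2]
    have h1 := congrArg Prod.fst hxy
    simp only [hcfg, h2] at h1
    exact Prod.ext (List.append_cancel_right h1) h2
  have hAlead : ∀ z ∈ A, Lead L k z := by
    intro z hz
    obtain ⟨x, hx, rfl⟩ := Finset.mem_image.mp hz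
    obtain ⟨h1, h2, h3⟩ := hGmem x hx
    exact ((hprop _ h1 _ h2).2.2.2.2 h3).1
  have hAsame : ∀ z ∈ A, ∀ z' ∈ A, cval (z.1.drop k) z.2 = cval (z'.1.drop k) z'.2 →
      z.1.drop k = z'.1.drop k ∧ z.2 = z'.2 := by
    intro z hz z' hz' he
    obtain ⟨x, hx, rfl⟩ := Finset.mem_image.mp hz
    obtain ⟨y, hy, rfl⟩ := Finset.mem_image.mp hz'
    rw [(hcfgdrop x hx).2, (hcfgdrop y hy).2] at he
    exact ⟨by rw [(hcfgdrop x hx).1, (hcfgdrop y hy).1, he], by simp only [hcfg, he]⟩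
  have hIn : ∑ x ∈ G, (1:ℝ) / (prodPred x.1 * x.2 : ℕ) ≤ ∑ m ∈ minSet L, (1:ℝ) / m
      + k * (Cp * (L:ℝ)) ^ k * Real.exp (-((L:ℝ) ^ (1/2:ℝ))) := by
    have e : ∑ x ∈ G, (1:ℝ) / (prodPred x.1 * x.2 : ℕ)
        = ∑ z ∈ A, (1:ℝ) / (cval z.1 z.2 : ℕ) := by
      rw [hA, Finset.sum_image hcfginj]
      refine Finset.sum_congr rfl fun x hx ↦ ?_
      obtain ⟨h1, h2, -⟩ := hGmem x hx
      rw [(hprop _ h1 _ h2).2.2.2.1]
    rw [e]
    refine (sum_le_image_add_pairs A).trans (add_le_add ?_ (hpairsL k A hAlead hAsame))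
    refine Finset.sum_le_sum_of_subset_of_nonneg (fun m hm ↦ ?_) fun m _ _ ↦ by positivity
    obtain ⟨z, hz, rfl⟩ := Finset.mem_image.mp hm
    obtain ⟨x, hx, rfl⟩ := Finset.mem_image.mp hz
    obtain ⟨h1, h2, h3⟩ := hGmem x hx
    obtain ⟨-, -, p3, p4, p5⟩ := hprop _ h1 _ h2
    exact mem_minSet.mpr ⟨hbound _ _ p3, p4 ▸ (p5 h3).2⟩
  have hBsum : ∑ x ∈ B, (1:ℝ) / (prodPred x.1 * x.2 : ℕ)
      ≤ k * (Cn * (L:ℝ)) ^ k * (Real.exp (L:ℝ) * Real.exp (-(3 * (L:ℝ)))) := by
    refine (hnonL k T B hkL' (fun t ht ↦ ⟨(htail t ht).2.1, (htail t ht).2.2,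
      (canon_spec (htail t ht).1).2.1⟩) fun x hx ↦ ?_).trans ?_
    · obtain ⟨h1, h2⟩ := Finset.mem_filter.mp hx
      obtain ⟨h3, h4⟩ := hP0mem x h1
      exact ⟨(hprop _ h3 _ h4).1, (hprop _ h3 _ h4).2.1, h3, h2⟩
    · rw [← mul_assoc]
      gcongr
      exact (Finset.sum_le_sum_of_subset_of_nonneg hT fun t _ _ ↦ by positivity).trans htsum
  have hIn1 : (1:ℝ) ≤ ∑ m ∈ minSet L, (1:ℝ) / m ∨ T = ∅ := by
    rcases T.eq_empty_or_nonempty with h | ⟨t, ht⟩
    · exact Or.inr h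
    · left
      obtain ⟨-, m2, -, -⟩ := hmargin _ (hX t ht) (Xof_le L k t)
      have := Xof_le L k t
      have := hX0 t ht
      exact le_trans (by simp) (Finset.single_le_sum (f := fun m : ℕ ↦ (1:ℝ) / m)
        (fun m _ ↦ by positivity) (one_mem_minSet (by linarith)))
  rcases hIn1 with hIn1 | hTe
  swap
  · rw [hTe, Finset.sum_empty]
    have := Finset.sum_nonneg (s := minSet L) (f := fun m : ℕ ↦ (1:ℝ) / m) fun m _ ↦ by positivity
    positivity
  have herr : k * (Cp * (L:ℝ)) ^ k * Real.exp (-((L:ℝ) ^ (1/2:ℝ)))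
      + k * (Cn * (L:ℝ)) ^ k * (Real.exp (L:ℝ) * Real.exp (-(3 * (L:ℝ)))) ≤ 1 := by
    refine le_trans ?_ hsmall
    rw [mul_add]
    gcongr <;> linarith
  have htot : ∑ x ∈ P0, (1:ℝ) / (prodPred x.1 * x.2 : ℕ)
      ≤ 3 * ∑ m ∈ minSet L, (1:ℝ) / m := by
    rw [← Finset.sum_filter_add_sum_filter_not P0 (fun x ↦ SqfBig L (prodPred x.1 * x.2))]
    linarith
  calc ∑ t ∈ T, Xof L k t ^ k / (t:ℝ)
      ≤ ∑ t ∈ T, (16 * D) ^ k * ((1 / (t:ℝ)) * ∑ us ∈ box t, 1 / (prodPred us : ℝ)) := by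
        refine Finset.sum_le_sum fun t ht ↦ ?_
        obtain ⟨f1, -, f3, f4⟩ := hfit t ht
        have hw := hwinL k (wid t) (cc t) (tauC L t) (tauC_nonneg L t) rfl f4 f1
        have hpow : Xof L k t ^ k ≤ (16 * D) ^ k * ((wid t : ℝ) / 2) ^ k := by
          rw [← mul_pow]
          refine pow_le_pow_left₀ (hX0 t ht) ?_ k
          rw [div_le_iff₀ (by linarith)] at f3
          linarith
        calc Xof L k t ^ k / (t:ℝ) ≤ (16 * D) ^ k * ((wid t : ℝ) / 2) ^ k / (t:ℝ) := by gcongr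
          _ ≤ (16 * D) ^ k * (∑ us ∈ box t, 1 / (prodPred us : ℝ)) / (t:ℝ) := by gcongr
          _ = _ := by ring
    _ = (16 * D) ^ k * ∑ x ∈ P0, (1:ℝ) / (prodPred x.1 * x.2 : ℕ) := by
        rw [hP0sum, Finset.mul_sum]
    _ ≤ (16 * D) ^ k * (3 * ∑ m ∈ minSet L, (1:ℝ) / m) := by gcongr
    _ = _ := by ring

end Vale.Agent.P031
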