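import Mathlib
import Vale.Agent.P031.Cfg
import Vale.Agent.Common.PNT

/-!
Auxiliary facts for the deduction of the Erdős–Hall regularity: bounds for the prime counting
function at large quotients, the size of interior multipliers, and a dyadic covering lemma.
-/

namespace Vale.Agent.P031

open Finset Real Filter Topology

/-- The main term: primes that can head a totient with an interior multiplier. -/
noncomputable def mainSum (L N : ℕ) : ℝ :=
  ∑ m ∈ minSet L, (Nat.primeCounting (N / m + 1) : ℝ)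

lemma ev_primeCounting_bounds : ∀ᶠ n : ℕ in atTop,
    (n:ℝ) / (2 * Real.log n) ≤ (Nat.primeCounting n : ℝ) ∧
      (Nat.primeCounting n : ℝ) ≤ 2 * n / Real.log n := by
  have h := Vale.Agent.Common.PNT.tendsto_primeCounting_nat
  filter_upwards [h.eventually (le_mem_nhds (show (1/2:ℝ) < 1 by norm_num)),
    h.eventually (ge_mem_nhds (show (1:ℝ) < 2 by norm_num)), eventually_ge_atTop 2]
    with n h1 h2 hn
  have hn2 : (2:ℝ) ≤ n := by exact_mod_cast hn
  have hl : 0 < Real.log n := Real.log_pos (by linarith)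
  rw [le_div_iff₀ (by linarith)] at h1
  rw [div_le_iff₀ (by linarith)] at h2
  constructor
  · rw [div_le_iff₀ (by positivity)]
    linarith
  · rw [le_div_iff₀ hl]
    linarith

lemma ev_primeCounting_scale {a η : ℝ} (ha : 0 < a) (hη : 0 < η) :
    ∀ᶠ n : ℕ in atTop, ∀ k : ℕ, (k:ℝ) ≤ a * n + 1 →
      (Nat.primeCounting k : ℝ) ≤ (a + η) * Nat.primeCounting n := by
  have hc : 0 < a + η / 2 := by linarith
  have h := ((Vale.Agent.Common.PNT.tendsto_primeCounting_mul_div hc).comp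
    tendsto_natCast_atTop_atTop).eventually (ge_mem_nhds (show a + η / 2 < a + η by linarith))
  filter_upwards [h, eventually_ge_atTop 2,
    tendsto_natCast_atTop_atTop.eventually (eventually_ge_atTop (2 / η))] with n hn hn2 hnη k hk
  simp only [Function.comp_apply, Nat.floor_natCast] at hn
  have hpos : (0:ℝ) < Nat.primeCounting n := by
    refine Nat.cast_pos.mpr (Nat.pos_of_ne_zero fun h0 ↦ ?_)
    have := Nat.primeCounting_eq_zero_iff.mp h0
    omega
  rw [div_le_iff₀ hpos] at hn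
  refine le_trans ?_ hn
  refine Nat.cast_le.mpr (Nat.monotone_primeCounting (Nat.le_floor ?_))
  rw [div_le_iff₀ hη] at hnη
  linarith

lemma exp_sub_two_lt_log {L N : ℕ} (hL : 2 ≤ L) (hLN : L ≤ sc N + 1) :
    Real.exp ((L:ℝ) - 2) < Real.log N := by
  refine lt_of_le_of_lt (Real.exp_le_exp.mpr ?_) (exp_sc_pred_lt (n := N) (by omega))
  have : (L:ℝ) ≤ (sc N : ℝ) + 1 := by exact_mod_cast hLN
  linarith

/-- The real quotient is below the natural one plus one. -/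
lemma div_lt_quot {N m : ℕ} (hm : 1 ≤ m) : (N:ℝ) / m < ((N / m + 1 : ℕ) : ℝ) := by
  have := Nat.lt_floor_add_one ((N:ℝ) / m)
  rw [Nat.floor_div_eq_div] at this
  exact_mod_cast this

lemma quot_le_two_mul {N m : ℕ} (hm : 1 ≤ m) (hmN : m ≤ N) :
    ((N / m + 1 : ℕ) : ℝ) ≤ 2 * ((N:ℝ) / m) := by
  have h1 : ((N / m : ℕ) : ℝ) ≤ (N:ℝ) / m := Nat.cast_div_le
  have h2 : (1:ℝ) ≤ (N:ℝ) / m := by
    rw [one_le_div (by exact_mod_cast hm)]
    exact_mod_cast hmN
  push_cast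
  linarith

lemma log_quot_ge {N m : ℕ} (hm : 1 ≤ m) (hN : 1 ≤ N) :
    Real.log N - Real.log m ≤ Real.log ((N / m + 1 : ℕ) : ℝ) := by
  have hm' : (0:ℝ) < m := by exact_mod_cast hm
  have hN' : (0:ℝ) < N := by exact_mod_cast hN
  rw [← Real.log_div hN'.ne' hm'.ne']
  exact Real.log_le_log (by positivity) (div_lt_quot hm).le

lemma le_of_log_le {N m : ℕ} (hN : 1 ≤ N) (h : Real.log m ≤ 3/4 * Real.log N) : m ≤ N := by
  rcases Nat.eq_zero_or_pos m with rfl | hm
  · exact Nat.zero_le _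
  · have : Real.log m ≤ Real.log N := h.trans (by linarith [Real.log_natCast_nonneg N])
    have := (Real.log_le_log_iff (by exact_mod_cast hm) (by exact_mod_cast hN)).mp this
    exact_mod_cast this

lemma ev_quot_ge (n₀ : ℕ) : ∀ᶠ L : ℕ in atTop, ∀ N m : ℕ, L ≤ sc N + 1 → 1 ≤ m →
    Real.log m ≤ 3/4 * Real.log N → n₀ ≤ N / m + 1 := by
  filter_upwards [eventually_ge_atTop 2,
    tendsto_natCast_atTop_atTop.eventually (eventually_ge_atTop ((2:ℝ) + 4 * n₀))]
    with L hL2 hL N m hLN hm hlog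
  have h1 := exp_sub_two_lt_log hL2 hLN
  have hN : 1 ≤ N := by
    rcases Nat.eq_zero_or_pos N with rfl | h
    · rw [sc_zero] at hLN; omega
    · exact h
  have h2 := log_quot_ge hm hN
  have h3 := Real.add_one_le_exp ((L:ℝ) - 2)
  have h4 : Real.log ((N / m + 1 : ℕ) : ℝ) ≤ ((N / m + 1 : ℕ) : ℝ) :=
    Real.log_le_self (Nat.cast_nonneg _)
  have h5 : (n₀:ℝ) ≤ ((N / m + 1 : ℕ) : ℝ) := by linarith
  exact_mod_cast h5

lemma ev_widths : ∀ᶠ L : ℕ in atTop,
    2 * KK L ≤ L ∧ KA L + 2 ≤ KK L ∧ (K0 L : ℝ) + 3 ≤ L ∧ 3 ≤ KK L := by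
  filter_upwards [ev_mul_rpow_le (a := 4/5) (b := 1) (by norm_num) 2,
    ev_mul_rpow_le (a := 13/20) (b := 4/5) (by norm_num) 2,
    ev_const_le_rpow (b := 4/5) (by norm_num) 4,
    ev_mul_rpow_le (a := 7/10) (b := 1) (by norm_num) 2, eventually_ge_atTop 10]
    with L h1 h2 h3 h4 hL
  rw [Real.rpow_one] at h1 h4
  have hL' : (10:ℝ) ≤ L := by exact_mod_cast hL
  refine ⟨h1, ?_, ?_, ?_⟩
  · unfold KA KK; linarith
  · have hc := Nat.ceil_lt_add_one (a := (L:ℝ) ^ (7/10:ℝ)) (by positivity)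
    have : (K0 L : ℝ) < (L:ℝ) ^ (7/10:ℝ) + 1 := hc
    linarith
  · unfold KK; linarith

lemma ev_one_mem_minSet : ∀ᶠ L : ℕ in atTop, 1 ∈ minSet L := by
  filter_upwards [ev_widths, ev_cval_le_tailBound] with L hw htb
  have hc : Chain L [] 1 :=
    { sorted := List.Pairwise.nil
      normal := fun q hq ↦ by simp at hq
      scale := fun q hq ↦ by simp at hq
      len := Nat.zero_le _
      step := fun a q rest he ↦ by simp at he
      tail := ⟨1, one_pos, Nat.totient_one,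
        fun l hl hd ↦ absurd (Nat.dvd_one.mp hd) hl.one_lt.ne', by simp; positivity⟩ }
  have h1 : cval [] 1 = 1 := by simp [cval, prodPred]
  rw [mem_minSet]
  refine ⟨h1 ▸ htb [] 1 hc, [], 1, ⟨hc, ?_, fun q hq ↦ by simp at hq, ?_⟩, h1⟩
  · rw [h1]
    intro l hl _ hd
    have := Nat.le_of_dvd one_pos hd
    nlinarith [hl.two_le]
  · simpa [Phi, scs, Phid_nil] using hw.1

lemma ev_one_le_sum_minSet : ∀ᶠ L : ℕ in atTop, 1 ≤ ∑ m ∈ minSet L, (1:ℝ) / m := by
  filter_upwards [ev_one_mem_minSet] with L h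
  calc (1:ℝ) = 1 / ((1:ℕ):ℝ) := by simp
    _ ≤ _ := Finset.single_le_sum (f := fun m : ℕ ↦ (1:ℝ) / m) (fun i _ ↦ by positivity) h

/-- Interior multipliers are tiny compared to `N`. -/
lemma ev_minSet_log_le : ∀ᶠ L : ℕ in atTop, ∀ m ∈ minSet L,
    Real.log m ≤ Real.exp ((L:ℝ) - 2) / 4 := by
  filter_upwards [ev_widths, ev_K0_small, ev_log_le_rpow (b := 4/5) (by norm_num) 1,
    ev_const_le_rpow (b := 4/5) (by norm_num) 30, eventually_ge_atTop 2]
    with L hw hK hlog h30 hL m hm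
  obtain ⟨-, qs, w, ⟨hc, -, hq, -⟩, rfl⟩ := mem_minSet.mp hm
  have hL' : (2:ℝ) ≤ L := by exact_mod_cast hL
  set s := ⌊(L:ℝ) - 2 * KK L⌋₊ with hs
  have hs' : (s:ℝ) ≤ (L:ℝ) - 2 * KK L := Nat.floor_le (by linarith [hw.1])
  have hb := hc.log_cval_le (s := s) fun q h ↦ Nat.le_floor (by linarith [hq q h])
  refine hb.trans ?_
  have hk : (kk L : ℝ) ≤ 2 * (L:ℝ) := by
    refine (kk_le (by omega)).trans ?_
    gcongr
    simpa using Real.rpow_le_rpow_of_exponent_le (show (1:ℝ) ≤ L by linarith)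
      (by norm_num : (1/100:ℝ) ≤ 1)
  have h1 : (kk L : ℝ) * Real.exp (s:ℝ) ≤ Real.exp ((L:ℝ) - 2) / 12 := by
    calc (kk L : ℝ) * Real.exp (s:ℝ) ≤ (2 * (L:ℝ)) * Real.exp ((L:ℝ) - 2 * KK L) := by gcongr
      _ = (24 * (L:ℝ)) * Real.exp ((L:ℝ) - 2 * KK L) / 12 := by ring
      _ ≤ _ := by
          gcongr
          rw [← Real.exp_log (show (0:ℝ) < 24 * L by positivity), ← Real.exp_add]
          refine Real.exp_le_exp.mpr ?_
          rw [Real.log_mul (by norm_num) (by linarith)]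
          have := Real.log_le_sub_one_of_pos (show (0:ℝ) < 24 by norm_num)
          unfold KK
          linarith
  have h2 : (L:ℝ) ^ 3 * Real.exp (K0 L) ≤ Real.exp ((L:ℝ) - 2) / 6 := by
    have h := hK.2
    rw [show (L:ℝ) - 1 = 1 + ((L:ℝ) - 2) by ring, Real.exp_add] at h
    have := mul_le_mul_of_nonneg_right Real.exp_one_lt_d9.le (Real.exp_pos ((L:ℝ) - 2)).le
    linarith [Real.exp_pos ((L:ℝ) - 2)]
  linarith

lemma ev_minSet_log_le' : ∀ᶠ L : ℕ in atTop, ∀ N : ℕ, L ≤ sc N + 1 → ∀ m ∈ minSet L,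
    Real.log m ≤ 1/4 * Real.log N := by
  filter_upwards [ev_minSet_log_le, eventually_ge_atTop 2] with L h hL N hLN m hm
  linarith [h m hm, exp_sub_two_lt_log hL hLN]

/-- The main term dominates the reciprocal sum. -/
lemma ev_sum_le_mainSum : ∀ᶠ L : ℕ in atTop, ∀ N : ℕ, sc N = L →
    (N:ℝ) / Real.exp (L:ℝ) * ∑ m ∈ minSet L, (1:ℝ) / m ≤ 4 * mainSum L N := by
  obtain ⟨n₀, hn₀⟩ := Filter.eventually_atTop.mp ev_primeCounting_bounds
  filter_upwards [ev_minSet_log_le', ev_quot_ge n₀, eventually_ge_atTop 2]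
    with L hlog hq hL N hN
  rw [Finset.mul_sum, mainSum, Finset.mul_sum]
  refine Finset.sum_le_sum fun m hm ↦ ?_
  have hm1 := (mem_minSet.mp hm).1.1
  have hl := hlog N (by omega) m hm
  have hl0 := Real.log_natCast_nonneg N
  have hlt := exp_sub_two_lt_log (N := N) hL (by omega)
  have hN1 : 1 ≤ N := by
    rcases Nat.eq_zero_or_pos N with rfl | h
    · rw [sc_zero] at hN; omega
    · exact h
  set M := N / m + 1 with hM
  have hb := (hn₀ M (hq N m (by omega) hm1 (by linarith))).1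
  have hM1 : 1 < (M:ℝ) := by
    by_contra hcon
    rw [not_lt] at hcon
    have := log_quot_ge hm1 hN1
    have := Real.log_nonpos (Nat.cast_nonneg M) hcon
    linarith [Real.exp_pos ((L:ℝ) - 2)]
  have hlogM : Real.log M ≤ 2 * Real.exp (L:ℝ) := by
    have h1 : (M:ℝ) ≤ 2 * (N:ℝ) := by
      have := Nat.div_le_self N m
      have : M ≤ 2 * N := by omega
      exact_mod_cast this
    have h2 := Real.log_le_log (by linarith) h1
    rw [Real.log_mul (by norm_num) (by positivity)] at h2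
    have := log_le_exp_sc N
    rw [hN] at this
    have := Real.log_two_lt_d9
    linarith [Real.one_le_exp (Nat.cast_nonneg (α := ℝ) L)]
  calc (N:ℝ) / Real.exp (L:ℝ) * (1 / (m:ℝ)) = (N:ℝ) / m / Real.exp (L:ℝ) := by field_simp
    _ ≤ (M:ℝ) / Real.exp (L:ℝ) := by gcongr; exact (div_lt_quot hm1).le
    _ = 4 * ((M:ℝ) / (2 * (2 * Real.exp (L:ℝ)))) := by field_simp; ring
    _ ≤ 4 * ((M:ℝ) / (2 * Real.log M)) := by
        have := Real.log_pos hM1
        gcongr
    _ ≤ _ := by linarith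

/-- Covering `(Q₀, M]` by dyadic ranges. -/
lemma dyadic_card_le {P : ℕ → Prop} {Q₀ Mmax : ℕ} {c : ℝ} (hc : 0 ≤ c) (hQ₀ : 2 ≤ Q₀)
    (h : ∀ Q : ℕ, ∀ S : Finset ℕ, Q₀ ≤ Q → Q ≤ Mmax → (∀ q ∈ S, P q ∧ Q < q ∧ q ≤ 2 * Q) →
      (S.card : ℝ) ≤ Q * c) :
    ∀ M : ℕ, M ≤ Mmax → ∀ S : Finset ℕ, (∀ q ∈ S, P q ∧ Q₀ < q ∧ q ≤ M) →
      (S.card : ℝ) ≤ 2 * M * c := by
  classical
  intro M
  induction M using Nat.strong_induction_on with
  | _ M ih =>
  intro hMmax S hS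
  rcases S.eq_empty_or_nonempty with rfl | ⟨q, hq⟩
  · simp; positivity
  have hQM : Q₀ < M := lt_of_lt_of_le (hS q hq).2.1 (hS q hq).2.2
  have hQMr : (Q₀:ℝ) ≤ M := by exact_mod_cast hQM.le
  by_cases h2 : M ≤ 2 * Q₀
  · refine (h Q₀ S le_rfl (by omega) fun x hx ↦
      ⟨(hS x hx).1, (hS x hx).2.1, (hS x hx).2.2.trans h2⟩).trans ?_
    refine mul_le_mul_of_nonneg_right ?_ hc
    linarith [Nat.cast_nonneg (α := ℝ) Q₀]
  · set Q := (M + 1) / 2 with hQ
    have e1 : (S.filter fun x ↦ x ≤ Q).card ≤ (2 * Q * c : ℝ) := by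
      refine ih Q (by omega) (by omega) _ fun x hx ↦ ?_
      obtain ⟨hxS, hxQ⟩ := Finset.mem_filter.mp hx
      exact ⟨(hS x hxS).1, (hS x hxS).2.1, hxQ⟩
    have e2 : ((S.filter fun x ↦ ¬ x ≤ Q).card : ℝ) ≤ Q * c := by
      refine h Q _ (by omega) (by omega) fun x hx ↦ ?_
      obtain ⟨hxS, hxQ⟩ := Finset.mem_filter.mp hx
      have := (hS x hxS).2.2
      exact ⟨(hS x hxS).1, by omega, by omega⟩
    have e3 : (S.card : ℝ)
        = (S.filter fun x ↦ x ≤ Q).card + (S.filter fun x ↦ ¬ x ≤ Q).card := by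
      exact_mod_cast (Finset.card_filter_add_card_filter_not (s := S) fun x ↦ x ≤ Q).symm
    have e4 : 3 * (Q:ℝ) ≤ 2 * M := by exact_mod_cast (by omega : 3 * Q ≤ 2 * M)
    have := mul_le_mul_of_nonneg_right e4 hc
    rw [e3]
    linarith

end Vale.Agent.P031
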