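import Mathlib
import Vale.Agent.P031.MainAux

/-!
The lower bound: almost all pairs (normal prime, interior multiplier) give distinct totients.
-/

namespace Vale.Agent.P031

open Finset Real Filter Topology

lemma card_primeFactors_mul_log_two_le {m : ℕ} (hm : 1 ≤ m) :
    (m.primeFactors.card : ℝ) * Real.log 2 ≤ Real.log m := by
  have h1 : 2 ^ m.primeFactors.card ≤ m :=
    (Finset.pow_card_le_prod _ _ 2 fun l hl ↦ (Nat.prime_of_mem_primeFactors hl).two_le).trans
      (Nat.le_of_dvd hm (Nat.prod_primeFactors_dvd m))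
  rw [← Real.log_pow]
  exact Real.log_le_log (by positivity) (by exact_mod_cast h1)

/-- Primes `p` for which `(p - 1) m` is not square-free at large primes. -/
lemma card_not_sqf_mul_le {L N m : ℕ} (hm : 1 ≤ m) (hsq : SqfBig L m) (S : Finset ℕ)
    (hS : ∀ p ∈ S, p.Prime ∧ p ≤ N / m + 1 ∧ SqfBig L (p - 1) ∧ ¬ SqfBig L ((p - 1) * m)) :
    (S.card : ℝ) ≤ (N:ℝ) / m * (Real.log m / Real.log 2)
      * Real.exp (-Real.exp ((K0 L / 2 : ℕ) : ℝ)) := by
  classical
  set Ls := m.primeFactors.filter fun l ↦ K0 L < 2 * sc l with hLs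
  have hsub : S.image (fun p ↦ p - 1) ⊆
      Ls.biUnion fun l ↦ (Icc 1 (N / m)).filter fun n ↦ l ∣ n := by
    intro n hn
    obtain ⟨p, hp, rfl⟩ := Finset.mem_image.mp hn
    obtain ⟨hpp, hle, hsp, hns⟩ := hS p hp
    simp only [SqfBig, not_forall, not_not] at hns
    obtain ⟨l, hl, hlK, hdvd⟩ := hns
    have hlm : l ∣ m := by
      by_contra h
      exact hsp l hl hlK
        ((Nat.Coprime.pow_left 2 (hl.coprime_iff_not_dvd.mpr h)).dvd_of_dvd_mul_right hdvd)
    have hlp : l ∣ p - 1 := by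
      by_contra h
      exact hsq l hl hlK
        ((Nat.Coprime.pow_left 2 (hl.coprime_iff_not_dvd.mpr h)).dvd_of_dvd_mul_left hdvd)
    have := hpp.two_le
    exact Finset.mem_biUnion.mpr
      ⟨l, Finset.mem_filter.mpr ⟨Nat.mem_primeFactors.mpr ⟨hl, hlm, by omega⟩, hlK⟩,
        Finset.mem_filter.mpr ⟨Finset.mem_Icc.mpr ⟨by omega, by omega⟩, hlp⟩⟩
  have hinj : Set.InjOn (fun p : ℕ ↦ p - 1) S := by
    intro x hx y hy hxy
    have := (hS x hx).1.two_le
    have := (hS y hy).1.two_le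
    simp only at hxy
    omega
  have hcard : S.card ≤ ∑ l ∈ Ls, N / m / l := by
    rw [← Finset.card_image_of_injOn hinj]
    exact (Finset.card_le_card hsub).trans
      (Finset.card_biUnion_le.trans (Finset.sum_le_sum fun l _ ↦ (card_dvd_le _ _).le))
  set e := Real.exp (-Real.exp ((K0 L / 2 : ℕ) : ℝ)) with he
  calc (S.card : ℝ) ≤ ((∑ l ∈ Ls, N / m / l : ℕ) : ℝ) := by exact_mod_cast hcard
    _ ≤ ∑ _l ∈ Ls, (N:ℝ) / m * e := by
        push_cast
        refine Finset.sum_le_sum fun l hl ↦ ?_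
        obtain ⟨hlm, hlK⟩ := Finset.mem_filter.mp hl
        have hl0 : (0:ℝ) < l := by exact_mod_cast (Nat.prime_of_mem_primeFactors hlm).pos
        refine Nat.cast_div_le.trans ?_
        rw [div_eq_mul_inv ((N / m : ℕ) : ℝ) (l:ℝ)]
        refine mul_le_mul Nat.cast_div_le ?_ (by positivity) (by positivity)
        rw [he, Real.exp_neg]
        refine inv_anti₀ (Real.exp_pos _) ?_
        rw [← Real.exp_log hl0]
        exact Real.exp_le_exp.mpr (lt_sc_iff.mp (by omega)).le
    _ = (Ls.card : ℝ) * ((N:ℝ) / m * e) := by rw [Finset.sum_const, nsmul_eq_mul]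
    _ ≤ Real.log m / Real.log 2 * ((N:ℝ) / m * e) := by
        refine mul_le_mul_of_nonneg_right ?_ (by positivity)
        rw [le_div_iff₀ (by positivity)]
        refine le_trans ?_ (card_primeFactors_mul_log_two_le hm)
        exact mul_le_mul_of_nonneg_right
          (Nat.cast_le.mpr (Finset.card_filter_le _ _)) (by positivity)
    _ = _ := by ring

lemma ev_lower_small {δ : ℝ} (hδ : 0 < δ) : ∀ᶠ L : ℕ in atTop,
    16 * Real.exp (-((L:ℝ) ^ (1/10 : ℝ))) ≤ δ / 4 ∧
      8 * Real.exp (-(L:ℝ)) ≤ δ / 4 ∧ 512 / δ ≤ Real.exp ((L:ℝ) - 2) := by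
  filter_upwards [ev_const_le_rpow (b := 1/10) (by norm_num) (64 / δ),
    tendsto_natCast_atTop_atTop.eventually (eventually_ge_atTop (512 / δ + 3)),
    eventually_ge_atTop 1] with L h1 h2 hL
  have hpos : 0 < 512 / δ := by positivity
  refine ⟨?_, ?_, ?_⟩
  · have he : 64 / δ ≤ Real.exp ((L:ℝ) ^ (1/10:ℝ)) := by
      linarith [Real.add_one_le_exp ((L:ℝ) ^ (1/10:ℝ))]
    rw [Real.exp_neg, ← div_eq_mul_inv, div_le_div_iff₀ (Real.exp_pos _) (by norm_num)]
    rw [div_le_iff₀ hδ] at he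
    linarith
  · have he : 512 / δ ≤ Real.exp (L:ℝ) := by linarith [Real.add_one_le_exp (L:ℝ)]
    rw [Real.exp_neg, ← div_eq_mul_inv, div_le_div_iff₀ (Real.exp_pos _) (by norm_num)]
    rw [div_le_iff₀ hδ] at he
    linarith
  · linarith [Real.add_one_le_exp ((L:ℝ) - 2)]

/-- For each interior multiplier nearly all admissible primes can be used. -/
lemma ev_goodPrimes {δ : ℝ} (hδ : 0 < δ) : ∀ᶠ L : ℕ in atTop, ∀ N : ℕ, sc N = L →
    ∀ m ∈ minSet L, ∃ P : Finset ℕ,
      (1 - δ) * (Nat.primeCounting (N / m + 1) : ℝ) ≤ P.card ∧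
        ∀ p ∈ P, p.Prime ∧ Normal L p ∧ (p - 1) * m ≤ N ∧ N < p * p ∧
          SqfBig L ((p - 1) * m) := by
  obtain ⟨n₀, hn₀⟩ := Filter.eventually_atTop.mp ev_primeCounting_bounds
  filter_upwards [ev_minSet_log_le', ev_quot_ge n₀, ev_abnormal_count, ev_widths, ev_K0_bound,
    ev_lower_small hδ, eventually_ge_atTop 4]
    with L hlog hquot habn hw hK0 hsmall hL N hN m hm
  classical
  obtain ⟨hsm1, hsm2, hsm3⟩ := hsmall
  obtain ⟨⟨hm1, -⟩, qs, w, ⟨-, hsqm, -, -⟩, hcv⟩ := mem_minSet.mp hm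
  rw [hcv] at hsqm
  have hL' : (4:ℝ) ≤ L := by exact_mod_cast hL
  have hlm : Real.log m ≤ 1/4 * Real.log N := hlog N (by omega) m hm
  have hlt := exp_sub_two_lt_log (N := N) (L := L) (by omega) (by omega)
  have hlN : Real.log N ≤ Real.exp (L:ℝ) := by
    have := log_le_exp_sc N; rwa [hN] at this
  have hlogN : 1 < Real.log N := lt_of_le_of_lt (Real.one_le_exp (by linarith)) hlt
  have hN4 : 4 ≤ N := by
    by_contra hcon
    have h1 : sc N ≤ sc 4 := sc_mono (by omega)
    have h2 : sc 4 ≤ 1 := by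
      rw [sc_le_iff, show ((4:ℕ):ℝ) = 2 ^ 2 by norm_num, Real.log_pow]
      have := Real.log_two_lt_d9
      have := Real.add_one_le_exp (1:ℝ)
      push_cast
      linarith
    omega
  have hN1r : (1:ℝ) ≤ N := by exact_mod_cast (by omega : 1 ≤ N)
  set s := Nat.sqrt N with hs
  have hs2 : 2 ≤ s := Nat.le_sqrt.mpr (by omega)
  set M := N / m + 1 with hM
  have hM1 : (N:ℝ) / m < M := div_lt_quot hm1
  have hMle : M ≤ 2 * N := by have := Nat.div_le_self N m; omega
  set π' := (Nat.primeCounting M : ℝ) with hπ'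
  have hMlog : (M:ℝ) ≤ 4 * Real.log N * π' := by
    have hb := (hn₀ M (hquot N m (by omega) hm1 (by linarith))).1
    have hMr : (M:ℝ) ≤ 2 * N := by exact_mod_cast hMle
    have h2 : Real.log M ≤ 2 * Real.log N := by
      have h := Real.log_le_log (by positivity) hMr
      rw [Real.log_mul (by norm_num) (by linarith)] at h
      linarith [Real.log_two_lt_d9]
    have h3 : 0 < Real.log M := by
      have := log_quot_ge hm1 (by omega : 1 ≤ N)
      rw [← hM] at this
      linarith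
    rw [div_le_iff₀ (by positivity), ← hπ'] at hb
    refine hb.trans ?_
    rw [mul_comm]
    refine mul_le_mul_of_nonneg_right ?_ (Nat.cast_nonneg _)
    linarith
  have hπ0 : 0 ≤ π' := Nat.cast_nonneg _
  set P := (Nat.primesLE M).filter fun p ↦ N < p * p ∧ Normal L p ∧ SqfBig L ((p - 1) * m) with hP
  refine ⟨P, ?_, fun p hp ↦ ?_⟩
  swap
  · obtain ⟨hp', h1, h2, h3⟩ := Finset.mem_filter.mp hp
    obtain ⟨hle, hpp⟩ := Nat.mem_primesLE.mp hp'
    have := hpp.two_le
    exact ⟨hpp, h2, (Nat.le_div_iff_mul_le hm1).mp (show p - 1 ≤ N / m by omega), h1, h3⟩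
  set A := (Nat.primesLE M).filter fun p ↦ p * p ≤ N with hA
  set B := (Nat.primesLE M).filter fun p ↦ N < p * p ∧ ¬ Normal L p with hB
  set D := (Nat.primesLE M).filter fun p ↦
    SqfBig L (p - 1) ∧ ¬ SqfBig L ((p - 1) * m) with hD
  have hcover : Nat.primesLE M ⊆ ((P ∪ A) ∪ B) ∪ D := by
    intro p hp
    simp only [Finset.mem_union, hP, hA, hB, hD, Finset.mem_filter]
    by_cases h1 : N < p * p
    swap
    · exact Or.inl (Or.inl (Or.inr ⟨hp, not_lt.mp h1⟩))
    by_cases h2 : Normal L p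
    swap
    · exact Or.inl (Or.inr ⟨hp, h1, h2⟩)
    by_cases h3 : SqfBig L ((p - 1) * m)
    · exact Or.inl (Or.inl (Or.inl ⟨hp, h1, h2, h3⟩))
    · exact Or.inr ⟨hp, h2.sqf, h3⟩
  have hpi : π' ≤ (P.card : ℝ) + A.card + B.card + D.card := by
    have h := (Finset.card_le_card hcover).trans ((Finset.card_union_le _ _).trans
      (Nat.add_le_add_right ((Finset.card_union_le _ _).trans
        (Nat.add_le_add_right (Finset.card_union_le _ _) _)) _))
    rw [Nat.primesLE_card_eq_primeCounting] at h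
    rw [hπ']
    exact_mod_cast h
  have hA' : (A.card : ℝ) ≤ δ / 4 * π' := by
    have h1 : A.card ≤ s := by
      refine (Finset.card_le_card (t := Icc 1 s) fun p hp ↦ ?_).trans_eq (by simp)
      obtain ⟨hp', hle⟩ := Finset.mem_filter.mp hp
      exact Finset.mem_Icc.mpr
        ⟨(Nat.prime_of_mem_primesLE hp').pos, Nat.le_sqrt.mpr hle⟩
    have h2 : (s:ℝ) ≤ Real.exp (Real.log N / 2) := by
      rw [← Real.exp_log (show (0:ℝ) < s by positivity)]
      refine Real.exp_le_exp.mpr ?_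
      have := Real.log_le_log (by positivity)
        (show ((s:ℝ)) ^ 2 ≤ N by exact_mod_cast Nat.sqrt_le' N)
      rw [Real.log_pow] at this
      push_cast at this
      linarith
    have h3 : Real.exp (3/4 * Real.log N) ≤ M := by
      refine le_trans ?_ hM1.le
      calc Real.exp (3/4 * Real.log N) ≤ Real.exp (Real.log N - Real.log m) :=
            Real.exp_le_exp.mpr (by linarith)
        _ = _ := by rw [Real.exp_sub, Real.exp_log (by linarith), Real.exp_log (by exact_mod_cast hm1)]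
    have h4 : 16 * Real.log N ≤ δ * Real.exp (Real.log N / 4) := by
      have hq := Real.quadratic_le_exp_of_nonneg (show 0 ≤ Real.log N / 4 by linarith)
      have h512 : 512 ≤ δ * Real.log N := by
        have := mul_le_mul_of_nonneg_left (le_trans hsm3 hlt.le) hδ.le
        rwa [mul_div_cancel₀ _ hδ.ne'] at this
      calc 16 * Real.log N = 512 * Real.log N / 32 := by ring
        _ ≤ δ * Real.log N * Real.log N / 32 := by gcongr
        _ = δ * ((Real.log N / 4) ^ 2 / 2) := by ring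
        _ ≤ δ * Real.exp (Real.log N / 4) := by gcongr; linarith
    have h5 : 16 * Real.log N * Real.exp (Real.log N / 2) ≤ δ * (4 * Real.log N * π') := by
      calc 16 * Real.log N * Real.exp (Real.log N / 2)
          ≤ δ * Real.exp (Real.log N / 4) * Real.exp (Real.log N / 2) := by gcongr
        _ = δ * Real.exp (3/4 * Real.log N) := by rw [mul_assoc, ← Real.exp_add]; ring_nf
        _ ≤ δ * M := by gcongr
        _ ≤ _ := by gcongr
    have h6 : (A.card : ℝ) ≤ Real.exp (Real.log N / 2) :=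
      le_trans (by exact_mod_cast h1) h2
    refine h6.trans (le_of_mul_le_mul_left ?_ (show 0 < 16 * Real.log N by positivity))
    linarith
  have hB' : (B.card : ℝ) ≤ δ / 4 * π' := by
    set Z := Real.exp (-((L:ℝ) ^ (1/10:ℝ))) with hZ
    have hlog0 : 0 < Real.log N := by linarith
    refine le_trans (dyadic_card_le (P := fun q ↦ q.Prime ∧ ¬ Normal L q) (Q₀ := s)
      (Mmax := 2 * N) (c := 2 / Real.log N * Z) (by positivity) hs2 ?_ M hMle B ?_) ?_
    · intro Q S hQ0 hQN hS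
      have hsc2 : sc (2 * Q) ≤ L + 3 := by
        have h1 := sc_mono (show 2 * Q ≤ 2 * (2 * N) by omega)
        have h2 := sc_two_mul_le (Q := 2 * N) (by omega)
        have h3 := sc_two_mul_le (Q := N) (by omega)
        omega
      have hlQ : Real.log N / 2 ≤ Real.log ((2 * Q : ℕ) : ℝ) := by
        have h1 : N < (s + 1) * (s + 1) := Nat.lt_succ_sqrt N
        have h2 : (s + 1) * (s + 1) ≤ (2 * Q) * (2 * Q) :=
          Nat.mul_le_mul (by omega) (by omega)
        have h3 : (N:ℝ) ≤ ((2 * Q : ℕ) : ℝ) ^ 2 := by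
          rw [sq]; exact_mod_cast (by omega : N ≤ (2 * Q) * (2 * Q))
        have := Real.log_le_log (by linarith) h3
        rw [Real.log_pow] at this
        push_cast at this ⊢
        linarith
      have hK : K0 L ≤ sc (2 * Q) := by
        have h1 : L - 2 < sc (2 * Q) := by
          rw [lt_sc_iff, Nat.cast_sub (by omega : 2 ≤ L)]
          push_cast
          push_cast at hlQ
          refine lt_of_lt_of_le ?_ hlQ
          have hp := exp_sc_pred_lt (n := N) (by omega)
          rw [hN, show (L:ℝ) - 1 = 1 + ((L:ℝ) - 2) by ring, Real.exp_add] at hp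
          have := mul_le_mul_of_nonneg_right (show (2:ℝ) ≤ Real.exp 1 by
            linarith [Real.add_one_le_exp (1:ℝ)]) (Real.exp_pos ((L:ℝ) - 2)).le
          linarith
        have h2 : K0 L + 3 ≤ L := by exact_mod_cast hw.2.2.1
        omega
      refine (habn Q S hsc2 hK fun q hq ↦
        ⟨(hS q hq).1.1, (hS q hq).2.1, (hS q hq).2.2, (hS q hq).1.2⟩).trans ?_
      calc (Q:ℝ) / Real.log ((2 * Q : ℕ) : ℝ) * Z ≤ (Q:ℝ) / (Real.log N / 2) * Z := by gcongr
        _ = _ := by ring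
    · intro q hq
      obtain ⟨hq', h1, h2⟩ := Finset.mem_filter.mp hq
      exact ⟨⟨Nat.prime_of_mem_primesLE hq', h2⟩, Nat.sqrt_lt.mpr h1,
        Nat.le_of_mem_primesLE hq'⟩
    · calc 2 * (M:ℝ) * (2 / Real.log N * Z) ≤ 2 * (4 * Real.log N * π') * (2 / Real.log N * Z) := by
            gcongr
        _ = 16 * Z * π' := by field_simp; ring
        _ ≤ _ := by gcongr
  have hD' : (D.card : ℝ) ≤ δ / 4 * π' := by
    refine (card_not_sqf_mul_le (N := N) hm1 hsqm D fun p hp ↦ ?_).trans ?_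
    · obtain ⟨hp', h1, h2⟩ := Finset.mem_filter.mp hp
      exact ⟨Nat.prime_of_mem_primesLE hp', Nat.le_of_mem_primesLE hp', h1, h2⟩
    · have hl2 := Real.log_two_gt_d9
      have hm0 : 0 ≤ Real.log m := Real.log_natCast_nonneg m
      have h1 : Real.log m / Real.log 2 ≤ Real.exp (L:ℝ) := by
        rw [div_le_iff₀ (by positivity)]
        have h := mul_le_mul_of_nonneg_left hl2.le (Real.exp_pos (L:ℝ)).le
        linarith [Real.exp_pos (L:ℝ)]
      have h2 : Real.exp (-Real.exp ((K0 L / 2 : ℕ) : ℝ)) ≤ Real.exp (-3 * (L:ℝ)) :=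
        Real.exp_le_exp.mpr (by linarith [hK0.2])
      calc (N:ℝ) / m * (Real.log m / Real.log 2) * Real.exp (-Real.exp ((K0 L / 2 : ℕ) : ℝ))
          ≤ (M:ℝ) * Real.exp (L:ℝ) * Real.exp (-3 * (L:ℝ)) := by gcongr
        _ ≤ 4 * Real.exp (L:ℝ) * π' * Real.exp (L:ℝ) * Real.exp (-3 * (L:ℝ)) := by
            gcongr
            exact hMlog.trans (by gcongr)
        _ = 4 * (Real.exp (L:ℝ) * Real.exp (L:ℝ) * Real.exp (-3 * (L:ℝ))) * π' := by ring
        _ = 4 * Real.exp (-(L:ℝ)) * π' := by rw [← Real.exp_add, ← Real.exp_add]; ring_nf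
        _ ≤ _ := by
            refine mul_le_mul_of_nonneg_right ?_ hπ0
            linarith [Real.exp_pos (-(L:ℝ))]
  have : 0 ≤ δ * π' := by positivity
  linarith

/-- A set maps to at least its size minus the number of colliding ordered pairs. -/
lemma card_le_image_add_collisions {α β : Type*} [DecidableEq α] [DecidableEq β]
    (P : Finset α) (f : α → β) :
    P.card ≤ (P.image f).card
      + ((P ×ˢ P).filter fun x ↦ x.1 ≠ x.2 ∧ f x.1 = f x.2).card := by
  set Sp := (P ×ˢ P).filter fun x ↦ x.1 ≠ x.2 ∧ f x.1 = f x.2 with hSp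
  set G := P.filter fun a ↦ ∀ b ∈ P, f a = f b → a = b with hG
  have hG' : G.card ≤ (P.image f).card := by
    refine Finset.card_le_card_of_injOn f (fun a ha ↦ ?_) fun a ha b hb hab ↦ ?_
    · exact Finset.mem_image_of_mem f (Finset.mem_filter.mp ha).1
    · exact (Finset.mem_filter.mp ha).2 b (Finset.mem_filter.mp hb).1 hab
  have hrest : (P.filter fun a ↦ ¬ ∀ b ∈ P, f a = f b → a = b).card ≤ Sp.card := by
    refine (Finset.card_le_card fun a ha ↦ ?_).trans (Finset.card_image_le (f := Prod.fst))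
    obtain ⟨haP, hne⟩ := Finset.mem_filter.mp ha
    push Not at hne
    obtain ⟨b, hb, hfab, hab⟩ := hne
    exact Finset.mem_image.mpr
      ⟨(a, b), Finset.mem_filter.mpr ⟨Finset.mem_product.mpr ⟨haP, hb⟩, hab, hfab⟩, rfl⟩
  have := Finset.card_filter_add_card_filter_not (s := P) (fun a ↦ ∀ b ∈ P, f a = f b → a = b)
  rw [hG] at hG'
  omega

/-- A good pair gives a totient and a configuration. -/
lemma ev_good_pair : ∀ᶠ L : ℕ in atTop, ∀ (N p : ℕ) (qs : List ℕ) (w : ℕ), sc N = L →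
    InCfg L qs w → p.Prime → Normal L p → (p - 1) * cval qs w ≤ N → N < p * p →
    SqfBig L ((p - 1) * cval qs w) →
    CollCfg L N (p :: qs, w) ∧ IsTot ((p - 1) * cval qs w) := by
  filter_upwards [ev_widths, eventually_ge_atTop 4] with L hw hL
  intro N p qs w hN hin hp hnorm hle hNp hsq
  obtain ⟨hc, -, hq, hphi⟩ := hin
  obtain ⟨-, -, hK0, hKK⟩ := hw
  have hL' : (4:ℝ) ≤ L := by exact_mod_cast hL
  have hlt := exp_sub_two_lt_log (L := L) (N := N) (by omega) (by omega)
  have hN0 : 0 < N := by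
    rcases Nat.eq_zero_or_pos N with rfl | h
    · rw [sc_zero] at hN; omega
    · exact h
  have h2 := hp.two_le
  have hlp : Real.log N ≤ 2 * Real.log p := by
    have h : (N:ℝ) ≤ (p:ℝ) ^ 2 := by rw [sq]; exact_mod_cast hNp.le
    have := Real.log_le_log (by exact_mod_cast hN0) h
    rw [Real.log_pow] at this
    push_cast at this
    linarith
  have hscp : L - 2 < sc p := by
    rw [lt_sc_iff, Nat.cast_sub (by omega : 2 ≤ L)]
    push_cast
    have hp := exp_sc_pred_lt (n := N) (by omega)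
    rw [hN, show (L:ℝ) - 1 = 1 + ((L:ℝ) - 2) by ring, Real.exp_add] at hp
    have := mul_le_mul_of_nonneg_right (show (2:ℝ) ≤ Real.exp 1 by
      linarith [Real.add_one_le_exp (1:ℝ)]) (Real.exp_pos ((L:ℝ) - 2)).le
    linarith
  have hscp' : sc p ≤ L + 3 := by
    have hpN : p - 1 ≤ N := le_trans (Nat.le_mul_of_pos_right _ hc.cval_pos) hle
    have hN2 : 2 ≤ N := by
      by_contra hcon
      have := sc_mono (show N ≤ 1 by omega)
      have h1 : sc 1 = 0 := by simp [sc]
      omega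
    exact (sc_mono (show p ≤ 2 * N by omega)).trans ((sc_two_mul_le hN2).trans (by omega))
  have hltp : ∀ x ∈ qs, x < p := by
    intro x hx
    by_contra hcon
    have h1 := sc_mono (not_lt.mp hcon)
    have h2 : (L:ℝ) - 2 < (sc p : ℝ) := by
      have : L < sc p + 2 := by omega
      have : (L:ℝ) < (sc p : ℝ) + 2 := by exact_mod_cast this
      linarith
    have h3 : (sc p : ℝ) ≤ sc x := by exact_mod_cast h1
    linarith [hq x hx]
  have hK0p : K0 L < sc p := by
    have : K0 L + 3 ≤ L := by exact_mod_cast hK0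
    omega
  have hsorted : (p :: qs).Pairwise (· > ·) := List.pairwise_cons.mpr ⟨hltp, hc.sorted⟩
  refine ⟨⟨p, qs, rfl, hsorted, ?_, ?_, ?_, hc.w_pos,
    fun l hl hd ↦ hc.w_prime_sc hl hd, ?_, ?_, ?_, ?_, ?_⟩, ?_⟩
  · intro x hx
    rcases List.mem_cons.mp hx with rfl | h
    · exact hnorm
    · exact hc.normal x h
  · intro x hx
    rcases List.mem_cons.mp hx with rfl | h
    · exact ⟨hK0p, hscp'⟩
    · exact hc.scale x h
  · have := hc.len
    simp only [List.length_cons]
    omega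
  · rw [cval_cons]; exact hsq
  · rw [cval_cons]; exact hle
  · have h3 : Real.exp (sc N : ℝ) ≤ 3 * Real.log N :=
      exp_sc_le_three_mul (le_trans (Real.one_le_exp (by linarith)) hlt.le)
    have h6 : (6:ℝ) ≤ (L:ℝ) ^ 5 := by
      calc (6:ℝ) ≤ 4 ^ 5 := by norm_num
        _ ≤ _ := by gcongr
    have := mul_le_mul_of_nonneg_right h6 (Real.log_natCast_nonneg p)
    linarith
  · intro x hx
    rw [hN]
    linarith [hq x hx]
  · rw [hN]; linarith
  · obtain ⟨n, hn, htot, hsn, -⟩ := hc.tail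
    refine ⟨(p :: qs).prod * n, Nat.mul_pos (List.prod_pos fun q hq' ↦ ?_) hn, ?_⟩
    · rcases List.mem_cons.mp hq' with rfl | h
      · exact hp.pos
      · exact (hc.normal q h).prime.pos
    · rw [totient_prod_mul (p :: qs) n hsorted, htot, cval_cons]
      intro q hq'
      rcases List.mem_cons.mp hq' with rfl | h
      · exact ⟨hp, fun hd ↦ absurd (hsn q hp hd) (by omega)⟩
      · exact ⟨(hc.normal q h).prime,
          fun hd ↦ absurd (hsn q (hc.normal q h).prime hd) (by have := (hc.scale q h).1; omega)⟩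

/-- The lower bound for the number of totients. -/
theorem ev_lower (hcoll : CollisionBound) {δ : ℝ} (hδ : 0 < δ) : ∀ᶠ L : ℕ in atTop,
    ∀ N : ℕ, sc N = L → (1 - δ) * mainSum L N ≤ (Vn N : ℝ) := by
  filter_upwards [hcoll, ev_goodPrimes (half_pos hδ), ev_good_pair, ev_sum_le_mainSum,
    ev_one_le_sum_minSet,
    ev_const_le_rpow (b := 3/4) (by norm_num) (8 / δ)]
    with L hc hgood hpair hmain hone hbig N hN
  classical
  choose! P hP1 hP2 using hgood N hN
  have hrep : ∀ m ∈ minSet L, ∃ c : List ℕ × ℕ, InCfg L c.1 c.2 ∧ cval c.1 c.2 = m := by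
    intro m hm
    obtain ⟨-, qs, w, h1, h2⟩ := mem_minSet.mp hm
    exact ⟨(qs, w), h1, h2⟩
  choose! rep hrep1 hrep2 using hrep
  set Pairs := (minSet L).sigma P with hPairs
  set f : (Σ _ : ℕ, ℕ) → ℕ := fun x ↦ (x.2 - 1) * x.1 with hf
  set g : (Σ _ : ℕ, ℕ) → List ℕ × ℕ := fun x ↦ (x.2 :: (rep x.1).1, (rep x.1).2) with hg
  have hfacts : ∀ x ∈ Pairs, CollCfg L N (g x) ∧ IsTot (f x) ∧ f x ≤ N ∧
      cval (g x).1 (g x).2 = f x ∧ 1 ≤ f x := by
    intro x hx
    obtain ⟨hm, hp⟩ := Finset.mem_sigma.mp hx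
    obtain ⟨hpp, hn, hle, hsq', hsq⟩ := hP2 x.1 hm x.2 hp
    have hval := hrep2 x.1 hm
    rw [← hval] at hle hsq
    obtain ⟨h1, h2⟩ := hpair N x.2 _ _ hN (hrep1 x.1 hm) hpp hn hle hsq' hsq
    rw [hval] at hle h2
    refine ⟨h1, h2, hle, by rw [hg, hf, cval_cons, hval], ?_⟩
    exact Nat.mul_pos (by have := hpp.two_le; omega) (mem_minSet.mp hm).1.1
  have hcardP : (1 - δ / 2) * mainSum L N ≤ (Pairs.card : ℝ) := by
    rw [hPairs, Finset.card_sigma, mainSum, Finset.mul_sum, Nat.cast_sum]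
    exact Finset.sum_le_sum fun m hm ↦ hP1 m hm
  set Sp := (Pairs ×ˢ Pairs).filter fun x ↦ x.1 ≠ x.2 ∧ f x.1 = f x.2 with hSp
  have hinj : Set.InjOn g Pairs := by
    intro a ha b hb hab
    have hval := congrArg (fun c : List ℕ × ℕ ↦ cval c.1 c.2) hab
    simp only [(hfacts a ha).2.2.2.1, (hfacts b hb).2.2.2.1] at hval
    have hp : a.2 = b.2 := by
      have := congrArg (fun c : List ℕ × ℕ ↦ c.1.head?) hab
      simpa [hg] using this
    obtain ⟨hm, hpa⟩ := Finset.mem_sigma.mp ha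
    have hpos : 0 < b.2 - 1 := by
      have := (hP2 a.1 hm a.2 hpa).1.two_le
      omega
    simp only [hf, hp] at hval
    exact Sigma.ext (Nat.eq_of_mul_eq_mul_left hpos hval) (heq_of_eq hp)
  set T := Sp.image fun x ↦ (g x.1, g x.2) with hT
  have hTcard : T.card = Sp.card := by
    refine Finset.card_image_of_injOn fun x hx y hy hxy ↦ ?_
    obtain ⟨hx', -⟩ := Finset.mem_filter.mp hx
    obtain ⟨hy', -⟩ := Finset.mem_filter.mp hy
    obtain ⟨hx1, hx2⟩ := Finset.mem_product.mp hx'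
    obtain ⟨hy1, hy2⟩ := Finset.mem_product.mp hy'
    obtain ⟨h1, h2⟩ := Prod.mk.inj hxy
    exact Prod.ext (hinj hx1 hy1 h1) (hinj hx2 hy2 h2)
  have hbound := hc N T (by omega) fun c hc' ↦ by
    obtain ⟨x, hx, rfl⟩ := Finset.mem_image.mp hc'
    obtain ⟨hx', hne, hfe⟩ := Finset.mem_filter.mp hx
    obtain ⟨h1, h2⟩ := Finset.mem_product.mp hx'
    refine ⟨(hfacts _ h1).1, (hfacts _ h2).1, ?_, fun hh ↦ hne ?_⟩
    · rw [(hfacts _ h1).2.2.2.1, (hfacts _ h2).2.2.2.1, hfe]
    · have hp : x.1.2 = x.2.2 := by simpa [hg] using hh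
      obtain ⟨hm, hpa⟩ := Finset.mem_sigma.mp h1
      have hpos : 0 < x.2.2 - 1 := by
        have := (hP2 x.1.1 hm x.1.2 hpa).1.two_le
        omega
      simp only [hf, hp] at hfe
      exact Sigma.ext (Nat.eq_of_mul_eq_mul_left hpos hfe) (heq_of_eq hp)
  have himage : ((Pairs.image f).card : ℝ) ≤ Vn N := by
    rw [(mem_Vn_filter (m := 0)).1]
    refine Nat.cast_le.mpr (Finset.card_le_card fun v hv ↦ ?_)
    obtain ⟨x, hx, rfl⟩ := Finset.mem_image.mp hv
    obtain ⟨-, h2, h3, -, h5⟩ := hfacts x hx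
    exact Finset.mem_filter.mpr ⟨Finset.mem_Icc.mpr ⟨h5, h3⟩, h2⟩
  have hsmall : (Sp.card : ℝ) ≤ δ / 2 * mainSum L N := by
    rw [hTcard, hN] at hbound
    refine hbound.trans ?_
    have he : Real.exp (-((L:ℝ) ^ (3/4 : ℝ))) ≤ δ / 8 := by
      rw [Real.exp_neg, ← one_div, div_le_div_iff₀ (Real.exp_pos _) (by norm_num)]
      have := mul_le_mul_of_nonneg_left
        (le_trans hbig (by linarith [Real.add_one_le_exp ((L:ℝ) ^ (3/4:ℝ))] :
          (L:ℝ) ^ (3/4:ℝ) ≤ Real.exp ((L:ℝ) ^ (3/4:ℝ)))) hδ.le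
      rw [mul_div_cancel₀ _ hδ.ne'] at this
      linarith
    calc (N:ℝ) / Real.exp (L:ℝ) * Real.exp (-((L:ℝ) ^ (3/4 : ℝ)))
        ≤ (N:ℝ) / Real.exp (L:ℝ) * (∑ m ∈ minSet L, (1:ℝ) / m) * (δ / 8) := by
          refine mul_le_mul ?_ he (Real.exp_pos _).le ?_
          · exact le_mul_of_one_le_right (by positivity) hone
          · exact mul_nonneg (by positivity) (by linarith)
      _ ≤ 4 * mainSum L N * (δ / 8) := mul_le_mul_of_nonneg_right (hmain N hN) (by positivity)
      _ = _ := by ring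
  have hsplit : (Pairs.card : ℝ) ≤ (Pairs.image f).card + Sp.card := by
    exact_mod_cast card_le_image_add_collisions Pairs f
  linarith

end Vale.Agent.P031
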