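import Mathlib
import Vale.Agent.P031.MainAux

/-!
The upper bound: apart from a boundary layer, totients up to `N` have the shape `(q - 1) m` with an
interior multiplier `m`.
-/

namespace Vale.Agent.P031

open Finset Real Filter Topology

lemma ev_crude_factor (C η : ℝ) (hC : 1 ≤ C) (hη : 0 < η) : ∀ᶠ L : ℕ in atTop,
    (1 + C * crudeG (L + 2)) * Real.exp (-((L:ℝ) ^ (1/12 : ℝ))) ≤ η := by
  filter_upwards [ev_log_le_rpow (b := 1/24) (by norm_num) 100,
    ev_const_le_rpow (b := 1/12) (by norm_num) (2 * (2 * C + |Real.log η|)),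
    eventually_ge_atTop 5] with L hlog hc hL
  have hL' : (5:ℝ) ≤ L := by exact_mod_cast hL
  have hG := crudeG_one_le (L + 2)
  have h1 : 1 + C * crudeG (L + 2) ≤ Real.exp (2 * C) * crudeG (L + 2) := by
    have h : 1 + C * crudeG (L + 2) ≤ (1 + C) * crudeG (L + 2) := by linarith
    refine h.trans (mul_le_mul_of_nonneg_right ?_ (by linarith))
    linarith [Real.add_one_le_exp (2 * C)]
  have hl : Real.log (((L + 2 : ℕ) : ℝ) + 3) ≤ 2 * Real.log L := by
    rw [show 2 * Real.log L = ((2:ℕ):ℝ) * Real.log L by norm_num, ← Real.log_pow]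
    refine Real.log_le_log (by positivity) ?_
    push_cast
    nlinarith
  have hl0 : 0 ≤ Real.log (((L + 2 : ℕ) : ℝ) + 3) := Real.log_nonneg (by push_cast; linarith)
  have hsq : 400 * Real.log (((L + 2 : ℕ) : ℝ) + 3) ^ 2 ≤ (L:ℝ) ^ (1/12 : ℝ) / 2 := by
    have h2 : (100 * Real.log (L:ℝ)) ^ 2 ≤ ((L:ℝ) ^ (1/24 : ℝ)) ^ 2 :=
      pow_le_pow_left₀ (by positivity) hlog 2
    have h3 : ((L:ℝ) ^ (1/24 : ℝ)) ^ 2 = (L:ℝ) ^ (1/12 : ℝ) := by
      rw [← Real.rpow_natCast, ← Real.rpow_mul (by linarith)]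
      norm_num
    rw [h3] at h2
    have h4 := pow_le_pow_left₀ hl0 hl 2
    linarith [sq_nonneg (Real.log (L:ℝ))]
  calc (1 + C * crudeG (L + 2)) * Real.exp (-((L:ℝ) ^ (1/12 : ℝ)))
      ≤ Real.exp (2 * C) * crudeG (L + 2) * Real.exp (-((L:ℝ) ^ (1/12 : ℝ))) := by gcongr
    _ = Real.exp (2 * C + 400 * Real.log (((L + 2 : ℕ) : ℝ) + 3) ^ 2
          + -((L:ℝ) ^ (1/12 : ℝ))) := by rw [Real.exp_add, Real.exp_add, crudeG]
    _ ≤ Real.exp (Real.log η) := Real.exp_le_exp.mpr (by linarith [neg_abs_le (Real.log η)])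
    _ = η := Real.exp_log hη

/-- Where the multiplier of a decomposable totient lives. -/
lemma ev_decomp_cases : ∀ᶠ L : ℕ in atTop, ∀ N v : ℕ, sc N ≤ L + 1 → L ≤ sc N + 1 →
    1 ≤ v → v ≤ N → HasDecomp L N v →
    ∃ q m : ℕ, q.Prime ∧ v = (q - 1) * m ∧ q ≤ N / m + 1 ∧
      (m ∈ minSet L ∨ (m ∈ bandSet L ∧ Real.log m ≤ 3/4 * Real.log N)) := by
  filter_upwards [ev_widths, ev_cval_le_tailBound, ev_rest_small, eventually_ge_atTop 4,
    ev_const_le_rpow (b := 1) (by norm_num) 100] with L hw htb hrest hL hL100 N v hscN hLN hv hvN hd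
  rw [Real.rpow_one] at hL100
  obtain ⟨q, qs, w, hc, hval, hsq, -⟩ := hd
  have hqp := (hc.normal q List.mem_cons_self).prime
  have h2 := hqp.two_le
  have hct := hc.tail_of_cons
  set m := cval qs w with hm
  have hvm : v = (q - 1) * m := by rw [hm, ← cval_cons, hval]
  have hm1 : 1 ≤ m := hct.cval_pos
  have hqN : q - 1 ≤ N / m := by
    rw [Nat.le_div_iff_mul_le hm1, ← hvm]; exact hvN
  refine ⟨q, m, hqp, hvm, by omega, ?_⟩
  have hsqm : SqfBig L m := hsq.of_dvd (hvm ▸ dvd_mul_left _ _)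
  have hbd := htb qs w hct
  by_cases hin : InCfg L qs w
  · exact Or.inl (mem_minSet.mpr ⟨hbd, qs, w, hin, rfl⟩)
  have hne : qs ≠ [] := by
    rintro rfl
    exact hin ⟨hct, hsqm, fun x hx ↦ by simp at hx, by simpa [Phi, scs, Phid_nil] using hw.1⟩
  have hN2 : 2 ≤ N := by
    by_contra hcon
    have := sc_mono (show N ≤ 1 by omega)
    have h1 : sc 1 = 0 := by simp [sc]
    omega
  have hscq : sc q ≤ L + 2 := by
    have h := Nat.div_le_self N m
    exact (sc_mono (show q ≤ 2 * N by omega)).trans ((sc_two_mul_le hN2).trans (by omega))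
  have hlt : ∀ x ∈ qs, x < q := fun x hx ↦ (List.pairwise_cons.mp hc.sorted).1 x hx
  refine Or.inr ⟨mem_bandSet.mpr ⟨hbd, qs, w, hne, hct, hsqm,
    fun x hx ↦ (sc_mono (hlt x hx).le).trans hscq, ?_, hin, rfl⟩, ?_⟩
  · have hs := hc.step [] q qs rfl
    have : (sc q : ℝ) ≤ (L:ℝ) + 2 := by exact_mod_cast hscq
    linarith [hw.2.1]
  obtain ⟨q1, t, rfl⟩ : ∃ q1 t, qs = q1 :: t := by
    cases qs with
    | nil => exact absurd rfl hne
    | cons a b => exact ⟨a, b, rfl⟩
  have hr := hrest q (q1 :: t) w hc (by omega)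
  simp only [List.drop_succ_cons, List.drop_zero] at hr
  set r := cval t w with hrdef
  have hr1 : 1 ≤ r := hct.tail_of_cons.cval_pos
  have hq1 := (hct.normal q1 List.mem_cons_self).prime.two_le
  have hmr : m = (q1 - 1) * r := cval_cons q1 t w
  have hsqN : (q1 - 1) * (q1 - 1) ≤ N := by
    refine le_trans ?_ hvN
    rw [hvm, hmr]
    exact Nat.mul_le_mul (by have := hlt q1 List.mem_cons_self; omega)
      (Nat.le_mul_of_pos_right _ hr1)
  have hlogN := exp_sub_two_lt_log (L := L) (by omega) hLN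
  have hlr : Real.log r ≤ 1/4 * Real.log N := by
    refine (sc_le_iff.mp hr).trans ?_
    have h9 : 10 * (9 * L / 10 + 1) ≤ 9 * L + 10 := by omega
    have h9' : 10 * ((9 * L / 10 + 1 : ℕ) : ℝ) ≤ 9 * L + 10 := by exact_mod_cast h9
    have he : Real.exp ((9 * L / 10 + 1 : ℕ) : ℝ) * 4 ≤ Real.exp ((L:ℝ) - 2) := by
      calc Real.exp ((9 * L / 10 + 1 : ℕ) : ℝ) * 4
          ≤ Real.exp ((9 * L / 10 + 1 : ℕ) : ℝ) * Real.exp 3 := by
            gcongr; linarith [Real.add_one_le_exp (3:ℝ)]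
        _ ≤ _ := by rw [← Real.exp_add]; exact Real.exp_le_exp.mpr (by linarith)
    linarith
  have hq1pos : (0:ℝ) < ((q1 - 1 : ℕ) : ℝ) := by exact_mod_cast (by omega : 0 < q1 - 1)
  have hlq : 2 * Real.log ((q1 - 1 : ℕ) : ℝ) ≤ Real.log N := by
    have := Real.log_le_log (Nat.cast_pos.mpr (Nat.mul_pos (by omega) (by omega)))
      (show (((q1 - 1) * (q1 - 1) : ℕ) : ℝ) ≤ N by
      exact_mod_cast hsqN)
    rw [Nat.cast_mul, Real.log_mul hq1pos.ne' hq1pos.ne'] at this
    linarith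
  rw [hmr, Nat.cast_mul, Real.log_mul hq1pos.ne' (by exact_mod_cast (by omega : r ≠ 0))]
  linarith

/-- The upper bound for the number of totients. -/
theorem ev_upper {η : ℝ} (hη : 0 < η) : ∀ᶠ L : ℕ in atTop, ∀ N : ℕ, sc N ≤ L + 1 →
    L ≤ sc N + 1 →
    (Vn N : ℝ) ≤ mainSum L N
      + (N:ℝ) / Real.exp (sc N : ℝ) * (48 * (∑ m ∈ bandSet L, (1:ℝ) / m) + η) := by
  obtain ⟨C, hC1, hC⟩ := exists_crude_bound
  obtain ⟨n₀, hn₀⟩ := Filter.eventually_atTop.mp ev_primeCounting_bounds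
  filter_upwards [ev_decomp, ev_decomp_cases, ev_crude_factor C η hC1 hη, ev_quot_ge n₀,
    eventually_ge_atTop 4] with L hdec hcases hfac hquot hL N hscN hLN
  classical
  set E := Real.exp (sc N : ℝ) with hE
  have hE0 : 0 < E := Real.exp_pos _
  set G := crudeG (L + 2) with hG
  have hG1 : 1 ≤ G := crudeG_one_le _
  have hV : ∀ z : ℕ, z ≤ N → (Vn z : ℝ) ≤ C * G * z / Real.log ((z:ℝ) + 3) := by
    intro z hz
    refine (hC z).trans ?_
    have : 0 < Real.log ((z:ℝ) + 3) := Real.log_pos (by linarith [Nat.cast_nonneg (α := ℝ) z])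
    rw [div_le_div_iff_of_pos_right this]
    calc C * (z:ℝ) * crudeG (sc z) ≤ C * (z:ℝ) * G :=
          mul_le_mul_of_nonneg_left (crudeG_mono ((sc_mono hz).trans (by omega))) (by positivity)
      _ = _ := by ring
  set img := fun m : ℕ ↦ (Nat.primesLE (N / m + 1)).image fun q ↦ (q - 1) * m with himg
  set band := (bandSet L).filter fun m : ℕ ↦ Real.log m ≤ 3/4 * Real.log N with hband
  set Bad := (Icc 1 N).filter fun v ↦ IsTot v ∧ ¬ HasDecomp L N v with hBad
  have hsub : (Icc 1 N).filter IsTot ⊆ ((minSet L).biUnion img ∪ band.biUnion img) ∪ Bad := by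
    intro v hv
    obtain ⟨hI, hT⟩ := Finset.mem_filter.mp hv
    by_cases hd : HasDecomp L N v
    · obtain ⟨q, m, hq, hval, hle, hm⟩ :=
        hcases N v hscN hLN (Finset.mem_Icc.mp hI).1 (Finset.mem_Icc.mp hI).2 hd
      have hmem : v ∈ img m := Finset.mem_image.mpr ⟨q, Nat.mem_primesLE.mpr ⟨hle, hq⟩, hval.symm⟩
      refine Finset.mem_union_left _ ?_
      rcases hm with h | h
      · exact Finset.mem_union_left _ (Finset.mem_biUnion.mpr ⟨m, h, hmem⟩)
      · exact Finset.mem_union_right _ (Finset.mem_biUnion.mpr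
          ⟨m, Finset.mem_filter.mpr ⟨h.1, h.2⟩, hmem⟩)
    · exact Finset.mem_union_right _ (Finset.mem_filter.mpr ⟨hI, hT, hd⟩)
  have himgle : ∀ m, ((img m).card : ℝ) ≤ Nat.primeCounting (N / m + 1) := fun m ↦ by
    rw [← Nat.primesLE_card_eq_primeCounting]
    exact Nat.cast_le.mpr Finset.card_image_le
  have h1 : (((minSet L).biUnion img).card : ℝ) ≤ mainSum L N := by
    refine (Nat.cast_le.mpr Finset.card_biUnion_le).trans ?_
    rw [Nat.cast_sum, mainSum]
    exact Finset.sum_le_sum fun m _ ↦ himgle m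
  have h2 : ((band.biUnion img).card : ℝ)
      ≤ (N:ℝ) / E * (48 * ∑ m ∈ bandSet L, (1:ℝ) / m) := by
    refine (Nat.cast_le.mpr Finset.card_biUnion_le).trans ?_
    rw [Nat.cast_sum, Finset.mul_sum, Finset.mul_sum]
    refine le_trans (Finset.sum_le_sum fun m hm ↦ ?_)
      (Finset.sum_le_sum_of_subset_of_nonneg (Finset.filter_subset _ _) fun i _ _ ↦ by positivity)
    obtain ⟨hmB, hlog⟩ := Finset.mem_filter.mp hm
    have hm1 := (mem_bandSet.mp hmB).1.1
    have hlt := exp_sub_two_lt_log (N := N) (by omega : 2 ≤ L) hLN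
    have hlogN : 0 < Real.log N := lt_trans (Real.exp_pos _) hlt
    have hN1 : 1 ≤ N := by
      rcases Nat.eq_zero_or_pos N with rfl | h
      · rw [sc_zero] at hLN; omega
      · exact h
    set M := N / m + 1 with hM
    have hlM : Real.log N / 4 ≤ Real.log M := by
      have := log_quot_ge hm1 hN1
      linarith
    have hElog : E ≤ 3 * Real.log N := by
      refine exp_sc_le_three_mul (le_trans (Real.one_le_exp ?_) hlt.le)
      have : (4:ℝ) ≤ L := by exact_mod_cast hL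
      linarith
    calc ((img m).card : ℝ) ≤ 2 * (M:ℝ) / Real.log M :=
          (himgle m).trans (hn₀ M (hquot N m hLN hm1 hlog)).2
      _ ≤ 2 * (2 * ((N:ℝ) / m)) / (Real.log N / 4) := by
          gcongr
          exact quot_le_two_mul hm1 (le_of_log_le hN1 hlog)
      _ = (N:ℝ) / m * (16 / Real.log N) := by ring
      _ ≤ (N:ℝ) / m * (48 / E) := by
          gcongr ?_ * ?_
          rw [div_le_div_iff₀ hlogN hE0]
          linarith
      _ = _ := by ring
  have h3 : (Bad.card : ℝ) ≤ (N:ℝ) / E * η := by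
    refine (hdec N (C * G) Bad hscN hLN (by positivity) hV fun v hv ↦ ?_).trans ?_
    · obtain ⟨hI, h1, h2⟩ := Finset.mem_filter.mp hv
      exact ⟨(Finset.mem_Icc.mp hI).1, (Finset.mem_Icc.mp hI).2, h1, h2⟩
    · calc (1 + C * G) * (N:ℝ) / E * Real.exp (-((L:ℝ) ^ (1/12:ℝ)))
          = (N:ℝ) / E * ((1 + C * G) * Real.exp (-((L:ℝ) ^ (1/12:ℝ)))) := by ring
        _ ≤ _ := by gcongr
  have htot : (Vn N : ℝ)
      ≤ ((minSet L).biUnion img).card + (band.biUnion img).card + Bad.card := by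
    rw [(mem_Vn_filter (m := 0)).1]
    have := (Finset.card_le_card hsub).trans ((Finset.card_union_le _ _).trans
      (Nat.add_le_add_right (Finset.card_union_le _ _) _))
    exact_mod_cast this
  rw [mul_add]
  linarith

end Vale.Agent.P031
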