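import Mathlib
import Vale.Agent.P031.MainUpper
import Vale.Agent.P031.MainLower

/-!
The Erdős–Hall regularity `V(cx)/V(x) → c`, from the collision and boundary-layer estimates.
-/

namespace Vale.Agent.P031

open Finset Real Filter Topology

/-- The number of distinct totient values up to `x`. -/
noncomputable def V (x : ℝ) : ℕ :=
  {v : ℕ | (v:ℝ) ≤ x ∧ ∃ n : ℕ, 1 ≤ n ∧ Nat.totient n = v}.ncard

lemma V_eq_Vn {x : ℝ} (hx : 0 ≤ x) : V x = Vn ⌊x⌋₊ := by
  classical
  rw [(mem_Vn_filter (m := 0)).1, V, ← Set.ncard_coe_finset]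
  congr 1
  ext v
  simp only [Set.mem_ofPred_eq, Finset.coe_filter, Finset.mem_Icc]
  constructor
  · rintro ⟨hv, n, hn, rfl⟩
    exact ⟨⟨Nat.totient_pos.mpr hn, Nat.le_floor hv⟩, n, hn, rfl⟩
  · rintro ⟨⟨-, hv⟩, n, hn, rfl⟩
    exact ⟨(Nat.le_floor_iff hx).mp hv, n, hn, rfl⟩

lemma tendsto_sc : Tendsto sc atTop atTop := by
  refine tendsto_atTop_atTop_of_monotone (fun a b h ↦ sc_mono h) fun s ↦
    ⟨⌈Real.exp (Real.exp (s:ℝ))⌉₊ + 1, le_of_lt ?_⟩
  rw [lt_sc_iff]
  have h1 : Real.exp (Real.exp (s:ℝ)) < ((⌈Real.exp (Real.exp (s:ℝ))⌉₊ + 1 : ℕ) : ℝ) := by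
    push_cast
    linarith [Nat.le_ceil (Real.exp (Real.exp (s:ℝ)))]
  exact (Real.lt_log_iff_exp_lt (lt_trans (Real.exp_pos _) h1)).mpr h1

/-- Scales of comparable integers differ by at most one. -/
lemma ev_sc_close (b : ℝ) :
    ∀ᶠ N : ℕ in atTop, ∀ M : ℕ, (M:ℝ) ≤ b * N → sc M ≤ sc N + 1 := by
  filter_upwards [eventually_ge_atTop 2,
    (tendsto_natCast_atTop_atTop.comp tendsto_sc).eventually (eventually_ge_atTop b)]
    with N hN hb M hM
  rw [sc_le_iff]
  rcases Nat.eq_zero_or_pos M with rfl | hM0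
  · simp [(Real.exp_pos _).le]
  have hM' : (0:ℝ) < M := by exact_mod_cast hM0
  have hN' : (2:ℝ) ≤ N := by exact_mod_cast hN
  have hb0 : 0 < b := pos_of_mul_pos_left (lt_of_lt_of_le hM' hM) (by linarith)
  have h := Real.log_le_log hM' hM
  rw [Real.log_mul hb0.ne' (by linarith)] at h
  have h1 := log_le_exp_sc N
  have h2 : Real.log b ≤ Real.exp (sc N : ℝ) := by
    refine (Real.log_le_self hb0.le).trans ?_
    simp only [Function.comp_apply] at hb
    linarith [Real.add_one_le_exp (sc N : ℝ)]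
  push_cast
  rw [Real.exp_add]
  have := mul_le_mul_of_nonneg_left (show (2:ℝ) ≤ Real.exp 1 by
    linarith [Real.add_one_le_exp (1:ℝ)]) (Real.exp_pos (sc N : ℝ)).le
  linarith

/-- `V(ax)` is at most about `a V(x)`. -/
lemma ev_compare (hcoll : CollisionBound) (hband : BandNegligible) {a ε : ℝ} (ha : 0 < a)
    (hε : 0 < ε) :
    ∀ᶠ x : ℝ in atTop, (V (a * x) : ℝ) ≤ (a + ε) * V x ∧ (0:ℝ) < V x := by
  set η := ε / (1 + 1201 * a + ε) with hη
  have hden : 0 < 1 + 1201 * a + ε := by positivity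
  have hη0 : 0 < η := by positivity
  have hη1 : η < 1 := by rw [hη, div_lt_one hden]; linarith
  have hηε : η * (1 + 1201 * a + ε) = ε := div_mul_cancel₀ ε hden.ne'
  obtain ⟨n₀, hn₀⟩ := Filter.eventually_atTop.mp (ev_primeCounting_scale ha hη0)
  have hL : ∀ᶠ L : ℕ in atTop, ∀ N N' : ℕ, sc N = L → sc N' ≤ L + 1 → L ≤ sc N' + 1 →
      (N':ℝ) ≤ a * (N + 1) → (Vn N' : ℝ) ≤ (a + ε) * Vn N ∧ (0:ℝ) < Vn N := by
    filter_upwards [ev_upper hη0, ev_lower hcoll hη0, hband η hη0, ev_sum_le_mainSum,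
      ev_one_le_sum_minSet, ev_minSet_log_le', ev_quot_ge n₀, eventually_ge_atTop 2]
      with L hU hLow hB hmain hone hlog hquot hL2 N N' hN h1 h2 hNN'
    set S := mainSum L N with hS
    set Tm := ∑ m ∈ minSet L, (1:ℝ) / m with hT
    have hN1 : 1 ≤ N := by
      rcases Nat.eq_zero_or_pos N with rfl | h
      · rw [sc_zero] at hN; omega
      · exact h
    have hN1r : (1:ℝ) ≤ N := by exact_mod_cast hN1
    have hSpos : 0 < S := by
      have h := hmain N hN
      have hpos : 0 < (N:ℝ) / Real.exp (L:ℝ) * Tm :=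
        mul_pos (div_pos (by linarith) (Real.exp_pos _)) (by linarith)
      linarith
    have hscale : mainSum L N' ≤ (a + η) * S := by
      rw [hS, mainSum, mainSum, Finset.mul_sum]
      refine Finset.sum_le_sum fun m hm ↦ ?_
      have hm1 := (mem_minSet.mp hm).1.1
      refine hn₀ _ (hquot N m (by omega) hm1 ?_) _ ?_
      · linarith [hlog N (by omega) m hm, Real.log_natCast_nonneg N]
      · have e1 : ((N:ℝ) + 1) / m ≤ ((N / m + 1 : ℕ) : ℝ) := by
          rw [div_le_iff₀ (by exact_mod_cast hm1)]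
          exact_mod_cast (show N + 1 ≤ (N / m + 1) * m from Nat.lt_div_mul_add hm1 |>.trans_eq
            (by ring))
        have e2 : ((N' / m : ℕ) : ℝ) ≤ a * ((N / m + 1 : ℕ) : ℝ) := by
          calc ((N' / m : ℕ) : ℝ) ≤ (N':ℝ) / m := Nat.cast_div_le
            _ ≤ a * ((N:ℝ) + 1) / m := by gcongr
            _ = a * (((N:ℝ) + 1) / m) := by ring
            _ ≤ _ := mul_le_mul_of_nonneg_left e1 ha.le
        push_cast at e2 ⊢
        linarith
    have herr : (N':ℝ) / Real.exp (sc N' : ℝ) * (48 * (∑ m ∈ bandSet L, (1:ℝ) / m) + η)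
        ≤ 1200 * a * η * S := by
      have hE : Real.exp (L:ℝ) ≤ 3 * Real.exp (sc N' : ℝ) := by
        have h2' : (L:ℝ) ≤ (sc N' : ℝ) + 1 := by exact_mod_cast h2
        calc Real.exp (L:ℝ) ≤ Real.exp ((sc N' : ℝ) + 1) := Real.exp_le_exp.mpr h2'
          _ ≤ _ := by
              rw [Real.exp_add, mul_comm]
              gcongr
              linarith [Real.exp_one_lt_d9]
      have e1 : (N':ℝ) / Real.exp (sc N' : ℝ) ≤ 6 * a * ((N:ℝ) / Real.exp (L:ℝ)) := by
        rw [← mul_div_assoc, div_le_div_iff₀ (Real.exp_pos _) (Real.exp_pos _)]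
        have hN2 : (N':ℝ) ≤ 2 * a * N := by
          have := mul_le_mul_of_nonneg_left hN1r ha.le
          linarith
        calc (N':ℝ) * Real.exp (L:ℝ) ≤ 2 * a * N * (3 * Real.exp (sc N' : ℝ)) := by gcongr
          _ = _ := by ring
      have e2 : 48 * (∑ m ∈ bandSet L, (1:ℝ) / m) + η ≤ 50 * η * Tm := by
        have := mul_le_mul_of_nonneg_left hone hη0.le
        linarith
      calc _ ≤ 6 * a * ((N:ℝ) / Real.exp (L:ℝ)) * (50 * η * Tm) :=
            mul_le_mul e1 e2 (add_nonneg (mul_nonneg (by norm_num)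
              (Finset.sum_nonneg fun i _ ↦ by positivity)) hη0.le) (by positivity)
        _ = 300 * a * η * ((N:ℝ) / Real.exp (L:ℝ) * Tm) := by ring
        _ ≤ 300 * a * η * (4 * S) :=
            mul_le_mul_of_nonneg_left (hmain N hN) (by positivity)
        _ = _ := by ring
    have hup := hU N' h1 h2
    have hlow := hLow N hN
    refine ⟨?_, lt_of_lt_of_le (mul_pos (by linarith) hSpos) hlow⟩
    have h3 : (Vn N' : ℝ) ≤ (a + η + 1200 * a * η) * S := by linarith
    refine h3.trans (le_trans (le_of_eq ?_) (mul_le_mul_of_nonneg_left hlow (by linarith)))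
    rw [← mul_assoc]
    congr 1
    linear_combination hηε
  have hfloor : Tendsto (fun x : ℝ ↦ ⌊x⌋₊) atTop atTop := tendsto_nat_floor_atTop
  have hfloor' : Tendsto (fun x : ℝ ↦ ⌊a * x⌋₊) atTop atTop :=
    hfloor.comp (tendsto_id.const_mul_atTop ha)
  filter_upwards [(tendsto_sc.comp hfloor).eventually hL,
    hfloor.eventually (ev_sc_close (2 * a)), hfloor'.eventually (ev_sc_close (2 / a)),
    eventually_ge_atTop (2:ℝ),
    (tendsto_id.const_mul_atTop ha).eventually (eventually_ge_atTop (2:ℝ))]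
    with x hx hclose hclose' hx2 hax
  simp only [id] at hax
  have f1 : (⌊x⌋₊ : ℝ) ≤ x := Nat.floor_le (by linarith)
  have f2 : x < (⌊x⌋₊ : ℝ) + 1 := Nat.lt_floor_add_one x
  have f3 : (⌊a * x⌋₊ : ℝ) ≤ a * x := Nat.floor_le (by linarith)
  have f4 : a * x < (⌊a * x⌋₊ : ℝ) + 1 := Nat.lt_floor_add_one _
  have e3 : (⌊a * x⌋₊ : ℝ) ≤ a * ((⌊x⌋₊ : ℝ) + 1) :=
    f3.trans (mul_le_mul_of_nonneg_left f2.le ha.le)
  have e4 : (⌊a * x⌋₊ : ℝ) ≤ 2 * a * (⌊x⌋₊ : ℝ) := by
    refine e3.trans ?_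
    have := mul_le_mul_of_nonneg_left (show (1:ℝ) ≤ (⌊x⌋₊ : ℝ) by linarith) ha.le
    linarith
  have e5 : (⌊x⌋₊ : ℝ) ≤ 2 / a * (⌊a * x⌋₊ : ℝ) := by
    rw [div_mul_eq_mul_div, le_div_iff₀ ha]
    have := mul_le_mul_of_nonneg_left f1 ha.le
    linarith
  have h := hx ⌊x⌋₊ ⌊a * x⌋₊ rfl (hclose _ e4) (hclose' _ e5) e3
  rwa [V_eq_Vn (by linarith), V_eq_Vn (by linarith)]

/-- The Erdős–Hall regularity, from the collision and boundary-layer estimates. -/
theorem erdos_hall_of (hcoll : CollisionBound) (hband : BandNegligible) :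
    ∀ c : ℝ, 1 < c → Tendsto (fun x : ℝ => (V (c * x) : ℝ) / (V x : ℝ)) atTop (nhds c) := by
  intro c hc
  have hc0 : 0 < c := by linarith
  rw [tendsto_order]
  constructor
  · intro b hb
    rcases le_or_gt b 0 with hb0 | hb0
    · have hpos := ((tendsto_id.const_mul_atTop hc0).eventually
        (ev_compare hcoll hband (inv_pos.mpr hc0) one_pos))
      filter_upwards [hpos, ev_compare hcoll hband hc0 one_pos] with x h1 h2
      exact lt_of_le_of_lt hb0 (div_pos h1.2 h2.2)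
    · set ε := (1 / b - 1 / c) / 2 with hε
      have hbc : 1 / c < 1 / b := one_div_lt_one_div_of_lt hb0 hb
      have hεpos : 0 < ε := by rw [hε]; linarith
      filter_upwards [(tendsto_id.const_mul_atTop hc0).eventually
        (ev_compare hcoll hband (inv_pos.mpr hc0) hεpos),
        ev_compare hcoll hband hc0 one_pos] with x h1 h2
      simp only [id, inv_mul_cancel_left₀ hc0.ne'] at h1
      rw [lt_div_iff₀ h2.2]
      have h3 : c⁻¹ + ε < 1 / b := by rw [hε, ← one_div]; linarith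
      have h4 : (V x : ℝ) < 1 / b * (V (c * x) : ℝ) :=
        lt_of_le_of_lt h1.1 (mul_lt_mul_of_pos_right h3 h1.2)
      rw [one_div_mul_eq_div, lt_div_iff₀ hb0] at h4
      linarith
  · intro b hb
    filter_upwards [ev_compare hcoll hband hc0 (half_pos (sub_pos.mpr hb))] with x h
    rw [div_lt_iff₀ h.2]
    exact lt_of_le_of_lt h.1 (mul_lt_mul_of_pos_right (by linarith) h.2)

end Vale.Agent.P031
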